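import Crest.Agent.X212.Line51.Defs
import Crest.Agent.X212.Num57.Pt
import Crest.Agent.X212.Wz78.Core

/-!
# X212 / Line51, part Cm (helper51): the connection matrix of a line

* `fsm_e1`, `e2_dM` : components of one-forms along vector fields;
* `L.cm I x v = [p, dp(v)] + i a(v) p`, skew, `p` is parallel, natural, intertwined by `Iso`.
-/

set_option autoImplicit false
set_option linter.unusedSectionVars false

open Set Filter Topology Function Matrix Module
open scoped ContDiff Manifold Kronecker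
open Crest.Agent.R208 Crest.Agent.R208.F Crest.Agent.R208.FI Crest.Agent.X212.Dr59
  Crest.Agent.X212.Pj41
open Crest.Agent.X212.Num57 (e1 e2)
open Crest.Agent.X212.Sob92 (dv)

noncomputable section

namespace Crest.Agent.X212.Line51

variable {E : Type*} [NormedAddCommGroup E] [NormedSpace ℝ E] [FiniteDimensional ℝ E]
  {H : Type*} [TopologicalSpace H] {I : ModelWithCorners ℝ E H}
  {M : Type*} [TopologicalSpace M] [ChartedSpace H M]
  {E' : Type*} [NormedAddCommGroup E'] [NormedSpace ℝ E'] [FiniteDimensional ℝ E']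
  {H' : Type*} [TopologicalSpace H'] {J : ModelWithCorners ℝ E' H'}
  {N : Type*} [TopologicalSpace N] [ChartedSpace H' N]
  {κ l m : Type*} [Fintype κ] [Fintype l] [Fintype m]

theorem e1_pb (A : E' →ₗ[ℝ] E) (c : Ext E) (v : E') : e1 (pb A c) v = e1 c (A v) := by
  rw [e1, e1, evA_pb]
  congr 1
  funext i
  fin_cases i
  rfl

theorem e2_pb (A : E' →ₗ[ℝ] E) (c : Ext E) (v w : E') : e2 (pb A c) v w = e2 c (A v) (A w) := by
  rw [e2, e2, evA_pb]
  congr 1
  funext i
  fin_cases i <;> rfl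

/-- evaluation of a form on one vector as a functional -/
def e1L (c : Ext E) : Dual ℝ E where
  toFun := e1 c
  map_add' v w := by simp only [Num57.e1_eq, map_add, LinearMap.add_apply, AlternatingMap.add_apply]
  map_smul' r v := by
    simp only [Num57.e1_eq, map_smul, LinearMap.smul_apply, AlternatingMap.smul_apply,
      RingHom.id_apply]

theorem e1_df (g : M → ℝ) (x : M) (e : (y : M) → TangentSpace I y) :
    e1 (df I g x) (e x) = dv I e g x := Num57.e1_io _ _

theorem e1_th (u : M → Matrix κ l ℂ) (x : M) (v : E) :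
    e1 (th I u x) v = ((u x)ᴴ * dm I u x v).trace.im := Num57.e1_io _ _

section ev

variable [I.Boundaryless] [IsManifold I ∞ M] {α : M → Ext E} {x : M}

/-- a one-form is locally a sum `∑ f dg` -/
theorem exists_rep1 (ha : SmAt I α x) (hd : ∀ᶠ y in 𝓝 x, IsDeg 1 (α y)) :
    ∃ f g : Fin (finrank ℝ E) → M → ℝ, (∀ i, FSm I (f i) x ∧ FSm I (g i) x) ∧
      α =ᶠ[𝓝 x] ∑ i, f i • df I (g i) := by
  let b := finBasis ℝ E
  let ev : E → Ext E →L[ℝ] ℝ := fun v => LinearMap.toContinuousLinearMap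
    { toFun := fun c => e1 c v, map_add' := fun a b => Num57.e1_add a b v,
      map_smul' := fun r a => Num57.e1_smul r a v }
  let co : Fin (finrank ℝ E) → E →L[ℝ] ℝ := fun i => LinearMap.toContinuousLinearMap (b.coord i)
  have hx := contMDiffAt_chart (I := I) (mem_extChartAt_source x)
  refine ⟨fun i y => ev (b i) (rp I x α (extChartAt I x y)), fun i y => co i (extChartAt I x y),
    fun i => ⟨((ev (b i)).contDiff.contDiffAt.comp _ ha).comp_contMDiffAt hx,
      (co i).contDiff.contDiffAt.comp_contMDiffAt hx⟩, ?_⟩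
  filter_upwards [hd, (isOpen_extChartAt_source (I := I) x).mem_nhds (mem_extChartAt_source x)]
    with y h1 h2
  refine Num57.ext1 h1 (dg_sum (U := univ) (fun i _ => (dg_df _).fsmul _) y trivial) fun v => ?_
  rw [← pm_chart_rp h2 α, pm_apply, e1_pb, Finset.sum_apply, Num57.e1_sum]
  conv_lhs => rw [← b.sum_repr ((mf I 𝓘(ℝ, E) (extChartAt I x) y : E →ₗ[ℝ] E) v), Num57.e1_vsum]
  refine Finset.sum_congr rfl fun i _ => ?_
  rw [Pi.smul_apply', Num57.e1_smul, mul_comm]
  congr 1
  exact ((e1_df _ y fun _ => v).trans (Sob92.dv_clm (e := fun _ => v) (co i)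
    ((contMDiffAt_chart h2).mdifferentiableAt ne0))).symm

theorem e1_rep {ι : Type*} [Fintype ι] {f g : ι → M → ℝ} (h : α =ᶠ[𝓝 x] ∑ i, f i • df I (g i))
    (e : (y : M) → TangentSpace I y) :
    (fun y => e1 (α y) (e y)) =ᶠ[𝓝 x] fun y => ∑ i, f i y * dv I e (g i) y :=
  h.mono fun y hy => by
    simp only [hy, Finset.sum_apply]
    exact (Num57.e1_sum (E := E) _ _ (e y)).trans (Finset.sum_congr rfl fun i _ =>
      (Num57.e1_smul (E := E) _ _ (e y)).trans (congrArg _ (e1_df _ y e)))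

theorem fsm_e1 (ha : SmAt I α x) (hd : ∀ᶠ y in 𝓝 x, IsDeg 1 (α y))
    {e : (y : M) → TangentSpace I y}
    (he : ContMDiffAt I I.tangent ∞ (fun y => (⟨y, e y⟩ : TangentBundle I M)) x) :
    FSm I (fun y => e1 (α y) (e y)) x := by
  obtain ⟨f, g, h1, h2⟩ := exists_rep1 ha hd
  exact (FSm.sum' fun i _ => (h1 i).1.mul' (Sob92.dv_smoothAt he (h1 i).2)).congr_of_eventuallyEq
    (e1_rep h2 e)

/-- the exterior derivative of a one-form in a frame -/
theorem e2_dM {ι : Type*} [Fintype ι] {e : ι → (y : M) → TangentSpace I y} {P : ι → ι → M → ℝ}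
    {c : ι → ι → ι → M → ℝ} (F : Wz78.Frm I e P c) (ha : SmAt I α x)
    (hd : ∀ᶠ y in 𝓝 x, IsDeg 1 (α y)) (a b : ι) :
    e2 (dM I α x) (e a x) (e b x) = dv I (e a) (fun y => e1 (α y) (e b y)) x -
      dv I (e b) (fun y => e1 (α y) (e a y)) x - ∑ k, c a b k x * e1 (α x) (e k x) := by
  obtain ⟨f, g, h1, h2⟩ := exists_rep1 ha hd
  have k : ∀ a b, dv I (e a) (fun y => e1 (α y) (e b y)) x = ∑ i, (dv I (e a) (f i) x *
      dv I (e b) (g i) x + f i x * dv I (e a) (dv I (e b) (g i)) x) := fun a b => by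
    rw [Sob92.dv_congr (e1_rep h2 (e b)),
      Wz78.dv_sum' _ fun i => Wz78.SA.mul (h1 i).1 (F.sD b (h1 i).2)]
    exact Finset.sum_congr rfl fun i _ => Wz78.dv_mul (h1 i).1 (F.sD b (h1 i).2)
  have k2 : ∑ k, c a b k x * e1 (α x) (e k x) = ∑ i, f i x * (dv I (e a) (dv I (e b) (g i)) x -
      dv I (e b) (dv I (e a) (g i)) x) := by
    simp only [fun k => (e1_rep h2 (e k)).self_of_nhds, fun i => F.br a b (g i) x (h1 i).2,
      Finset.mul_sum]
    rw [Finset.sum_comm]
    exact Finset.sum_congr rfl fun i _ => Finset.sum_congr rfl fun k _ => by ring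
  rw [k, k, k2, dM_congr h2, dM_sum ne0 fun i _ => (smAt_df (h1 i).2).fsmul le_rfl (h1 i).1,
    ← Finset.sum_sub_distrib, ← Finset.sum_sub_distrib]
  refine (Num57.e2_sum (E := E) _ _ (e a x) (e b x)).trans (Finset.sum_congr rfl fun i _ => ?_)
  rw [dM_fsmul ne0 ((h1 i).1.mdifferentiableAt ne0) (smAt_df (h1 i).2), dM_df (h1 i).2, smul_zero,
    add_zero]
  refine (Num57.e2_io_io (E := E) _ _ (e a x) (e b x)).trans ?_
  show dv I (e a) (f i) x * dv I (e b) (g i) x - dv I (e b) (f i) x * dv I (e a) (g i) x = _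
  ring

theorem msm_dm {u : M → Matrix κ l ℂ} (hu : MSm I u x) {e : (y : M) → TangentSpace I y}
    (he : ContMDiffAt I I.tangent ∞ (fun y => (⟨y, e y⟩ : TangentBundle I M)) x) :
    MSm I (fun y => dm I u y (e y)) x := fun i j => Sob92.dv_smoothAt he (hu i j)

end ev

variable (I) in
/-- the connection matrix -/
def Ln.cm (L : Ln E M κ) (x : M) : E →ₗ[ℝ] Matrix κ κ ℂ where
  toFun v := L.p x * dm I L.p x v - dm I L.p x v * L.p x + e1L (L.a x) v • (Complex.I • L.p x)
  map_add' v w := by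
    simp only [dm_vadd, map_add, Matrix.mul_add, Matrix.add_mul, add_smul]
    abel
  map_smul' r v := by
    simp only [dm_vsmul, map_smul, Matrix.mul_smul, Matrix.smul_mul, smul_eq_mul, mul_smul,
      RingHom.id_apply, smul_add, smul_sub]

variable {L : Ln E M κ} {K : Ln E M l} {U : Set M} {x : M}

theorem Ln.cm_apply (v : E) : L.cm I x v =
    L.p x * dm I L.p x v - dm I L.p x v * L.p x + e1 (L.a x) v • (Complex.I • L.p x) := rfl

theorem cm_triv (α : M → Ext E) (v : E) :
    (triv α).cm I x v = e1 (α x) v • (Complex.I • (1 : Matrix Unit Unit ℂ)) := by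
  simp [Ln.cm_apply, triv]

theorem cm_congr {L' : Ln E M κ} (h : L'.p =ᶠ[𝓝 x] L.p) (h' : L'.a x = L.a x) :
    L'.cm I x = L.cm I x := by
  ext1 v
  rw [Ln.cm_apply, Ln.cm_apply, dm_congr h, h.self_of_nhds, h']

theorem cm_shift (b : M → Ext E) (v : E) :
    (L.shift b).cm I x v = L.cm I x v + e1 (b x) v • (Complex.I • L.p x) := by
  simp only [Ln.cm_apply, Ln.shift, Pi.add_apply, Num57.e1_add, add_smul, add_assoc]

theorem cm_pull {f : N → M} {y : N} (hp : MSm I L.p (f y)) (hf : MDifferentiableAt J I f y)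
    (v : E') : (L.pull J I f).cm J y v = L.cm I (f y) (mf J I f y v) := by
  rw [Ln.cm_apply, Ln.cm_apply, ← dm_comp hp hf]
  show _ + e1 (pm J I f L.a y) v • _ = _
  rw [pm_apply, e1_pb]
  rfl

theorem Ln.On.dm_herm (hU : IsOpen U) (h : L.On I U) (hx : x ∈ U) (v : E) :
    (dm I L.p x v)ᴴ = dm I L.p x v := by
  rw [← dm_ct (h.sm x hx)]
  exact dm_congr (eventually_of_mem (hU.mem_nhds hx) fun y hy => (h.prj y hy).herm) v

theorem Ln.On.dm_eq (hU : IsOpen U) (h : L.On I U) (hx : x ∈ U) (v : E) :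
    dm I L.p x v * L.p x + L.p x * dm I L.p x v = dm I L.p x v := by
  rw [← dm_mul (h.sm x hx) (h.sm x hx)]
  exact dm_congr (eventually_of_mem (hU.mem_nhds hx) fun y hy => (h.prj y hy).idem) v

theorem Ln.On.dm_zero (hU : IsOpen U) (h : L.On I U) (hx : x ∈ U) (v : E) :
    L.p x * dm I L.p x v * L.p x = 0 := by
  have k := congrArg (L.p x * ·) (h.dm_eq hU hx v)
  simp only [Matrix.mul_add, ← Matrix.mul_assoc, (h.prj x hx).idem] at k
  exact add_eq_right.1 k

theorem Ln.On.cm_ct (hU : IsOpen U) (h : L.On I U) (hx : x ∈ U) (v : E) :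
    (L.cm I x v)ᴴ = -L.cm I x v := by
  simp only [Ln.cm_apply, conjTranspose_add, conjTranspose_sub, conjTranspose_mul,
    conjTranspose_smul, h.dm_herm hU hx, (h.prj x hx).herm, star_trivial, Complex.star_def,
    Complex.conj_I, neg_smul, smul_neg]
  abel

theorem Ln.On.cm_par (hU : IsOpen U) (h : L.On I U) (hx : x ∈ U) (v : E) :
    dm I L.p x v + (L.cm I x v * L.p x - L.p x * L.cm I x v) = 0 := by
  have h1 := h.dm_zero hU hx v
  have h2 := (h.prj x hx).idem
  simp only [Ln.cm_apply, Matrix.add_mul, Matrix.sub_mul, Matrix.mul_add, Matrix.mul_sub,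
    Matrix.smul_mul, Matrix.mul_smul, ← Matrix.mul_assoc, h1, h2]
  rw [Matrix.mul_assoc, h2]
  nth_rw 1 [← h.dm_eq hU hx v]
  abel

theorem rank_one {p : Matrix κ κ ℂ} (hp : Prj p) (ht : p.trace = 1) (Y : Matrix κ κ ℂ) :
    p * Y * p = (p * Y).trace • p := by
  obtain ⟨s, hs⟩ := exists_unit hp ht
  have k : sᴴ * Y * s = (p * Y).trace • (1 : Matrix Unit Unit ℂ) := by
    rw [← hs.tgt, Matrix.mul_assoc s, trace_mul_comm]
    ext i j
    simp [Matrix.trace]
  calc p * Y * p = s * (sᴴ * Y * s) * sᴴ := by rw [← hs.tgt]; simp only [Matrix.mul_assoc]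
    _ = _ := by rw [k, Matrix.mul_smul, Matrix.mul_one, Matrix.smul_mul, hs.tgt]

/-- a parallel isometry intertwines the connection matrices -/
theorem Iso.cm {u : M → Matrix l κ ℂ} (hU : IsOpen U) (h : Iso I L K u U) (hL : L.On I U)
    (hK : K.On I U) (hx : x ∈ U) (v : E) :
    dm I u x v + K.cm I x v * u x - u x * L.cm I x v = 0 := by
  have hu := h.sm x hx
  have i := h.iso x hx
  have ev : ∀ᶠ y in 𝓝 x, y ∈ U := hU.mem_nhds hx
  have e1' : dm I K.p x v * u x + K.p x * dm I u x v = dm I u x v := by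
    rw [← dm_mul (hK.sm x hx) hu]
    exact dm_congr (ev.mono fun y hy => (h.iso y hy).left) v
  have e2' : dm I u x v * L.p x + u x * dm I L.p x v = dm I u x v := by
    rw [← dm_mul hu (hL.sm x hx)]
    exact dm_congr (ev.mono fun y hy => (h.iso y hy).idem) v
  have e3 : K.p x * dm I K.p x v * u x = 0 := by
    rw [← i.left, ← Matrix.mul_assoc, hK.dm_zero hU hx, Matrix.zero_mul]
  have e4 : u x * dm I L.p x v * L.p x = 0 := by
    rw [← i.idem, Matrix.mul_assoc (u x), Matrix.mul_assoc (u x), hL.dm_zero hU hx, Matrix.mul_zero]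
  have e5 : ((u x)ᴴ * dm I u x v).trace.re = 0 := by
    have k := dm_congr (I := I) (u := fun y => (u y)ᴴ * u y) (u' := L.p)
      (ev.mono fun y hy => (h.iso y hy).src) v
    have k2 : (dm I L.p x v).trace = 0 := by
      rw [← hL.dm_eq hU hx v, trace_add, trace_mul_comm, ← two_mul]
      nth_rw 1 [← (hL.prj x hx).idem]
      rw [Matrix.mul_assoc, trace_mul_comm, hL.dm_zero hU hx, trace_zero, mul_zero]
    rw [← k, dm_mul hu.ct hu, dm_ct hu, trace_add, ← conjTranspose_conjTranspose (u x),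
      ← conjTranspose_mul, trace_conjTranspose, conjTranspose_conjTranspose] at k2
    have k3 := congrArg Complex.re k2
    simp only [Complex.add_re, Complex.star_def, Complex.conj_re, Complex.zero_re] at k3
    linarith
  have e6 : K.p x * dm I u x v * L.p x = e1 (th I u x) v • (Complex.I • u x) := by
    calc K.p x * dm I u x v * L.p x = u x * (L.p x * ((u x)ᴴ * dm I u x v) * L.p x) := by
          rw [← i.tgt, ← Matrix.mul_assoc (L.p x), i.ct_left]; simp only [Matrix.mul_assoc]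
      _ = _ := by
          rw [rank_one (hL.prj x hx) (hL.tr x hx), ← Matrix.mul_assoc (L.p x), i.ct_left,
            Matrix.mul_smul, i.idem, e1_th, ← smul_assoc]
          congr 1
          exact Complex.ext (by simp [e5]) (by simp)
  have e7 : K.p x * dm I u x v = e1 (th I u x) v • (Complex.I • u x) + u x * dm I L.p x v := by
    nth_rw 1 [← e2']
    rw [Matrix.mul_add, ← Matrix.mul_assoc, ← Matrix.mul_assoc, e6, i.left]
  have e8 : dm I K.p x v * K.p x * u x = dm I K.p x v * u x := by rw [Matrix.mul_assoc, i.left]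
  simp only [Ln.cm_apply, Matrix.add_mul, Matrix.sub_mul, Matrix.mul_add, Matrix.mul_sub,
    Matrix.smul_mul, Matrix.mul_smul, ← Matrix.mul_assoc, e3, e4, e8, i.left, i.idem]
  nth_rw 1 [← e1']
  rw [e7, ← h.par x hx, Num57.e1_add, add_smul]
  abel

theorem Ln.On.msm_cm [I.Boundaryless] [IsManifold I ∞ M] (hU : IsOpen U) (h : L.On I U)
    (hx : x ∈ U) {e : (y : M) → TangentSpace I y}
    (he : ContMDiffAt I I.tangent ∞ (fun y => (⟨y, e y⟩ : TangentBundle I M)) x) :
    MSm I (fun y => L.cm I y (e y)) x :=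
  (((h.sm x hx).mul (msm_dm (h.sm x hx) he)).sub ((msm_dm (h.sm x hx) he).mul (h.sm x hx))).add
    (MSm.rsmul (fsm_e1 (h.sa x hx) (eventually_of_mem (hU.mem_nhds hx) h.dg) he)
      (MSm.smul contMDiffAt_const (h.sm x hx)))

end Crest.Agent.X212.Line51
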