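import Crest.Agent.X212.Line51.Glue
import Crest.Agent.X212.Pic56.Mat

/-!
# X212 / Line51, part Lit (helper51): stabilisation, literal lines, cylinders

* `L.emb I w`, `L.cj V`, `em e` : the same line in another ambient space;
* `exists_lit`, `exists_lit_fam` : a line isometric to `q` on `O` is isomorphic to a line whose projector is
  literally `V₂ q V₂ᴴ` where the cut-off is `1`;
* `exists_uni_cyl`, `exists_fr_cyl` : lines on `Y × (-R, R)` are pulled back from `Y`.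
-/

set_option autoImplicit false
set_option linter.unusedSectionVars false

open Set Filter Topology Function Matrix
open scoped ContDiff Manifold Kronecker
open Crest.Agent.R208 Crest.Agent.R208.F Crest.Agent.R208.FI Crest.Agent.X212.Dr59
  Crest.Agent.X212.Pj41

noncomputable section

namespace Crest.Agent.X212.Line51

variable {E : Type*} [NormedAddCommGroup E] [NormedSpace ℝ E] [FiniteDimensional ℝ E]
  {H : Type*} [TopologicalSpace H] {I : ModelWithCorners ℝ E H}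
  {M : Type*} [TopologicalSpace M] [ChartedSpace H M]
  {E' : Type*} [NormedAddCommGroup E'] [NormedSpace ℝ E'] [FiniteDimensional ℝ E']
  {H' : Type*} [TopologicalSpace H'] {J : ModelWithCorners ℝ E' H'}
  {N : Type*} [TopologicalSpace N] [ChartedSpace H' N]
  {κ l m n : Type*} [Fintype κ] [Fintype l] [Fintype m] [Fintype n]
  {L : Ln E M κ} {U O : Set M} {x : M}

theorem th_const_mul {u : M → Matrix l κ ℂ} (V : Matrix m l ℂ) (hu : MSm I u x)
    (h : Vᴴ * V * u x = u x) : th I (fun y => V * u y) x = th I u x := by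
  refine congrArg io (LinearMap.ext fun v => ?_)
  have k := congrArg conjTranspose h
  rw [conjTranspose_mul, conjTranspose_mul, conjTranspose_conjTranspose, ← Matrix.mul_assoc] at k
  rw [tl_apply, tl_apply, dm_mul (MSm.const V) hu, dm_const, Matrix.zero_mul, zero_add,
    conjTranspose_mul, ← Matrix.mul_assoc, k]

variable (I) in
/-- transport of a line along an isometry field -/
def Ln.emb (L : Ln E M κ) (w : M → Matrix l κ ℂ) : Ln E M l :=
  ⟨fun x => w x * (w x)ᴴ, L.a - th I w⟩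

theorem iso_emb {w : M → Matrix l κ ℂ} (hp : ∀ x ∈ U, Prj (L.p x)) (hw : ∀ x ∈ U, MSm I w x)
    (h : ∀ x ∈ U, (w x)ᴴ * w x = L.p x) : Iso I L (L.emb I w) w U :=
  ⟨⟨hw, fun x hx => PIso.of_prj (hp x hx).idem (h x hx) rfl⟩, fun _ _ => add_sub_cancel _ _⟩

/-- stabilisation by a constant isometry -/
def Ln.cj (L : Ln E M κ) (V : Matrix l κ ℂ) : Ln E M l := ⟨fun x => V * L.p x * Vᴴ, L.a⟩

theorem cj_pull (V : Matrix l κ ℂ) (f : N → M) : (L.cj V).pull J I f = (L.pull J I f).cj V := rfl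

theorem cj_shift (V : Matrix l κ ℂ) (b : M → Ext E) : (L.cj V).shift b = (L.shift b).cj V := rfl

theorem piso_cj [DecidableEq κ] {V : Matrix l κ ℂ} (hV : Vᴴ * V = 1) {p : Matrix κ κ ℂ}
    (hp : Prj p) : PIso (V * p) p (V * p * Vᴴ) :=
  PIso.of_prj hp.idem (by
    rw [conjTranspose_mul, hp.herm, Matrix.mul_assoc, ← Matrix.mul_assoc Vᴴ, hV, Matrix.one_mul,
      hp.idem]) (by rw [conjTranspose_mul, hp.herm, ← Matrix.mul_assoc, Matrix.mul_assoc V, hp.idem])

theorem Ln.On.iso_cj [DecidableEq κ] (hU : IsOpen U) (h : L.On I U) {V : Matrix l κ ℂ}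
    (hV : Vᴴ * V = 1) : Iso I L (L.cj V) (fun x => V * L.p x) U :=
  ⟨⟨fun x hx => (MSm.const V).mul (h.sm x hx), fun x hx => piso_cj hV (h.prj x hx)⟩, fun x hx => by
    rw [th_const_mul V (h.sm x hx) (by rw [hV, Matrix.one_mul])]
    exact (Iso.refl hU h).par x hx⟩

/-- the matrix of a map of index sets -/
def em [DecidableEq l] (e : κ → l) : Matrix l κ ℂ := (1 : Matrix l l ℂ).submatrix id e

theorem em_mul [DecidableEq l] (e : κ → l) (e' : m → l) :
    (em e)ᴴ * em e' = (1 : Matrix l l ℂ).submatrix e e' := by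
  rw [em, em, conjTranspose_submatrix, conjTranspose_one, ← Equiv.coe_refl, submatrix_mul_equiv,
    Matrix.one_mul]

theorem em_iso [DecidableEq l] [DecidableEq κ] {e : κ → l} (h : Injective e) :
    (em e)ᴴ * em e = 1 := by rw [em_mul, submatrix_one _ h]

theorem em_orth [DecidableEq l] {e : κ → l} {e' : m → l} (h : ∀ i j, e i ≠ e' j) :
    (em e)ᴴ * em e' = 0 := by
  rw [em_mul]
  ext i j
  exact one_apply_ne (h i j)

variable [I.Boundaryless] [IsManifold I ∞ M] [J.Boundaryless] [IsManifold J ∞ N]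

theorem Ln.On.cj [DecidableEq κ] (hU : IsOpen U) (h : L.On I U) {V : Matrix l κ ℂ}
    (hV : Vᴴ * V = 1) : (L.cj V).On I U := (h.iso_cj hU hV).on hU h

theorem Ln.On.F_cj [DecidableEq κ] (hU : IsOpen U) (h : L.On I U) {V : Matrix l κ ℂ}
    (hV : Vᴴ * V = 1) (hx : x ∈ U) : (L.cj V).F I x = L.F I x := (h.iso_cj hU hV).F_eq hU h hx

/-- **literal lines** -/
theorem exists_lit [DecidableEq κ] [DecidableEq l] (hL : L.On I univ) {q : M → Matrix l l ℂ}
    {u : M → Matrix l κ ℂ} (h : Uni I L.p q u O) {ρ : M → ℝ} (hρ : ∀ x, FSm I ρ x)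
    (hs : tsupport ρ ⊆ O) {V₁ : Matrix m κ ℂ} {V₂ : Matrix m l ℂ} (h1 : V₁ᴴ * V₁ = 1)
    (h2 : V₂ᴴ * V₂ = 1) (h12 : V₁ᴴ * V₂ = 0) :
    ∃ (L' : Ln E M m) (w : M → Matrix m κ ℂ), L'.On I univ ∧ Iso I L L' w univ ∧
      (∀ x, ρ x = 1 → w x = V₂ * u x ∧ L'.p x = V₂ * q x * V₂ᴴ) ∧
      (∀ x, ρ x = 0 → w x = V₁ * L.p x ∧ L'.p x = V₁ * L.p x * V₁ᴴ) ∧
      (∀ x, (∀ᶠ y in 𝓝 x, ρ y = 1) → L'.a x = L.a x - th I u x) ∧
      ∀ x, (∀ᶠ y in 𝓝 x, ρ y = 0) → L'.a x = L.a x := by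
  let c : M → ℝ := fun x => Real.cos (Real.pi / 2 * ρ x)
  let s : M → ℝ := fun x => Real.sin (Real.pi / 2 * ρ x)
  let w : M → Matrix m κ ℂ := fun x => c x • (V₁ * L.p x) + s x • (V₂ * u x)
  have hθ : ∀ x, FSm I (fun y => Real.pi / 2 * ρ y) x := fun x => FSm.mul' contMDiffAt_const (hρ x)
  have hc : ∀ x, FSm I c x := fun x => Real.contDiff_cos.contDiffAt.comp_contMDiffAt (hθ x)
  have hs' : ∀ x, FSm I s x := fun x => Real.contDiff_sin.contDiffAt.comp_contMDiffAt (hθ x)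
  have hO : ∀ x, ρ x ≠ 0 → x ∈ O := fun x hx => hs (subset_tsupport _ hx)
  have w0 : ∀ x, ρ x = 0 → w x = V₁ * L.p x := fun x hx => by simp [w, c, s, hx]
  have w1 : ∀ x, ρ x = 1 → w x = V₂ * u x := fun x hx => by simp [w, c, s, hx]
  have h21 : V₂ᴴ * V₁ = 0 := by
    rw [← conjTranspose_conjTranspose V₁, ← conjTranspose_mul, h12, conjTranspose_zero]
  have sw : ∀ x ∈ univ, MSm I w x := fun x _ =>
    (MSm.rsmul (hc x) ((MSm.const _).mul (hL.sm x trivial))).add (MSm.cutoff (hs' x)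
      ((closure_mono (support_subset_iff'.2 fun y hy => by simp [s, notMem_support.1 hy])).trans hs)
      fun hx => (MSm.const _).mul (h.sm x hx))
  have ww : ∀ x ∈ univ, (w x)ᴴ * w x = L.p x := fun x _ => by
    by_cases hx : ρ x = 0
    · rw [w0 x hx]; exact (piso_cj h1 (hL.prj x trivial)).src
    · have a1 : (V₂ * u x)ᴴ * (V₂ * u x) = L.p x := by
        rw [conjTranspose_mul, Matrix.mul_assoc, ← Matrix.mul_assoc V₂ᴴ, h2, Matrix.one_mul,
          (h.iso x (hO x hx)).src]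
      have a2 : (V₁ * L.p x)ᴴ * (V₂ * u x) = 0 := by
        rw [conjTranspose_mul, Matrix.mul_assoc, ← Matrix.mul_assoc V₁ᴴ, h12]; simp
      have a3 : (V₂ * u x)ᴴ * (V₁ * L.p x) = 0 := by
        rw [conjTranspose_mul, Matrix.mul_assoc, ← Matrix.mul_assoc V₂ᴴ, h21]; simp
      simp only [w, conjTranspose_add, conjTranspose_smul, star_trivial, Matrix.add_mul,
        Matrix.mul_add, Matrix.smul_mul, Matrix.mul_smul, a1, a2, a3,
        (piso_cj h1 (hL.prj x trivial)).src, smul_zero, add_zero, zero_add, smul_smul, ← add_smul]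
      rw [← sq, ← sq, Real.cos_sq_add_sin_sq, one_smul]
  have i := iso_emb (fun x hx => hL.prj x hx) sw ww
  refine ⟨_, w, i.on isOpen_univ hL, i, fun x hx => ⟨w1 x hx, ?_⟩, fun x hx => ⟨w0 x hx, ?_⟩,
    fun x hx => ?_, fun x hx => ?_⟩
  · show w x * (w x)ᴴ = _
    rw [w1 x hx, conjTranspose_mul, ← (h.iso x (hO x (by simp [hx]))).tgt]
    simp only [Matrix.mul_assoc]
  · show w x * (w x)ᴴ = _
    rw [w0 x hx, (piso_cj h1 (hL.prj x trivial)).tgt]
  · show L.a x - th I w x = _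
    rw [th_congr (hx.mono w1), th_const_mul V₂ (h.sm x (hO x (by simp [hx.self_of_nhds])))
      (by rw [h2, Matrix.one_mul])]
  · show L.a x - th I w x = _
    rw [th_congr (hx.mono w0), th_const_mul V₁ (hL.sm x trivial) (by rw [h1, Matrix.one_mul]),
      th_herm (hL.sm x trivial) (Eventually.of_forall fun y => (hL.prj y trivial).herm), sub_zero]

/-- literal lines over a family of disjoint open sets -/
theorem exists_lit_fam [DecidableEq κ] [DecidableEq l] (hL : L.On I univ) {A : Type*}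
    {O : A → Set M} (hO : ∀ a, IsOpen (O a)) (hd : Pairwise (Disjoint on O))
    {q : A → M → Matrix l l ℂ} {u : A → M → Matrix l κ ℂ} (h : ∀ a, Uni I L.p (q a) (u a) (O a))
    {ρ : M → ℝ} (hρ : ∀ x, FSm I ρ x) (hs : tsupport ρ ⊆ ⋃ a, O a) {V₁ : Matrix m κ ℂ}
    {V₂ : Matrix m l ℂ} (h1 : V₁ᴴ * V₁ = 1) (h2 : V₂ᴴ * V₂ = 1) (h12 : V₁ᴴ * V₂ = 0) :
    ∃ (L' : Ln E M m) (w : M → Matrix m κ ℂ), L'.On I univ ∧ Iso I L L' w univ ∧
      (∀ a, ∀ x ∈ O a, ρ x = 1 → w x = V₂ * u a x ∧ L'.p x = V₂ * q a x * V₂ᴴ) ∧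
      (∀ x, ρ x = 0 → w x = V₁ * L.p x ∧ L'.p x = V₁ * L.p x * V₁ᴴ) ∧
      (∀ a, ∀ x ∈ O a, (∀ᶠ y in 𝓝 x, ρ y = 1) → L'.a x = L.a x - th I (u a) x) ∧
      ∀ x, (∀ᶠ y in 𝓝 x, ρ y = 0) → L'.a x = L.a x := by
  classical
  let t : M → Matrix l κ ℂ × Matrix l l ℂ := fun x =>
    if k : ∃ a, x ∈ O a then (u k.choose x, q k.choose x) else 0
  have ht : ∀ a, ∀ x ∈ O a, t x = (u a x, q a x) := fun a x hx => by
    have k : ∃ a, x ∈ O a := ⟨a, hx⟩
    have e : k.choose = a := by_contra fun e => disjoint_left.1 (hd e) k.choose_spec hx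
    simp only [t, dif_pos k, e]
  have ev : ∀ a, ∀ x ∈ O a, (fun y => (t y).1) =ᶠ[𝓝 x] u a := fun a x hx =>
    eventually_of_mem ((hO a).mem_nhds hx) fun y hy => by simp only [ht a y hy]
  obtain ⟨L', w, k1, k2, k3, k4, k5, k6⟩ := exists_lit hL (O := ⋃ a, O a) (q := fun x => (t x).2)
    (u := fun x => (t x).1) ⟨fun x hx => by
      obtain ⟨a, ha⟩ := mem_iUnion.1 hx
      exact ((h a).sm x ha).congr (ev a x ha), fun x hx => by
      obtain ⟨a, ha⟩ := mem_iUnion.1 hx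
      rw [ht a x ha]
      exact (h a).iso x ha⟩ hρ hs h1 h2 h12
  refine ⟨L', w, k1, k2, fun a x hx e => ?_, k4, fun a x hx e => ?_, k6⟩
  · simpa only [ht a x hx] using k3 x e
  · rw [k5 x e, th_congr (ev a x hx)]

theorem Ln.On.rk1 (h : L.On I U) (hx : x ∈ U) : Pic56.Rk1 (L.p x) :=
  Pic56.Rk1.of_trace (h.prj x hx).herm (h.prj x hx).idem (h.tr x hx)

theorem uni_of_liso {p : M → Matrix κ κ ℂ} {q : M → Matrix l l ℂ} {u : M → Matrix l κ ℂ}
    (h : Pic56.LIso I p q u) (hp : ∀ x, p x * p x = p x) : Uni I p q u univ :=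
  ⟨fun x _ => h.sm x, fun x _ => PIso.of_prj (hp x) (h.left x) (h.right x)⟩

section cyl

variable [T2Space M] [CompactSpace M]

/-- a family of lines over a compact interval is constant up to isometry -/
theorem exists_uni_htpy {p : M × ℝ → Matrix κ κ ℂ} (sp : ∀ z, MSm (I.prod 𝓘(ℝ, ℝ)) p z)
    (hp : ∀ z, Pic56.Rk1 (p z)) {c : ℝ → ℝ} (hc : ContDiff ℝ ∞ c) {R : ℝ} (hR : ∀ s, |c s| ≤ R) :
    ∃ u, Uni (I.prod 𝓘(ℝ, ℝ)) (fun z : M × ℝ => p (z.1, 0)) (fun z => p (z.1, c z.2)) u univ := by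
  classical
  have := Manifold.metrizableSpace I M
  let _ := TopologicalSpace.metrizableSpaceMetric M
  have cp : Continuous p := continuous_iff_continuousAt.2 fun z => (sp z).continuousAt
  have c0 : Continuous fun z : M × ℝ => p (z.1, 0) := cp.comp (by fun_prop)
  let P : M × ℝ → Matrix (κ × κ) (κ × κ) ℂ := fun z => p z ⊗ₖ (p (z.1, 0)).map star
  have vec : ∀ z (X : Matrix κ κ ℂ), (P z *ᵥ fun i => X i.1 i.2) =
      fun i => (p z * X * p (z.1, 0)) i.1 i.2 := fun z X => by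
    funext i
    have := fun a b => congrFun (congrFun (hp (z.1, 0)).herm a) b
    simp only [conjTranspose_apply] at this
    simp only [P, mulVec, dotProduct, Fintype.sum_prod_type, kroneckerMap_apply, map_apply, this,
      Matrix.mul_apply, Finset.sum_mul]
    rw [Finset.sum_comm]
    exact Finset.sum_congr rfl fun _ _ => Finset.sum_congr rfl fun _ _ => by ring
  have hP : Pic56.IsLine (fun z => Pic56.clm (P z)) univ := Pic56.isLine_clm
    (continuous_pi fun i : κ × κ => continuous_pi fun j : κ × κ => (cp.matrix_elem i.1 j.1).mul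
      (c0.matrix_elem i.2 j.2).star).continuousOn fun z _ => (hp z).kron (hp _).conj
  have ne : ∀ z, (fun i : κ × κ => p z i.1 i.2) ≠ 0 := fun z h0 => by
    have h1 : p z = 0 := by ext i j; exact congrFun h0 (i, j)
    have := (hp z).trace_eq
    rw [h1, trace_zero] at this
    exact zero_ne_one this
  obtain ⟨t, ht⟩ := hP.deform (K := univ ×ˢ Icc (-R) R) (S₀ := {z | z.2 = 0})
    (isCompact_univ.prod isCompact_Icc) (h := fun z => (z.2.1, z.1 * z.2.2)) (by fun_prop)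
    (fun _ _ _ _ => trivial) (fun _ _ => zero_mul _) (fun _ _ => by simp)
    (s := fun z i => p z i.1 i.2) 
    ⟨(continuous_pi fun i : κ × κ => cp.matrix_elem i.1 i.2).continuousOn,
      fun z hz => by
        obtain ⟨y, s⟩ := z
        obtain rfl : s = 0 := hz
        refine (vec _ _).trans ?_
        rw [(hp _).idem, (hp _).idem], fun z _ => ne z⟩
  have hm : ∀ z : M × ℝ, (z.1, c z.2) ∈ (univ : Set M) ×ˢ Icc (-R) R :=
    fun z => ⟨trivial, abs_le.1 (hR _)⟩
  have s0 : ∀ g : ℝ → ℝ, ContDiff ℝ ∞ g → ∀ z, MSm (I.prod 𝓘(ℝ, ℝ))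
      (fun z : M × ℝ => p (z.1, g z.2)) z := fun g hg z => (sp _).comp
    (contMDiffAt_fst.prodMk (hg.contDiffAt.comp_contMDiffAt contMDiffAt_snd))
  obtain ⟨u, hu⟩ := Pic56.exists_liso (I := I.prod 𝓘(ℝ, ℝ)) (s0 _ contDiff_const) (s0 c hc)
    (fun _ => hp _) (fun _ => hp _) (m := fun z => Matrix.of fun i j => t (z.1, c z.2) (i, j))
    (continuous_pi fun i => continuous_pi fun j => (continuous_apply (i, j)).comp
      (ht.cont.comp_continuous (continuous_fst.prodMk (hc.continuous.comp continuous_snd)) hm))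
    (fun z => by
      ext i j
      exact (congrFun (vec (z.1, c z.2) (Matrix.of fun i j => t (z.1, c z.2) (i, j))) (i, j)).symm.trans
        (congrFun (ht.sec _ (hm z)) (i, j)))
    fun z h0 => ht.ne _ (hm z) (funext fun i => congrFun (congrFun h0 i.1) i.2)
  exact ⟨u, uni_of_liso hu fun _ => (hp _).idem⟩

theorem exists_clamp (R : ℝ) : ∃ (c : ℝ → ℝ) (S : ℝ), ContDiff ℝ ∞ c ∧ (∀ s, |c s| ≤ S) ∧
    ∀ s, |s| ≤ R → c s = s := by
  let f : ContDiffBump (0 : ℝ) := ⟨|R| + 1, |R| + 2, by positivity, by linarith⟩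
  refine ⟨fun s => f s * s, |R| + 2, f.contDiff.mul contDiff_id, fun s => ?_, fun s hs => ?_⟩
  · show |f s * s| ≤ _
    by_cases h : |s| < |R| + 2
    · rw [abs_mul, abs_of_nonneg f.nonneg]
      exact (mul_le_of_le_one_left (abs_nonneg s) f.le_one).trans h.le
    · rw [f.zero_of_le_dist (by simpa [f] using h), zero_mul, abs_zero]
      positivity
  · show f s * s = s
    rw [f.one_of_mem_closedBall (by simp [f]; linarith [le_abs_self R]), one_mul]

/-- **lines on a finite cylinder are pulled back from the cross-section** -/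
theorem exists_uni_cyl {L : Ln (E × ℝ) (M × ℝ) κ} (h : L.On (I.prod 𝓘(ℝ, ℝ)) univ) (R : ℝ) :
    ∃ u, Uni (I.prod 𝓘(ℝ, ℝ)) (fun z : M × ℝ => L.p (z.1, 0)) L.p u {z | |z.2| ≤ R} := by
  obtain ⟨c, S, h1, h2, h3⟩ := exists_clamp R
  obtain ⟨u, hu⟩ := exists_uni_htpy (fun z => h.sm z trivial) (fun _ => h.rk1 trivial) h1 h2
  refine ⟨u, fun z _ => hu.sm z trivial, fun z hz => ?_⟩
  have := hu.iso z trivial
  rwa [h3 _ hz] at this

/-- an isometry on the cross-section extends -/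
theorem exists_uni_cyl' {L : Ln (E × ℝ) (M × ℝ) κ} (h : L.On (I.prod 𝓘(ℝ, ℝ)) univ) (R : ℝ)
    {q : M → Matrix l l ℂ} {v : M → Matrix κ l ℂ} (hv : Uni I q (fun y => L.p (y, 0)) v univ) :
    ∃ u, Uni (I.prod 𝓘(ℝ, ℝ)) (fun z : M × ℝ => q z.1) L.p u {z | |z.2| ≤ R} :=
  let ⟨_, hu⟩ := exists_uni_cyl h R
  ⟨_, (hv.comp (f := Prod.fst) ⟨fun _ _ => contMDiffAt_fst, mapsTo_univ _ _⟩).trans hu⟩

end cyl

end Crest.Agent.X212.Line51
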