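import Crest.Agent.X212.Dr59.Defs
import Crest.Agent.X212.Pj41.Sm
import Crest.Agent.X212.Sob92.Der

/-!
# X212 / Line51, part Th (helper51): the one-form `th u = Im tr (uᴴ du)`

* `dc I g x v`, `dm I u x v` : derivative of a complex function / matrix function in the direction `v`;
* `th I u : M → Ext E`, smooth, natural, additive for composable partial isometries (`th_mul`),
  closed for unit scalars (`dM_th_unit`).
-/

set_option autoImplicit false
set_option linter.unusedSectionVars false

open Set Filter Topology Function Matrix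
open scoped ContDiff Manifold Kronecker
open Crest.Agent.R208 Crest.Agent.R208.F Crest.Agent.X212.Dr59 Crest.Agent.X212.Pj41

noncomputable section

namespace Crest.Agent.X212.Line51

variable {E : Type*} [NormedAddCommGroup E] [NormedSpace ℝ E] [FiniteDimensional ℝ E]
  {H : Type*} [TopologicalSpace H] {I : ModelWithCorners ℝ E H}
  {M : Type*} [TopologicalSpace M] [ChartedSpace H M]
  {E' : Type*} [NormedAddCommGroup E'] [NormedSpace ℝ E'] [FiniteDimensional ℝ E']
  {H' : Type*} [TopologicalSpace H'] {J : ModelWithCorners ℝ E' H'}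
  {N : Type*} [TopologicalSpace N] [ChartedSpace H' N]
  {κ l m n : Type*}

variable (I) in
/-- derivative of a complex function -/
def dc (g : M → ℂ) (x : M) : E →L[ℝ] ℂ := mf I 𝓘(ℝ, ℂ) g x

variable (I) in
/-- derivative of a matrix function in the direction `v` -/
def dm (u : M → Matrix κ l ℂ) (x : M) (v : E) : Matrix κ l ℂ :=
  Matrix.of fun i j => dc I (fun y => u y i j) x v

section dc

variable {f g : M → ℂ} {x : M}

theorem md_of (hf : FSm I f x) : MDifferentiableAt I 𝓘(ℝ, ℂ) f x := hf.mdifferentiableAt (by simp)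

theorem dc_eq_dv (v : E) : dc I f x v = Sob92.dv I (fun _ => v) f x := rfl

theorem dc_congr (h : f =ᶠ[𝓝 x] g) : dc I f x = dc I g x := mf_congr h

@[simp] theorem dc_const (c : ℂ) : dc I (fun _ : M => c) x = 0 := mf_const c x

theorem dc_clm (A : ℂ →L[ℝ] ℂ) (hf : FSm I f x) (v : E) :
    dc I (fun y => A (f y)) x v = A (dc I f x v) := Sob92.dv_clm (e := fun _ => v) A (md_of hf)

theorem dc_star (hf : FSm I f x) (v : E) : dc I (fun y => star (f y)) x v = star (dc I f x v) :=
  dc_clm (Complex.conjCLE : ℂ →L[ℝ] ℂ) hf v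

theorem dc_add (hf : FSm I f x) (hg : FSm I g x) (v : E) :
    dc I (fun y => f y + g y) x v = dc I f x v + dc I g x v :=
  Sob92.dv_add (e := fun _ => v) (md_of hf) (md_of hg)

theorem dc_mul (hf : FSm I f x) (hg : FSm I g x) (v : E) :
    dc I (fun y => f y * g y) x v = dc I f x v * g x + f x * dc I g x v :=
  Sob92.dv_bil (e := fun _ => v) (ContinuousLinearMap.mul ℝ ℂ) (md_of hf) (md_of hg)

theorem dc_sum {ι : Type*} {s : Finset ι} {f : ι → M → ℂ} (hf : ∀ i ∈ s, FSm I (f i) x) (v : E) :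
    dc I (fun y => ∑ i ∈ s, f i y) x v = ∑ i ∈ s, dc I (f i) x v := by
  classical
  induction s using Finset.induction_on with
  | empty => simp
  | insert i s hi ih =>
    have h2 : ∀ j ∈ s, FSm I (f j) x := fun j hj => hf j (Finset.mem_insert_of_mem hj)
    simp only [Finset.sum_insert hi]
    rw [dc_add (hf i (Finset.mem_insert_self _ _)) (FSm.sum' h2), ih h2]

theorem dc_comp {φ : N → M} {y : N} (hf : FSm I f (φ y)) (hφ : MDifferentiableAt J I φ y) (v : E') :
    dc J (fun z => f (φ z)) y v = dc I f (φ y) (mf J I φ y v) := by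
  have h := mf_comp (K := J) (J := I) (I := 𝓘(ℝ, ℂ)) (hf.mdifferentiableAt (by simp)) hφ
  exact congrArg (fun A : E' →L[ℝ] ℂ => A v) h

theorem mf_re (hf : MDifferentiableAt I 𝓘(ℝ, ℂ) f x) (v : E) :
    mf I 𝓘(ℝ, ℝ) (fun y => (f y).re) x v = (dc I f x v).re :=
  Sob92.dv_clm (e := fun _ => v) Complex.reCLM hf

theorem mf_im (hf : MDifferentiableAt I 𝓘(ℝ, ℂ) f x) (v : E) :
    mf I 𝓘(ℝ, ℝ) (fun y => (f y).im) x v = (dc I f x v).im :=
  Sob92.dv_clm (e := fun _ => v) Complex.imCLM hf

theorem dc_ofReal {r : M → ℝ} (hr : FSm I r x) (v : E) :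
    dc I (fun y => (r y : ℂ)) x v = (mf I 𝓘(ℝ, ℝ) r x v : ℝ) :=
  Sob92.dv_clm (e := fun _ => v) Complex.ofRealCLM (hr.mdifferentiableAt (by simp))

theorem fsm_re (hf : FSm I f x) : FSm I (fun y => (f y).re) x :=
  Complex.reCLM.contDiff.contDiffAt.comp_contMDiffAt hf

theorem fsm_im (hf : FSm I f x) : FSm I (fun y => (f y).im) x :=
  Complex.imCLM.contDiff.contDiffAt.comp_contMDiffAt hf

end dc

section dm

variable {u u' : M → Matrix κ l ℂ} {x : M}

theorem dm_apply (v : E) (i : κ) (j : l) : dm I u x v i j = dc I (fun y => u y i j) x v := rfl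

theorem dm_congr (h : u =ᶠ[𝓝 x] u') (v : E) : dm I u x v = dm I u' x v := by
  ext i j
  rw [dm_apply, dm_apply, dc_congr (g := fun y => u' y i j) (h.mono fun _ hy => by simp only [hy])]

@[simp] theorem dm_const (c : Matrix κ l ℂ) (v : E) : dm I (fun _ : M => c) x v = 0 := by
  ext i j
  simp [dm_apply]

theorem dm_vadd (v w : E) : dm I u x (v + w) = dm I u x v + dm I u x w := by
  ext i j
  simp [dm_apply]

theorem dm_vsmul (r : ℝ) (v : E) : dm I u x (r • v) = r • dm I u x v := by
  ext i j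
  simp [dm_apply]

theorem dm_add (hu : MSm I u x) (hu' : MSm I u' x) (v : E) :
    dm I (fun y => u y + u' y) x v = dm I u x v + dm I u' x v := by
  ext i j
  exact dc_add (hu i j) (hu' i j) v

theorem dm_mul [Fintype l] {w : M → Matrix l m ℂ} (hu : MSm I u x) (hw : MSm I w x) (v : E) :
    dm I (fun y => u y * w y) x v = dm I u x v * w x + u x * dm I w x v := by
  ext i j
  simp only [dm_apply, Matrix.mul_apply, Matrix.add_apply, ← Finset.sum_add_distrib]
  rw [dc_sum fun k _ => FSm.mul' (hu i k) (hw k j)]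
  exact Finset.sum_congr rfl fun k _ => dc_mul (hu i k) (hw k j) v

theorem dm_ct (hu : MSm I u x) (v : E) : dm I (fun y => (u y)ᴴ) x v = (dm I u x v)ᴴ := by
  ext i j
  exact dc_star (hu j i) v

theorem dm_conj (hu : MSm I u x) (v : E) :
    dm I (fun y => (u y).map star) x v = (dm I u x v).map star := by
  ext i j
  exact dc_star (hu i j) v

theorem dm_kron {w : M → Matrix m n ℂ} (hu : MSm I u x) (hw : MSm I w x) (v : E) :
    dm I (fun y => u y ⊗ₖ w y) x v = dm I u x v ⊗ₖ w x + u x ⊗ₖ dm I w x v := by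
  ext i j
  exact dc_mul (hu i.1 j.1) (hw i.2 j.2) v

theorem dm_smul {g : M → ℂ} (hg : FSm I g x) (hu : MSm I u x) (v : E) :
    dm I (fun y => g y • u y) x v = dc I g x v • u x + g x • dm I u x v := by
  ext i j
  exact dc_mul hg (hu i j) v

theorem dm_submatrix (r : m → κ) (c : n → l) (v : E) :
    dm I (fun y => (u y).submatrix r c) x v = (dm I u x v).submatrix r c := rfl

theorem dm_comp {φ : N → M} {y : N} (hu : MSm I u (φ y)) (hφ : MDifferentiableAt J I φ y) (v : E') :
    dm J (fun z => u (φ z)) y v = dm I u (φ y) (mf J I φ y v) := by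
  ext i j
  exact dc_comp (f := fun z => u z i j) (hu i j) hφ v

end dm

section th

variable [Fintype κ] [Fintype l] [Fintype m] [Fintype n]

variable (I) in
/-- the functional `v ↦ Im tr (uᴴ du(v))` -/
def tl (u : M → Matrix κ l ℂ) (x : M) : Module.Dual ℝ E where
  toFun v := ((u x)ᴴ * dm I u x v).trace.im
  map_add' v w := by rw [dm_vadd, Matrix.mul_add, trace_add, Complex.add_im]
  map_smul' r v := by
    rw [dm_vsmul, Matrix.mul_smul, trace_smul, Complex.smul_im]
    rfl

variable (I) in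
/-- the one-form `Im tr (uᴴ du)` -/
def th (u : M → Matrix κ l ℂ) (x : M) : Ext E := io (tl I u x)

variable {u u' : M → Matrix κ l ℂ} {x : M}

theorem tl_apply (v : E) : tl I u x v = ((u x)ᴴ * dm I u x v).trace.im := rfl

theorem tl_eq_sum (v : E) :
    tl I u x v = ∑ i, ∑ j, (star (u x i j) * dc I (fun y => u y i j) x v).im := by
  rw [tl_apply, Finset.sum_comm]
  simp only [Matrix.trace, Matrix.diag, Matrix.mul_apply, conjTranspose_apply, Complex.im_sum,
    dm_apply]

theorem th_congr (h : u =ᶠ[𝓝 x] u') : th I u x = th I u' x := by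
  refine congrArg io (LinearMap.ext fun v => ?_)
  rw [tl_apply, tl_apply, dm_congr h, h.self_of_nhds]

theorem th_congr_nhds (h : u =ᶠ[𝓝 x] u') : th I u =ᶠ[𝓝 x] th I u' :=
  h.eventually_nhds.mono fun _ hy => th_congr hy

@[simp] theorem th_const (c : Matrix κ l ℂ) : th I (fun _ : M => c) = 0 := by
  funext x
  have h : tl I (fun _ : M => c) x = 0 := LinearMap.ext fun v => by simp [tl_apply]
  rw [th, h, map_zero]
  rfl

/-- **additivity** for composable partial isometries -/
theorem th_mul {w : M → Matrix l m ℂ} (hu : MSm I u x) (hw : MSm I w x)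
    (h1 : u x * w x * (w x)ᴴ = u x) (h2 : (u x)ᴴ * u x * w x = w x) :
    th I (fun y => u y * w y) x = th I u x + th I w x := by
  rw [th, th, th, ← map_add]
  refine congrArg io (LinearMap.ext fun v => ?_)
  rw [LinearMap.add_apply, tl_apply, tl_apply, tl_apply, dm_mul hu hw, Matrix.mul_add, trace_add,
    Complex.add_im]
  congr 2
  · rw [← Matrix.mul_assoc, trace_mul_comm, ← Matrix.mul_assoc]
    congr 2
    conv_rhs => rw [← h1]
    simp only [conjTranspose_mul, conjTranspose_conjTranspose, Matrix.mul_assoc]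
  · rw [← Matrix.mul_assoc]
    congr 2
    conv_rhs => rw [← h2]
    simp only [conjTranspose_mul, conjTranspose_conjTranspose, Matrix.mul_assoc]

theorem th_ct (hu : MSm I u x) : th I (fun y => (u y)ᴴ) x = -th I u x := by
  rw [th, th, ← map_neg]
  refine congrArg io (LinearMap.ext fun v => ?_)
  rw [LinearMap.neg_apply, tl_apply, tl_apply, dm_ct hu, trace_mul_comm, ← conjTranspose_mul,
    trace_conjTranspose, trace_mul_comm]
  exact Complex.conj_im _

theorem th_conj (hu : MSm I u x) : th I (fun y => (u y).map star) x = -th I u x := by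
  rw [th, th, ← map_neg]
  refine congrArg io (LinearMap.ext fun v => ?_)
  rw [LinearMap.neg_apply, tl_eq_sum, tl_eq_sum, ← Finset.sum_neg_distrib]
  refine Finset.sum_congr rfl fun i _ => ?_
  rw [← Finset.sum_neg_distrib]
  refine Finset.sum_congr rfl fun j _ => ?_
  simp only [Matrix.map_apply]
  rw [dc_star (hu i j), ← star_mul']
  exact Complex.conj_im _

theorem th_herm {p : M → Matrix κ κ ℂ} (hp : MSm I p x)
    (h : ∀ᶠ y in 𝓝 x, (p y)ᴴ = p y) : th I p x = 0 := by
  have h1 := th_ct hp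
  rw [th_congr (u' := p) h, eq_neg_iff_add_eq_zero, ← two_smul ℝ] at h1
  exact (smul_eq_zero.1 h1).resolve_left two_ne_zero

theorem th_submatrix (e : m ≃ κ) (e' : n ≃ l) :
    th I (fun y => (u y).submatrix e e') x = th I u x := by
  refine congrArg io (LinearMap.ext fun v => ?_)
  rw [tl_eq_sum, tl_eq_sum, ← e.sum_comp]
  exact Finset.sum_congr rfl fun i _ => by rw [← e'.sum_comp]; rfl

theorem th_kron {w : M → Matrix m n ℂ} (hu : MSm I u x) (hw : MSm I w x)
    (h1 : ((u x)ᴴ * u x).trace = 1) (h2 : ((w x)ᴴ * w x).trace = 1) :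
    th I (fun y => u y ⊗ₖ w y) x = th I u x + th I w x := by
  rw [th, th, th, ← map_add]
  refine congrArg io (LinearMap.ext fun v => ?_)
  rw [LinearMap.add_apply, tl_apply, tl_apply, tl_apply, dm_kron hu hw, Matrix.mul_add, trace_add,
    Complex.add_im, conjTranspose_kronecker, ← mul_kronecker_mul, ← mul_kronecker_mul,
    trace_kronecker, trace_kronecker, h1, h2, mul_one, one_mul]

theorem pm_th {φ : N → M} {y : N} (hu : MSm I u (φ y)) (hφ : MDifferentiableAt J I φ y) :
    pm J I φ (th I u) y = th J (fun z => u (φ z)) y := by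
  rw [pm_apply, th, th, pb_io]
  refine congrArg io (LinearMap.ext fun v => ?_)
  rw [tl_apply, dm_comp hu hφ]
  rfl

/-- the formula with real and imaginary parts -/
theorem th_eq (hu : ∀ i j, MDifferentiableAt I 𝓘(ℝ, ℂ) (fun z => u z i j) x) : th I u x = ∑ i, ∑ j,
    ((u x i j).re • df I (fun y => (u y i j).im) x - (u x i j).im • df I (fun y => (u y i j).re) x) := by
  simp only [df, ← map_smul, ← map_sub, ← map_sum]
  refine congrArg io (LinearMap.ext fun v => ?_)
  simp only [tl_eq_sum, LinearMap.sum_apply, LinearMap.sub_apply, LinearMap.smul_apply,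
    ContinuousLinearMap.coe_coe, smul_eq_mul]
  refine Finset.sum_congr rfl fun i _ => Finset.sum_congr rfl fun j _ => ?_
  rw [mf_re (hu i j), mf_im (hu i j)]
  simp [Complex.mul_im]
  ring

variable [I.Boundaryless] [IsManifold I ∞ M]

theorem md_eventually {F : Type*} [NormedAddCommGroup F] [NormedSpace ℝ F] {f : M → F}
    (hf : FSm I f x) : ∀ᶠ y in 𝓝 x, MDifferentiableAt I 𝓘(ℝ, F) f y :=
  ((contMDiffAt_iff_contMDiffAt_nhds (n := 1) (by simp)).1 (hf.of_le (by simp))).mono
    fun _ hy => hy.mdifferentiableAt one_ne_zero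

theorem th_eq_nhds (hu : MSm I u x) : th I u =ᶠ[𝓝 x] ∑ i, ∑ j,
    ((fun y => (u y i j).re) • df I (fun y => (u y i j).im) -
      (fun y => (u y i j).im) • df I (fun y => (u y i j).re)) := by
  have h : ∀ᶠ y in 𝓝 x, ∀ i j, MDifferentiableAt I 𝓘(ℝ, ℂ) (fun z => u z i j) y :=
    eventually_all.2 fun i => eventually_all.2 fun j => md_eventually (hu i j)
  filter_upwards [h] with y hy
  rw [th_eq hy]
  simp only [Finset.sum_apply, Pi.sub_apply, Pi.smul_apply']

theorem smAt_term {f : M → ℂ} (hf : FSm I f x) :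
    SmAt I ((fun y => (f y).re) • df I (fun y => (f y).im) -
      (fun y => (f y).im) • df I (fun y => (f y).re)) x :=
  ((smAt_df (fsm_im hf)).fsmul le_rfl (fsm_re hf)).sub
    ((smAt_df (fsm_re hf)).fsmul le_rfl (fsm_im hf))

theorem smAt_th (hu : MSm I u x) : SmAt I (th I u) x :=
  (cAt_sum fun i _ => cAt_sum fun j _ => smAt_term (hu i j)).congr (th_eq_nhds hu)

theorem dM_th (hu : MSm I u x) : dM I (th I u) x =
    (2 : ℝ) • ∑ i, ∑ j, df I (fun y => (u y i j).re) x * df I (fun y => (u y i j).im) x := by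
  have h0 : (∞ : WithTop ℕ∞) ≠ 0 := by simp
  rw [dM_congr (th_eq_nhds hu), dM_sum h0 fun i _ => cAt_sum fun j _ => smAt_term (hu i j),
    Finset.smul_sum]
  refine Finset.sum_congr rfl fun i _ => ?_
  rw [dM_sum h0 fun j _ => smAt_term (hu i j), Finset.smul_sum]
  refine Finset.sum_congr rfl fun j _ => ?_
  have hr := fsm_re (hu i j)
  have hi := fsm_im (hu i j)
  rw [dM_sub h0 ((smAt_df hi).fsmul le_rfl hr) ((smAt_df hr).fsmul le_rfl hi),
    dM_fsmul h0 (hr.mdifferentiableAt h0) (smAt_df hi),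
    dM_fsmul h0 (hi.mdifferentiableAt h0) (smAt_df hr), dM_df hr, dM_df hi, smul_zero, smul_zero,
    add_zero, add_zero, df, df, io_anti (mf I 𝓘(ℝ, ℝ) (fun y => (u y i j).im) x : E →ₗ[ℝ] ℝ),
    sub_neg_eq_add, two_smul]

/-- `th` of a unit scalar is closed -/
theorem dM_th_unit {g : M → Matrix Unit Unit ℂ} (hg : MSm I g x)
    (h : ∀ᶠ y in 𝓝 x, (g y)ᴴ * g y = 1) : dM I (th I g) x = 0 := by
  rw [dM_th hg]
  simp only [Finset.univ_unique, Finset.sum_singleton]
  have h1 : ∀ v, (g x () ()).re * mf I 𝓘(ℝ, ℝ) (fun y => (g y () ()).re) x v +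
      (g x () ()).im * mf I 𝓘(ℝ, ℝ) (fun y => (g y () ()).im) x v = 0 := fun v => by
    have e := dm_congr (I := I) (u' := fun _ => 1) h v
    rw [dm_mul hg.ct hg, dm_ct hg, dm_const] at e
    have e2 := congrArg Complex.re (congrFun (congrFun e ()) ())
    rw [mf_re (md_of (hg () ())), mf_im (md_of (hg () ()))]
    simp [Matrix.mul_apply, dm_apply] at e2
    linarith
  have h2 : (g x () ()).re ^ 2 + (g x () ()).im ^ 2 = 1 := by
    have e2 := congrArg Complex.re (congrFun (congrFun h.self_of_nhds ()) ())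
    simp [Matrix.mul_apply] at e2
    linarith
  set A : Module.Dual ℝ E := (mf I 𝓘(ℝ, ℝ) (fun y => (g y () ()).re) x : E →ₗ[ℝ] ℝ)
  set B : Module.Dual ℝ E := (mf I 𝓘(ℝ, ℝ) (fun y => (g y () ()).im) x : E →ₗ[ℝ] ℝ)
  set r := (g x () ()).re
  set s := (g x () ()).im
  have h3 : r • io A = -(s • io B) := by
    rw [← map_smul, ← map_smul, ← map_neg]
    exact congrArg io (LinearMap.ext fun v => eq_neg_of_add_eq_zero_left (h1 v))
  have h4 : s • io B = -(r • io A) := by rw [h3, neg_neg]
  have h5 : io A * io B = r • ((r • io A) * io B) + s • (io A * (s • io B)) := by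
    rw [smul_mul_assoc, mul_smul_comm, smul_smul, smul_smul, ← add_smul, ← sq, ← sq, h2, one_smul]
  show (2 : ℝ) • (io A * io B) = 0
  rw [h5]
  conv_lhs => enter [2, 1]; rw [h3]
  conv_lhs => enter [2, 2]; rw [h4]
  simp only [neg_mul, mul_neg, smul_mul_assoc, mul_smul_comm, io_sq, smul_zero, neg_zero, add_zero]

end th

end Crest.Agent.X212.Line51
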