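import Crest.Agent.X212.Dr59.Coh
import Crest.Agent.X212.Pj41.Iso
import Crest.Agent.X212.Line51.Th

/-!
# X212 / Line51, part Defs (helper51): hermitian lines with a unitary connection

A line is a pair `(p, a)`: a rank one projector field and a real one-form; `∇ = p d + i a`.
* `L.On I U` : the data are smooth on `U`;
* `Iso I L L' u U` : `u` is a parallel isometry `L → L'` on `U` (`th u + a' = a`);
* `L.Fr I s α U` : `s` is a unit section with `∇ s = i α s` on `U`;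
* `L.F I` : the curvature form (`F_∇ = i F`), `F = d α` for every frame;
* `triv`, `shift`, `pull`, `tens`, `dual`.
-/

set_option autoImplicit false
set_option linter.unusedSectionVars false

open Set Filter Topology Function Matrix
open scoped ContDiff Manifold Kronecker
open Crest.Agent.R208 Crest.Agent.R208.F Crest.Agent.R208.FI Crest.Agent.X212.Dr59
  Crest.Agent.X212.Pj41

noncomputable section

namespace Crest.Agent.X212.Line51

variable {E : Type*} [NormedAddCommGroup E] [NormedSpace ℝ E] [FiniteDimensional ℝ E]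
  {H : Type*} [TopologicalSpace H] {I : ModelWithCorners ℝ E H}
  {M : Type*} [TopologicalSpace M] [ChartedSpace H M]
  {E' : Type*} [NormedAddCommGroup E'] [NormedSpace ℝ E'] [FiniteDimensional ℝ E']
  {H' : Type*} [TopologicalSpace H'] {J : ModelWithCorners ℝ E' H'}
  {N : Type*} [TopologicalSpace N] [ChartedSpace H' N]
  {κ l m n : Type*} [Fintype κ] [Fintype l] [Fintype m] [Fintype n]

/-- a projector field and a one-form -/
structure Ln (E : Type*) [AddCommGroup E] [Module ℝ E] (M κ : Type*) where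
  p : M → Matrix κ κ ℂ
  a : M → Ext E

variable (I) in
/-- smooth line with connection on `U` -/
structure Ln.On (L : Ln E M κ) (U : Set M) : Prop where
  sm : ∀ x ∈ U, MSm I L.p x
  prj : ∀ x ∈ U, Prj (L.p x)
  tr : ∀ x ∈ U, (L.p x).trace = 1
  sa : Sm I U L.a
  dg : Dg 1 U L.a

variable (I) in
/-- a smooth isometry of projector fields on `U` -/
structure Uni (p : M → Matrix κ κ ℂ) (q : M → Matrix l l ℂ) (u : M → Matrix l κ ℂ) (U : Set M) :
    Prop where
  sm : ∀ x ∈ U, MSm I u x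
  iso : ∀ x ∈ U, PIso (u x) (p x) (q x)

variable (I) in
/-- a parallel isometry on `U` -/
structure Iso (L : Ln E M κ) (L' : Ln E M l) (u : M → Matrix l κ ℂ) (U : Set M) : Prop
    extends Uni I L.p L'.p u U where
  par : ∀ x ∈ U, th I u x + L'.a x = L.a x

/-- the trivial line with the connection `d + i α` -/
def triv (α : M → Ext E) : Ln E M Unit := ⟨fun _ => 1, α⟩

variable (I) in
/-- a unit section with `∇ s = i α s` -/
abbrev Ln.Fr (L : Ln E M κ) (s : M → Matrix κ Unit ℂ) (α : M → Ext E) (U : Set M) : Prop :=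
  Iso I (triv α) L s U

variable (I) in
/-- a germ of a unit section -/
def Ln.Loc (L : Ln E M κ) (s : M → Matrix κ Unit ℂ) (x : M) : Prop :=
  ∀ᶠ y in 𝓝 x, MSm I s y ∧ PIso (s y) 1 (L.p y)

variable (I) in
open Classical in
/-- the curvature form -/
def Ln.F (L : Ln E M κ) (x : M) : Ext E :=
  if h : ∃ s, L.Loc I s x then dM I (th I h.choose + L.a) x else 0

/-- change of the connection -/
def Ln.shift (L : Ln E M κ) (b : M → Ext E) : Ln E M κ := ⟨L.p, L.a + b⟩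

/-- pull-back -/
def Ln.pull (J : ModelWithCorners ℝ E' H') (I : ModelWithCorners ℝ E H) (f : N → M) (L : Ln E M κ) :
    Ln E' N κ := ⟨fun y => L.p (f y), pm J I f L.a⟩

/-- tensor product -/
def Ln.tens (L : Ln E M κ) (L' : Ln E M l) : Ln E M (κ × l) := ⟨fun x => L.p x ⊗ₖ L'.p x, L.a + L'.a⟩

/-- the dual line -/
def Ln.dual (L : Ln E M κ) : Ln E M κ := ⟨fun x => (L.p x)ᵀ, -L.a⟩

variable {L : Ln E M κ} {L' : Ln E M l} {L'' : Ln E M m} {U V : Set M} {x : M}

theorem Ln.On.mono (h : L.On I U) (hV : V ⊆ U) : L.On I V :=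
  ⟨fun x hx => h.sm x (hV hx), fun x hx => h.prj x (hV hx), fun x hx => h.tr x (hV hx),
    fun x hx => h.sa x (hV hx), fun x hx => h.dg x (hV hx)⟩

theorem Ln.on_of_loc (h : ∀ x ∈ U, ∃ V, x ∈ V ∧ L.On I V) : L.On I U :=
  ⟨fun x hx => let ⟨_, a, b⟩ := h x hx; b.sm x a, fun x hx => let ⟨_, a, b⟩ := h x hx; b.prj x a,
    fun x hx => let ⟨_, a, b⟩ := h x hx; b.tr x a, fun x hx => let ⟨_, a, b⟩ := h x hx; b.sa x a,
    fun x hx => let ⟨_, a, b⟩ := h x hx; b.dg x a⟩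

section Uni

variable {p : M → Matrix κ κ ℂ} {q : M → Matrix l l ℂ} {r : M → Matrix m m ℂ}
  {u : M → Matrix l κ ℂ} {w : M → Matrix m l ℂ}

theorem Uni.mono (h : Uni I p q u U) (hV : V ⊆ U) : Uni I p q u V :=
  ⟨fun x hx => h.sm x (hV hx), fun x hx => h.iso x (hV hx)⟩

theorem Uni.symm (h : Uni I p q u U) : Uni I q p (fun x => (u x)ᴴ) U :=
  ⟨fun x hx => (h.sm x hx).ct, fun x hx => (h.iso x hx).symm⟩

theorem Uni.trans (h : Uni I p q u U) (h' : Uni I q r w U) : Uni I p r (fun x => w x * u x) U :=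
  ⟨fun x hx => (h'.sm x hx).mul (h.sm x hx), fun x hx => (h.iso x hx).trans (h'.iso x hx)⟩

theorem th_trans (hu : MSm I u x) (hw : MSm I w x) {p : Matrix κ κ ℂ} {q : Matrix l l ℂ}
    {r : Matrix m m ℂ} (h : PIso (u x) p q) (h' : PIso (w x) q r) :
    th I (fun y => w y * u y) x = th I w x + th I u x :=
  th_mul hw hu (by rw [Matrix.mul_assoc, h.tgt, h'.idem]) (by rw [h'.src, h.left])

theorem Uni.comp {f : N → M} {W : Set N} (h : Uni I p q u U) (hf : Mp J I W U f) :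
    Uni J (fun y => p (f y)) (fun y => q (f y)) (fun y => u (f y)) W :=
  ⟨fun y hy => (h.sm _ (hf.maps hy)).comp (hf.sm y hy), fun _ hy => h.iso _ (hf.maps hy)⟩

theorem dg_th (u : M → Matrix l κ ℂ) : Dg 1 U (th I u) := fun _ _ => isDeg_io _

end Uni

section Iso

variable {u u' : M → Matrix l κ ℂ} {w : M → Matrix m l ℂ}

theorem Iso.mono (h : Iso I L L' u U) (hV : V ⊆ U) : Iso I L L' u V :=
  ⟨h.toUni.mono hV, fun x hx => h.par x (hV hx)⟩

theorem iso_of_loc (h : ∀ x ∈ U, ∃ V, x ∈ V ∧ Iso I L L' u V) : Iso I L L' u U :=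
  ⟨⟨fun x hx => let ⟨_, a, b⟩ := h x hx; b.sm x a, fun x hx => let ⟨_, a, b⟩ := h x hx; b.iso x a⟩,
    fun x hx => let ⟨_, a, b⟩ := h x hx; b.par x a⟩

theorem Iso.congr (hU : IsOpen U) (h : Iso I L L' u U) (e : EqOn u' u U) : Iso I L L' u' U :=
  ⟨⟨fun x hx => (h.sm x hx).congr (eventually_of_mem (hU.mem_nhds hx) e),
    fun x hx => (e hx).symm ▸ h.iso x hx⟩, fun x hx => by
      rw [th_congr (eventually_of_mem (hU.mem_nhds hx) e)]; exact h.par x hx⟩

/-- only the values of the lines on `U` matter -/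
theorem Iso.of_eq {K : Ln E M κ} {K' : Ln E M l} (h : Iso I L L' u U) (e : EqOn K.p L.p U)
    (ea : EqOn K.a L.a U) (e' : EqOn K'.p L'.p U) (ea' : EqOn K'.a L'.a U) : Iso I K K' u U :=
  ⟨⟨h.sm, fun x hx => by rw [e hx, e' hx]; exact h.iso x hx⟩,
    fun x hx => by rw [ea hx, ea' hx]; exact h.par x hx⟩

theorem Iso.refl (hU : IsOpen U) (h : L.On I U) : Iso I L L L.p U :=
  ⟨⟨h.sm, fun x hx => (h.prj x hx).refl⟩, fun x hx => by
    rw [th_herm (h.sm x hx) (eventually_of_mem (hU.mem_nhds hx) fun y hy => (h.prj y hy).herm),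
      zero_add]⟩

theorem Iso.symm (h : Iso I L L' u U) : Iso I L' L (fun x => (u x)ᴴ) U :=
  ⟨h.toUni.symm, fun x hx => by rw [th_ct (h.sm x hx), ← h.par x hx, neg_add_cancel_left]⟩

theorem Iso.trans (h : Iso I L L' u U) (h' : Iso I L' L'' w U) :
    Iso I L L'' (fun x => w x * u x) U :=
  ⟨h.toUni.trans h'.toUni, fun x hx => by
    rw [th_trans (h.sm x hx) (h'.sm x hx) (h.iso x hx) (h'.iso x hx), ← h.par x hx, ← h'.par x hx]
    abel⟩

theorem Iso.shift (h : Iso I L L' u U) (b : M → Ext E) : Iso I (L.shift b) (L'.shift b) u U :=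
  ⟨h.toUni, fun x hx => by
    show th I u x + (L'.a x + b x) = L.a x + b x
    rw [← add_assoc, h.par x hx]⟩

/-- every isometry is parallel after a change of the connection -/
theorem Uni.iso_shift (h : Uni I L.p L'.p u U) : Iso I (L.shift (th I u + L'.a - L.a)) L' u U :=
  ⟨h, fun x _ => by
    show _ = L.a x + (th I u x + L'.a x - L.a x)
    abel⟩

theorem Iso.pull {f : N → M} {W : Set N} (h : Iso I L L' u U) (hf : Mp J I W U f) :
    Iso J (L.pull J I f) (L'.pull J I f) (fun y => u (f y)) W :=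
  ⟨h.toUni.comp hf, fun y hy => by
    rw [← pm_th (h.sm _ (hf.maps hy)) ((hf.sm y hy).mdifferentiableAt ne0)]
    exact (map_add _ _ _).symm.trans (congrArg _ (h.par _ (hf.maps hy)))⟩

theorem Iso.tens {K : Ln E M m} {K' : Ln E M n} {v : M → Matrix n m ℂ} (h : Iso I L L' u U)
    (h' : Iso I K K' v U) (t : ∀ x ∈ U, (L.p x).trace = 1) (t' : ∀ x ∈ U, (K.p x).trace = 1) :
    Iso I (L.tens K) (L'.tens K') (fun x => u x ⊗ₖ v x) U :=
  ⟨⟨fun x hx => (h.sm x hx).kron (h'.sm x hx), fun x hx => (h.iso x hx).kron (h'.iso x hx)⟩,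
    fun x hx => by
      rw [th_kron (h.sm x hx) (h'.sm x hx) (by rw [(h.iso x hx).src, t x hx])
        (by rw [(h'.iso x hx).src, t' x hx])]
      show _ + (L'.a x + K'.a x) = L.a x + K.a x
      rw [← h.par x hx, ← h'.par x hx]
      abel⟩

theorem Iso.dual (h : Iso I L L' u U) : Iso I L.dual L'.dual (fun x => (u x)ᴴᵀ) U :=
  ⟨⟨fun x hx => (h.sm x hx).ct.transpose, fun x hx => (h.iso x hx).bar⟩, fun x hx => by
    have e : th I (fun y => (u y)ᴴᵀ) x = -th I u x := th_conj (h.sm x hx)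
    show _ + -L'.a x = -L.a x
    rw [e, ← h.par x hx, neg_add]⟩

end Iso

/-! ### frames -/

theorem exists_unit {p : Matrix κ κ ℂ} (hp : Prj p) (ht : p.trace = 1) :
    ∃ a : Matrix κ Unit ℂ, PIso a 1 p := by
  classical
  obtain ⟨a, ha⟩ := hp.exists_frame
  have hr : p.rank = 1 := by
    have := hp.trace_eq_rank
    rw [ht] at this
    exact_mod_cast this.symm
  let e : Unit ≃ Fin p.rank := (Equiv.ofUnique Unit (Fin 1)).trans (finCongr hr.symm)
  refine ⟨a.submatrix id e, PIso.of_prj (by simp) ?_ ?_⟩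
  · rw [conjTranspose_submatrix, ← Equiv.coe_refl, submatrix_mul_equiv, ha.src, submatrix_one_equiv]
  · rw [conjTranspose_submatrix, submatrix_mul_equiv, ha.tgt, submatrix_id_id]

theorem Ln.On.exists_fr (hU : IsOpen U) (h : L.On I U) (hx : x ∈ U) :
    ∃ V s, IsOpen V ∧ x ∈ V ∧ V ⊆ U ∧ L.Fr I s (th I s + L.a) V := by
  classical
  obtain ⟨a₀, h₀⟩ := exists_unit (h.prj x hx) (h.tr x hx)
  obtain ⟨V, s, h1, h2, h3, -, h4⟩ := exists_iso_near (I := I) (p := fun _ => 1) hU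
    (fun _ _ => ⟨MSm.const _, Prj.one⟩) (fun y hy => ⟨h.sm y hy, h.prj y hy⟩) hx h₀
  exact ⟨V, s, h1, h2, h3, ⟨fun y hy => (h4 y hy).1, fun y hy => (h4 y hy).2⟩, fun _ _ => rfl⟩

theorem Iso.loc {s : M → Matrix κ Unit ℂ} {α : M → Ext E} (hU : IsOpen U) (h : L.Fr I s α U)
    (hx : x ∈ U) : L.Loc I s x :=
  eventually_of_mem (hU.mem_nhds hx) fun y hy => ⟨h.sm y hy, h.iso y hy⟩

/-- the frame of a tensor product -/
def tfr (s : M → Matrix κ Unit ℂ) (t : M → Matrix l Unit ℂ) (x : M) : Matrix (κ × l) Unit ℂ :=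
  (s x ⊗ₖ t x).submatrix id (Equiv.prodUnique Unit Unit).symm

theorem Iso.tfr {s : M → Matrix κ Unit ℂ} {t : M → Matrix l Unit ℂ} {α β : M → Ext E}
    (h : L.Fr I s α U) (h' : L'.Fr I t β U) : (L.tens L').Fr I (tfr s t) (α + β) U := by
  have k := h.tens h' (fun _ _ => by simp [triv]) (fun _ _ => by simp [triv])
  refine ⟨⟨fun x hx => (k.sm x hx).submatrix _ _, fun x hx => PIso.of_prj (by simp [triv]) ?_ ?_⟩,
    fun x hx => ?_⟩
  · rw [Line51.tfr, conjTranspose_submatrix, ← Equiv.coe_refl, submatrix_mul_equiv, (k.iso x hx).src]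
    simp [triv, Ln.tens]
  · rw [Line51.tfr, conjTranspose_submatrix, submatrix_mul_equiv, (k.iso x hx).tgt, submatrix_id_id]
  · exact (congrArg (· + _) (th_submatrix (u := fun y => s y ⊗ₖ t y) (Equiv.refl _) _)).trans
      (k.par x hx)

theorem Iso.dfr {s : M → Matrix κ Unit ℂ} {α : M → Ext E} (h : L.Fr I s α U) :
    L.dual.Fr I (fun x => (s x)ᴴᵀ) (-α) U :=
  h.dual.of_eq (fun _ _ => by simp [triv, Ln.dual]) (fun _ _ => rfl) (fun _ _ => rfl) fun _ _ => rfl

theorem Iso.pfr {s : M → Matrix κ Unit ℂ} {α : M → Ext E} {f : N → M} {W : Set N}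
    (h : L.Fr I s α U) (hf : Mp J I W U f) :
    (L.pull J I f).Fr J (fun y => s (f y)) (pm J I f α) W := h.pull hf

theorem Iso.sfr {s : M → Matrix κ Unit ℂ} {α : M → Ext E} (h : L.Fr I s α U) (b : M → Ext E) :
    (L.shift b).Fr I s (α + b) U := h.shift b

variable [I.Boundaryless] [IsManifold I ∞ M] [J.Boundaryless] [IsManifold J ∞ N]

theorem Uni.sm_th {p : M → Matrix κ κ ℂ} {q : M → Matrix l l ℂ} {u : M → Matrix l κ ℂ}
    (h : Uni I p q u U) : Sm I U (th I u) := fun x hx => smAt_th (h.sm x hx)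

theorem on_triv {α : M → Ext E} (h : Sm I U α) (h' : Dg 1 U α) : (triv α).On I U :=
  ⟨fun _ _ => MSm.const _, fun _ _ => Prj.one, fun _ _ => by simp [triv], h, h'⟩

/-- transport of `On` along an isomorphism -/
theorem Iso.on {u : M → Matrix l κ ℂ} (hU : IsOpen U) (h : Iso I L L' u U) (h' : L.On I U) :
    L'.On I U := by
  have e : EqOn L'.a (L.a - th I u) U := fun x hx => eq_sub_of_add_eq' (h.par x hx)
  refine ⟨fun x hx => ((h.sm x hx).mul (h.sm x hx).ct).congr ?_, fun x hx => (h.iso x hx).prj_tgt,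
    fun x hx => (h.iso x hx).trace_eq ▸ h'.tr x hx, (h'.sa.sub h.sm_th).congr hU e,
    (h'.dg.sub (dg_th u)).congr e⟩
  exact eventually_of_mem (hU.mem_nhds hx) fun y hy => (h.iso y hy).tgt.symm

theorem Ln.On.shift {b : M → Ext E} (h : L.On I U) (hb : Sm I U b) (hb' : Dg 1 U b) :
    (L.shift b).On I U := ⟨h.sm, h.prj, h.tr, h.sa.add hb, h.dg.add hb'⟩

theorem Ln.On.pull {f : N → M} {W : Set N} (h : L.On I U) (hf : Mp J I W U f) :
    (L.pull J I f).On J W :=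
  ⟨fun y hy => (h.sm _ (hf.maps hy)).comp (hf.sm y hy), fun _ hy => h.prj _ (hf.maps hy),
    fun _ hy => h.tr _ (hf.maps hy), h.sa.pm hf, h.dg.pm hf.maps⟩

theorem Ln.On.tens (h : L.On I U) (h' : L'.On I U) : (L.tens L').On I U :=
  ⟨fun x hx => (h.sm x hx).kron (h'.sm x hx), fun x hx => (h.prj x hx).kron (h'.prj x hx),
    fun x hx => by
      show (L.p x ⊗ₖ L'.p x).trace = 1
      rw [trace_kronecker, h.tr x hx, h'.tr x hx, mul_one], h.sa.add h'.sa, h.dg.add h'.dg⟩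

theorem Ln.On.dual (h : L.On I U) : L.dual.On I U :=
  ⟨fun x hx => (h.sm x hx).transpose, fun x hx => (h.prj x hx).transpose,
    fun x hx => (trace_transpose _).trans (h.tr x hx), h.sa.neg, h.dg.neg⟩

/-! ### curvature -/

theorem Ln.Loc.dM_eq {s s' : M → Matrix κ Unit ℂ} (h : L.Loc I s x) (h' : L.Loc I s' x)
    (ha : SmAt I L.a x) : dM I (th I s' + L.a) x = dM I (th I s + L.a) x := by
  let g : M → Matrix Unit Unit ℂ := fun y => (s y)ᴴ * s' y
  have hg : ∀ᶠ y in 𝓝 x, MSm I g y ∧ PIso (g y) 1 1 :=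
    (h.and h').mono fun y hy => ⟨hy.1.1.ct.mul hy.2.1, hy.2.2.trans hy.1.2.symm⟩
  have e : th I s' + L.a =ᶠ[𝓝 x] (th I s + L.a) + th I g := by
    filter_upwards [h, h'] with y h1 h2
    have k := th_trans h2.1 h1.1.ct h2.2 h1.2.symm
    rw [th_ct h1.1] at k
    simp only [Pi.add_apply]
    rw [show th I g y = _ from k]
    abel
  rw [dM_congr e, dM_add ne0 ((smAt_th h.self_of_nhds.1).add ha) (smAt_th hg.self_of_nhds.1),
    dM_th_unit hg.self_of_nhds.1 (hg.mono fun y hy => hy.2.src), add_zero]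

theorem Ln.Loc.F_eq {s : M → Matrix κ Unit ℂ} (h : L.Loc I s x) (ha : SmAt I L.a x) :
    L.F I x = dM I (th I s + L.a) x := by
  have k : ∃ s, L.Loc I s x := ⟨s, h⟩
  rw [Ln.F, dif_pos k]
  exact h.dM_eq k.choose_spec ha

/-- **the curvature in a frame** -/
theorem Iso.F_fr {s : M → Matrix κ Unit ℂ} {α : M → Ext E} (hU : IsOpen U) (h : L.Fr I s α U)
    (ha : Sm I U L.a) (hx : x ∈ U) : L.F I x = dM I α x := by
  rw [(h.loc hU hx).F_eq (ha x hx)]
  exact dM_congr (eventually_of_mem (hU.mem_nhds hx) fun y hy => h.par y hy)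

theorem Iso.sm_fr {s : M → Matrix κ Unit ℂ} {α : M → Ext E} (hU : IsOpen U) (h : L.Fr I s α U)
    (ha : Sm I U L.a) : Sm I U α :=
  (h.sm_th.add ha).congr hU fun y hy => (h.par y hy).symm

theorem Iso.dg_fr {s : M → Matrix κ Unit ℂ} {α : M → Ext E} (h : L.Fr I s α U)
    (ha : Dg 1 U L.a) : Dg 1 U α := ((dg_th s).add ha).congr fun y hy => (h.par y hy).symm

/-- local frames with their potentials -/
theorem Ln.On.exists_pot (hU : IsOpen U) (h : L.On I U) (hx : x ∈ U) :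
    ∃ V s α, IsOpen V ∧ x ∈ V ∧ V ⊆ U ∧ L.Fr I s α V ∧ Sm I V α ∧ Dg 1 V α ∧
      EqOn (L.F I) (dM I α) V := by
  obtain ⟨V, s, h1, h2, h3, h4⟩ := h.exists_fr hU hx
  exact ⟨V, s, _, h1, h2, h3, h4, h4.sm_fr h1 (h.sa.mono h3), h4.dg_fr (h.dg.mono h3),
    fun y hy => h4.F_fr h1 (h.sa.mono h3) hy⟩

theorem Ln.On.cl_F (hU : IsOpen U) (h : L.On I U) : Cl I 2 U (L.F I) := by
  refine cl_of_loc fun x hx => ?_
  obtain ⟨V, s, α, h1, h2, -, -, h5, h6, h7⟩ := h.exists_pot hU hx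
  exact ⟨V, h2, (cl_dM h1 h5 h6).congr h1 h7⟩

theorem F_triv {α : M → Ext E} (hU : IsOpen U) (h : Sm I U α) (h' : Dg 1 U α) (hx : x ∈ U) :
    (triv α).F I x = dM I α x := (Iso.refl hU (on_triv h h')).F_fr hU h hx

/-- parallel isometries preserve the curvature -/
theorem Iso.F_eq {u : M → Matrix l κ ℂ} (hU : IsOpen U) (h : Iso I L L' u U) (h' : L.On I U)
    (hx : x ∈ U) : L'.F I x = L.F I x := by
  obtain ⟨V, s, α, h1, h2, h3, h4, -, -, h7⟩ := h'.exists_pot hU hx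
  rw [h7 h2]
  exact (h4.trans (h.mono h3)).F_fr h1 ((h.on hU h').sa.mono h3) h2

theorem Ln.On.F_congr {K : Ln E M κ} (hU : IsOpen U) (h : L.On I U) (e : EqOn K.p L.p U)
    (ea : EqOn K.a L.a U) (hx : x ∈ U) : K.F I x = L.F I x :=
  ((Iso.refl hU h).of_eq (fun _ _ => rfl) (fun _ _ => rfl) e ea).F_eq hU h hx

theorem Ln.On.congr {K : Ln E M κ} (hU : IsOpen U) (h : L.On I U) (e : EqOn K.p L.p U)
    (ea : EqOn K.a L.a U) : K.On I U :=
  ((Iso.refl hU h).of_eq (fun _ _ => rfl) (fun _ _ => rfl) e ea).on hU h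

theorem Ln.On.F_shift {b : M → Ext E} (hU : IsOpen U) (h : L.On I U) (hb : Sm I U b) (hx : x ∈ U) :
    (L.shift b).F I x = L.F I x + dM I b x := by
  obtain ⟨V, s, α, h1, h2, h3, h4, h5, -, h7⟩ := h.exists_pot hU hx
  rw [h7 h2, (h4.sfr b).F_fr h1 ((h.sa.add hb).mono h3) h2, dM_add ne0 (h5 x h2) (hb x hx)]

/-- isometric lines have cohomologous curvature -/
theorem Uni.F_sub {u : M → Matrix l κ ℂ} (hU : IsOpen U) (h : Uni I L.p L'.p u U) (h1 : L.On I U)
    (h2 : L'.On I U) (hx : x ∈ U) : L'.F I x = L.F I x + dM I (th I u + L'.a - L.a) x := by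
  have hb := (h.sm_th.add h2.sa).sub h1.sa
  rw [h.iso_shift.F_eq hU (h1.shift hb (((dg_th u).add h2.dg).sub h1.dg)) hx, h1.F_shift hU hb hx]

theorem Uni.ex_F {u : M → Matrix l κ ℂ} (hU : IsOpen U) (h : Uni I L.p L'.p u U) (h1 : L.On I U)
    (h2 : L'.On I U) : Ex I U (L'.F I - L.F I) :=
  ⟨_, (h.sm_th.add h2.sa).sub h1.sa, fun _ hx => by
    rw [Pi.sub_apply, h.F_sub hU h1 h2 hx, add_sub_cancel_left]⟩

theorem Ln.On.F_pull {f : N → M} {W : Set N} (hU : IsOpen U) (hW : IsOpen W) (h : L.On I U)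
    (hf : Mp J I W U f) {y : N} (hy : y ∈ W) : (L.pull J I f).F J y = pm J I f (L.F I) y := by
  obtain ⟨V, s, α, h1, h2, h3, h4, h5, -, h7⟩ := h.exists_pot hU (hf.maps hy)
  have ho : IsOpen (W ∩ f ⁻¹' V) :=
    ContinuousOn.isOpen_inter_preimage
      (fun z hz => (hf.sm z hz).continuousAt.continuousWithinAt) hW h1
  have hf' : Mp J I (W ∩ f ⁻¹' V) V f := ⟨fun z hz => hf.sm z hz.1, fun _ hz => hz.2⟩
  rw [(h4.pfr hf').F_fr ho ((h.sa.mono h3).pm hf') ⟨hy, h2⟩, dM_pm ne0 (hf.sm y hy) (h5 _ h2)]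
  exact pm_congr_right (h7 h2).symm

theorem Ln.On.F_tens (hU : IsOpen U) (h : L.On I U) (h' : L'.On I U) (hx : x ∈ U) :
    (L.tens L').F I x = L.F I x + L'.F I x := by
  obtain ⟨V, s, α, h1, h2, h3, h4, h5, -, h7⟩ := h.exists_pot hU hx
  obtain ⟨V', s', α', k1, k2, -, k4, k5, -, k7⟩ := h'.exists_pot hU hx
  rw [h7 h2, k7 k2, ((h4.mono inter_subset_left).tfr (k4.mono inter_subset_right)).F_fr (h1.inter k1)
    ((h.sa.add h'.sa).mono (inter_subset_left.trans h3)) ⟨h2, k2⟩, dM_add ne0 (h5 x h2) (k5 x k2)]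

theorem Ln.On.F_dual (hU : IsOpen U) (h : L.On I U) (hx : x ∈ U) : L.dual.F I x = -L.F I x := by
  obtain ⟨V, s, α, h1, h2, h3, h4, -, -, h7⟩ := h.exists_pot hU hx
  rw [h7 h2, h4.dfr.F_fr h1 (h.sa.neg.mono h3) h2, dM_neg]
  rfl

end Crest.Agent.X212.Line51
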