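import Crest.Agent.X212.An.Gauge
import Crest.Agent.X212.Pj41.Clm
import Crest.Agent.X212.Line51.Th

/-!
# X212 / Line51, part Rl (helper51): complex matrices as real operators

`rl A : CL (Eu (κ ⊕ κ)) (Eu (l ⊕ l))` is the real operator of the complex matrix `A`, `iL κ` is the
multiplication by `i`.
-/

set_option autoImplicit false
set_option linter.unusedSectionVars false
set_option linter.unusedSimpArgs false

open Set Filter Topology Function Matrix
open scoped ContDiff Manifold InnerProductSpace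
open Crest.Agent.X212.Pj41
open Crest.Agent.X212.An (Eu CL En Sym Skw trn)

noncomputable section

namespace Crest.Agent.X212.Line51

variable {κ l m : Type} [Fintype κ] [Fintype l] [Fintype m] [DecidableEq κ] [DecidableEq l]
  [DecidableEq m]

/-- the real matrix of a complex matrix -/
def rm : Matrix l κ ℂ →ₗ[ℝ] Matrix (l ⊕ l) (κ ⊕ κ) ℝ where
  toFun A := fromBlocks (A.map Complex.re) (-A.map Complex.im) (A.map Complex.im) (A.map Complex.re)
  map_add' A B := by ext (i | i) (j | j) <;> simp [add_comm]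
  map_smul' r A := by ext (i | i) (j | j) <;> simp

theorem rm_apply (A : Matrix l κ ℂ) : rm A =
    fromBlocks (A.map Complex.re) (-A.map Complex.im) (A.map Complex.im) (A.map Complex.re) := rfl

theorem rm_mul (A : Matrix m l ℂ) (B : Matrix l κ ℂ) : rm (A * B) = rm A * rm B := by
  ext (i | i) (j | j) <;>
    simp [rm_apply, Matrix.mul_apply, Fintype.sum_sum_type, ← Finset.sum_add_distrib,
      ← Finset.sum_neg_distrib, sub_eq_add_neg, add_comm]

theorem rm_ct (A : Matrix l κ ℂ) : rm Aᴴ = (rm A)ᴴ := by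
  ext (i | i) (j | j) <;> simp [rm_apply]

theorem rm_one : rm (1 : Matrix κ κ ℂ) = 1 := by
  ext (i | i) (j | j) <;> simp [rm_apply, Matrix.one_apply, apply_ite Complex.im, apply_ite Complex.re]

theorem rm_trace (A : Matrix κ κ ℂ) : (rm A).trace = 2 * A.trace.re := by
  simp [rm_apply, Matrix.trace, Fintype.sum_sum_type, two_mul]

theorem rm_injective : Injective (rm (l := l) (κ := κ)) := fun A B h => by
  ext i j
  exact Complex.ext (congrFun (congrFun h (.inl i)) (.inl j)) (congrFun (congrFun h (.inr i)) (.inl j))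

/-- the standard basis -/
abbrev eb (κ : Type) [Fintype κ] : OrthonormalBasis κ ℝ (Eu κ) := EuclideanSpace.basisFun κ ℝ

/-- the real operator of a complex matrix -/
def rl : Matrix l κ ℂ →ₗ[ℝ] CL (Eu (κ ⊕ κ)) (Eu (l ⊕ l)) :=
  (mx (eb (κ ⊕ κ)) (eb (l ⊕ l))).symm.toLinearMap ∘ₗ rm

theorem rl_apply (A : Matrix l κ ℂ) : rl A = (mx (eb (κ ⊕ κ)) (eb (l ⊕ l))).symm (rm A) := rfl

theorem mx_rl (A : Matrix l κ ℂ) : mx (eb (κ ⊕ κ)) (eb (l ⊕ l)) (rl A) = rm A :=
  LinearEquiv.apply_symm_apply _ _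

theorem rl_injective : Injective (rl (l := l) (κ := κ)) :=
  (mx (eb (κ ⊕ κ)) (eb (l ⊕ l))).symm.injective.comp rm_injective

theorem rl_comp (A : Matrix m l ℂ) (B : Matrix l κ ℂ) : rl (A * B) = rl A ∘L rl B := by
  rw [rl_apply, rm_mul, mx_symm_mul _ (eb (l ⊕ l))]
  rfl

theorem rl_mul (A B : Matrix κ κ ℂ) : rl (A * B) = rl A * rl B := rl_comp A B

theorem rl_one : rl (1 : Matrix κ κ ℂ) = 1 := by
  rw [rl_apply, rm_one, LinearEquiv.symm_apply_eq, mx_one]

theorem trn_eq_ad (u : CL (Eu κ) (Eu l)) : trn u = ad u :=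
  (ad_eq fun w v => ContinuousLinearMap.adjoint_inner_left u v w).symm

theorem rl_ad (A : Matrix l κ ℂ) : rl Aᴴ = ad (rl A) := by
  rw [rl_apply, rm_ct, mx_symm_ct]
  rfl

theorem rl_ct (A : Matrix l κ ℂ) : rl Aᴴ = trn (rl A) := by rw [rl_ad, trn_eq_ad]

theorem rl_trace (A : Matrix κ κ ℂ) :
    LinearMap.trace ℝ _ (rl A : Eu (κ ⊕ κ) →ₗ[ℝ] Eu (κ ⊕ κ)) = 2 * A.trace.re := by
  rw [LinearMap.trace_eq_matrix_trace ℝ (eb (κ ⊕ κ)).toBasis, ← rm_trace, ← mx_rl]
  rfl

theorem sym_rl {A : Matrix κ κ ℂ} (h : Aᴴ = A) : Sym (rl A) := fun v w => by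
  rw [← inner_ad_right, ← rl_ad, h]

theorem skw_rl {A : Matrix κ κ ℂ} (h : Aᴴ = -A) : Skw (rl A) := fun v w => by
  rw [← inner_ad_right, ← rl_ad, h, map_neg, _root_.neg_apply, inner_neg_right]

variable (κ) in
/-- multiplication by `i` -/
def iL : En (κ ⊕ κ) := rl (Complex.I • (1 : Matrix κ κ ℂ))

theorem rl_I_smul (A : Matrix l κ ℂ) : rl (Complex.I • A) = iL l ∘L rl A := by
  rw [iL, ← rl_comp, Matrix.smul_mul, Matrix.one_mul]

theorem rl_comp_iL (A : Matrix l κ ℂ) : rl A ∘L iL κ = iL l ∘L rl A := by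
  rw [← rl_I_smul, iL, ← rl_comp, Matrix.mul_smul, Matrix.mul_one]

theorem iL_mul (A : Matrix κ κ ℂ) : iL κ * rl A = rl A * iL κ := (rl_comp_iL A).symm

theorem iL_sq : iL κ * iL κ = -1 := by
  rw [iL, ← rl_mul, Matrix.smul_mul, Matrix.one_mul, smul_smul, Complex.I_mul_I, neg_smul, one_smul,
    map_neg, rl_one]

theorem iL_skw : Skw (iL κ) := skw_rl (by simp)

/-- `rl` as a continuous linear map -/
def rlL : (l → κ → ℂ) →L[ℝ] CL (Eu (κ ⊕ κ)) (Eu (l ⊕ l)) :=
  LinearMap.toContinuousLinearMap (rl ∘ₗ (Matrix.ofLinearEquiv ℝ).toLinearMap)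

variable {E : Type*} [NormedAddCommGroup E] [NormedSpace ℝ E] [FiniteDimensional ℝ E]
  {H : Type*} [TopologicalSpace H] {I : ModelWithCorners ℝ E H}
  {M : Type*} [TopologicalSpace M] [ChartedSpace H M] {u : M → Matrix l κ ℂ} {x : M}

theorem fsm_rl (hu : MSm I u x) : FSm I (fun y => rl (u y)) x :=
  (rlL (l := l) (κ := κ)).contDiff.contDiffAt.comp_contMDiffAt (MSm.iff_pi.1 hu)

theorem dv_rl (hu : MSm I u x) (e : (y : M) → TangentSpace I y) :
    Sob92.dv I e (fun y => rl (u y)) x = rl (dm I u x (e x)) := by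
  have h := (MSm.iff_pi.1 hu).mdifferentiableAt (by simp)
  refine (Sob92.dv_clm (e := e) rlL h).trans (congrArg rl ?_)
  ext i j
  exact (Sob92.dv_clm (e := e) ((ContinuousLinearMap.proj j : (κ → ℂ) →L[ℝ] ℂ) ∘L
    (ContinuousLinearMap.proj i : (l → κ → ℂ) →L[ℝ] κ → ℂ)) h).symm

end Crest.Agent.X212.Line51
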