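import Crest.Agent.X212.Pj41.Gl
import Crest.Agent.X212.Line51.Defs

/-!
# X212 / Line51, part Glue (helper51): constructing lines

* `sc g`, `ang I g` : a scalar as a `1 × 1` matrix, the angular form `d arg g` of a circle valued map;
* `exists_conn`, `exists_glue`, `exists_cech`, `exists_two` (parallel isometry), `exists_two'` (any isometry, cut-off);
* `Ln.On.iso_pull_pull`, `Iso.of_pull` (transport along open embeddings through a left inverse).
-/

set_option autoImplicit false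
set_option linter.unusedSectionVars false

open Set Filter Topology Function Matrix
open scoped ContDiff Manifold Kronecker
open Crest.Agent.R208 Crest.Agent.R208.F Crest.Agent.R208.FI Crest.Agent.X212.Dr59
  Crest.Agent.X212.Pj41

noncomputable section

namespace Crest.Agent.X212.Line51

variable {E : Type*} [NormedAddCommGroup E] [NormedSpace ℝ E] [FiniteDimensional ℝ E]
  {H : Type*} [TopologicalSpace H] {I : ModelWithCorners ℝ E H}
  {M : Type*} [TopologicalSpace M] [ChartedSpace H M]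
  {E' : Type*} [NormedAddCommGroup E'] [NormedSpace ℝ E'] [FiniteDimensional ℝ E']
  {H' : Type*} [TopologicalSpace H'] {J : ModelWithCorners ℝ E' H'}
  {N : Type*} [TopologicalSpace N] [ChartedSpace H' N]
  {E'' : Type*} [NormedAddCommGroup E''] [NormedSpace ℝ E''] [FiniteDimensional ℝ E'']
  {H'' : Type*} [TopologicalSpace H''] {K : ModelWithCorners ℝ E'' H''}
  {P : Type*} [TopologicalSpace P] [ChartedSpace H'' P]
  {κ l m n : Type*} [Fintype κ] [Fintype l] [Fintype m] [Fintype n]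

/-! ### circle valued maps -/

/-- a circle valued function as a `1 × 1` matrix -/
def sc (g : M → Circle) (x : M) : Matrix Unit Unit ℂ := Matrix.of fun _ _ => (g x : ℂ)

variable (I) in
/-- the angular form `d arg g` -/
def ang (g : M → Circle) : M → Ext E := th I (sc g)

variable (I) in
/-- smooth circle valued germs -/
abbrev CSm (g : M → Circle) (x : M) : Prop := ContMDiffAt I (𝓡 1) ∞ g x

section ang

variable {g h : M → Circle} {x : M} {U : Set M}

theorem contMDiff_coe : ContMDiff (𝓡 1) 𝓘(ℝ, ℂ) ∞ fun z : Circle => (z : ℂ) :=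
  haveI : Fact (Module.finrank ℝ ℂ = 1 + 1) := ⟨Complex.finrank_real_complex⟩
  contMDiff_coe_sphere (E := ℂ) (n := 1)

theorem msm_sc (hg : CSm I g x) : MSm I (sc g) x := fun _ _ => (contMDiff_coe _).comp x hg

theorem sc_mul (g h : M → Circle) (x : M) : sc (g * h) x = sc g x * sc h x := by
  ext i j
  simp [sc, Matrix.mul_apply]

theorem sc_inv (g : M → Circle) (x : M) : sc g⁻¹ x = (sc g x)ᴴ := by
  ext i j
  exact Circle.coe_inv_eq_conj (g x)

@[simp] theorem sc_one (x : M) : sc (1 : M → Circle) x = 1 := by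
  ext i j
  simp [sc]

theorem piso_sc (g : M → Circle) (x : M) : PIso (sc g x) 1 1 :=
  ⟨by rw [← sc_inv, ← sc_mul, inv_mul_cancel, sc_one],
    by rw [← sc_inv, ← sc_mul, mul_inv_cancel, sc_one], Matrix.mul_one _⟩

theorem ang_congr (e : g =ᶠ[𝓝 x] h) : ang I g x = ang I h x :=
  th_congr (e.mono fun y hy => by simp only [sc, hy])

@[simp] theorem ang_const (c : Circle) : ang I (fun _ : M => c) = 0 := th_const (Matrix.of fun _ _ => c)

@[simp] theorem ang_one : ang I (1 : M → Circle) = 0 := ang_const 1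

theorem ang_mul (hg : CSm I g x) (hh : CSm I h x) : ang I (g * h) x = ang I g x + ang I h x := by
  rw [ang, funext (sc_mul g h)]
  exact th_trans (msm_sc hh) (msm_sc hg) (piso_sc h x) (piso_sc g x)

theorem ang_inv (hg : CSm I g x) : ang I g⁻¹ x = -ang I g x := by
  rw [ang, funext (sc_inv g)]
  exact th_ct (msm_sc hg)

theorem CSm.mul (hg : CSm I g x) (hh : CSm I h x) : CSm I (g * h) x := ContMDiffAt.mul hg hh

theorem CSm.inv (hg : CSm I g x) : CSm I g⁻¹ x := ContMDiffAt.inv hg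

theorem CSm.pow (hg : CSm I g x) (k : ℕ) : CSm I (g ^ k) x := by
  induction k with
  | zero => rw [pow_zero]; exact contMDiffAt_const
  | succ k ih => rw [pow_succ]; exact ih.mul hg

theorem CSm.zpow (hg : CSm I g x) (k : ℤ) : CSm I (g ^ k) x := by
  cases k with
  | ofNat k => simpa using hg.pow k
  | negSucc k => rw [zpow_negSucc]; exact (hg.pow _).inv

theorem ang_pow (hg : CSm I g x) (k : ℕ) : ang I (g ^ k) x = (k : ℝ) • ang I g x := by
  induction k with
  | zero => simp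
  | succ k ih => rw [pow_succ, ang_mul (hg.pow k) hg, ih, Nat.cast_succ, add_smul, one_smul]

theorem ang_zpow (hg : CSm I g x) (k : ℤ) : ang I (g ^ k) x = (k : ℝ) • ang I g x := by
  cases k with
  | ofNat k => simpa using ang_pow hg k
  | negSucc k => rw [zpow_negSucc, ang_inv (hg.pow _), ang_pow hg, Int.cast_negSucc, neg_smul]

theorem pm_ang {φ : N → M} {y : N} (hg : CSm I g (φ y)) (hφ : MDifferentiableAt J I φ y) :
    pm J I φ (ang I g) y = ang J (g ∘ φ) y := pm_th (msm_sc hg) hφ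

theorem dg_ang (g : M → Circle) : Dg 1 U (ang I g) := dg_th _

theorem ang_exp {f : M → ℝ} (hf : FSm I f x) : ang I (fun y => Circle.exp (f y)) x = df I f x := by
  refine congrArg io (LinearMap.ext fun v => ?_)
  have h1 : HasFDerivAt (fun t : ℝ => Complex.exp (t * Complex.I))
      ((Complex.exp (f x * Complex.I) * Complex.I) • Complex.ofRealCLM) (f x) := by
    have := ((Complex.ofRealCLM.hasDerivAt (x := f x)).mul_const Complex.I).cexp
    refine this.hasFDerivAt.congr_fderiv ?_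
    ext
    simp
  have h2 := Sob92.dv_comp (I := I) (e := fun _ => v) (hf.mdifferentiableAt ne0) h1
  rw [tl_eq_sum]
  simp only [Finset.univ_unique, Finset.sum_singleton, sc, Matrix.of_apply, Circle.coe_exp]
  rw [dc_eq_dv, h2]
  show (star (Complex.exp (f x * Complex.I)) * ((Complex.exp (f x * Complex.I) * Complex.I) *
    ((mf I 𝓘(ℝ, ℝ) f x v : ℝ) : ℂ))).im = mf I 𝓘(ℝ, ℝ) f x v
  have h3 : star (Complex.exp (f x * Complex.I)) * Complex.exp (f x * Complex.I) = 1 := by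
    rw [Complex.star_def, Complex.conj_mul', Complex.norm_exp_ofReal_mul_I]
    simp
  rw [← mul_assoc, ← mul_assoc, h3]
  simp

/-- change of a frame -/
theorem Iso.mul_sc {L : Ln E M κ} {s : M → Matrix κ Unit ℂ} {α : M → Ext E} (h : L.Fr I s α U)
    (hg : ∀ x ∈ U, CSm I g x) : L.Fr I (fun x => s x * sc g x) (α + ang I g) U :=
  Iso.trans (L' := triv α) ⟨⟨fun x hx => msm_sc (hg x hx), fun x _ => piso_sc g x⟩,
    fun _ _ => add_comm _ _⟩ h

theorem iso_sc {α β : M → Ext E} (hg : ∀ x ∈ U, CSm I g x) (h : ∀ x ∈ U, β x = α x + ang I g x) :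
    Iso I (triv β) (triv α) (sc g) U :=
  ⟨⟨fun x hx => msm_sc (hg x hx), fun x _ => piso_sc g x⟩, fun x hx =>
    (add_comm _ _).trans (h x hx).symm⟩

variable [I.Boundaryless] [IsManifold I ∞ M]

theorem smAt_ang (hg : CSm I g x) : SmAt I (ang I g) x := smAt_th (msm_sc hg)

theorem dM_ang (hg : CSm I g x) : dM I (ang I g) x = 0 :=
  dM_th_unit (msm_sc hg) (Eventually.of_forall fun y => (piso_sc g y).src)

theorem cl_ang (hg : ∀ x ∈ U, CSm I g x) : Cl I 1 U (ang I g) :=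
  ⟨fun x hx => smAt_ang (hg x hx), dg_ang g, fun x hx => dM_ang (hg x hx)⟩

end ang

/-! ### pull-backs -/

theorem Ln.pull_pull (L : Ln E M κ) {f : N → M} {g : P → N} {z : P}
    (hf : MDifferentiableAt J I f (g z)) (hg : MDifferentiableAt K J g z) :
    ((L.pull J I f).pull K J g).a z = (L.pull K I (f ∘ g)).a z := pm_comp hf hg

theorem Ln.pull_id (L : Ln E M κ) : L.pull I I id = L := by
  cases L
  simp [Ln.pull]

variable [I.Boundaryless] [IsManifold I ∞ M] [J.Boundaryless] [IsManifold J ∞ N]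

/-- a line pulled back by `g` and then by a right inverse `f` of `g` -/
theorem Ln.On.iso_pull_pull {L : Ln E' N κ} {W : Set N} {U : Set M} {f : N → M} {g : M → N}
    (hW : IsOpen W) (h : L.On J W) (hf : Mp J I W U f) (hg : Mp I J U W g)
    (e : ∀ y ∈ W, g (f y) = y) : Iso J L ((L.pull I J g).pull J I f) L.p W := by
  refine (Iso.refl hW h).of_eq (fun _ _ => rfl) (fun _ _ => rfl)
    (fun y hy => congrArg L.p (e y hy)) fun y hy => ?_
  rw [L.pull_pull ((hg.sm _ (hf.maps hy)).mdifferentiableAt ne0) ((hf.sm y hy).mdifferentiableAt ne0)]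
  exact pm_of_eventually_id (eventually_of_mem (hW.mem_nhds hy) e) _

/-- an isomorphism is tested after a local parametrisation -/
theorem Iso.of_pull {L : Ln E M κ} {L' : Ln E M l} {u : N → Matrix l κ ℂ} {W : Set N} {U : Set M}
    {f : N → M} {g : M → N} (hU : IsOpen U) (h : Iso J (L.pull J I f) (L'.pull J I f) u W)
    (hf : Mp J I W U f) (hg : Mp I J U W g) (e : ∀ x ∈ U, f (g x) = x) :
    Iso I L L' (fun x => u (g x)) U := by
  have k : ∀ a : M → Ext E, EqOn a (pm I J g (pm J I f a)) U := fun a x hx => by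
    rw [pm_comp ((hf.sm _ (hg.maps hx)).mdifferentiableAt ne0) ((hg.sm x hx).mdifferentiableAt ne0)]
    exact (pm_of_eventually_id (eventually_of_mem (hU.mem_nhds hx) e) _).symm
  exact (h.pull hg).of_eq (fun x hx => congrArg L.p (e x hx).symm) (k L.a)
    (fun x hx => congrArg L'.p (e x hx).symm) (k L'.a)

/-! ### gluing -/

section Glue

variable {ι : Type*} {κ : ι → Type*} [∀ i, Fintype (κ i)] {U : ι → Set M}

/-- the connection on a glued projector field -/
theorem exists_conn (hU : ∀ i, IsOpen (U i)) (hc : ∀ x, ∃ i, x ∈ U i) {L : ∀ i, Ln E M (κ i)}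
    (hL : ∀ i, (L i).On I (U i)) {Q : M → Matrix l l ℂ} {a : ∀ i, M → Matrix l (κ i) ℂ}
    (ha : ∀ i, Uni I (L i).p Q (a i) (U i))
    (h : ∀ i j, Iso I (L j) (L i) (fun x => (a i x)ᴴ * a j x) (U i ∩ U j)) :
    ∃ b : M → Ext E, (⟨Q, b⟩ : Ln E M l).On I univ ∧ ∀ i, Iso I (L i) ⟨Q, b⟩ (a i) (U i) := by
  obtain ⟨b, hb⟩ := exists_patch hU hc (fun i => (L i).a - th I (a i)) fun i j x hi hj => by
    have k := (h i j).par x ⟨hi, hj⟩
    rw [th_trans ((ha j).sm x hj) ((ha i).sm x hi).ct ((ha j).iso x hj) ((ha i).iso x hi).symm,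
      th_ct ((ha i).sm x hi)] at k
    simp only [Pi.sub_apply]
    rw [← k]
    abel
  have h1 : ∀ i, Iso I (L i) ⟨Q, b⟩ (a i) (U i) := fun i => ⟨ha i, fun x hx => by
    show _ + b x = _
    rw [(hb i x hx).self_of_nhds, Pi.sub_apply, add_sub_cancel]⟩
  refine ⟨b, Ln.on_of_loc fun x _ => ?_, h1⟩
  obtain ⟨i, hi⟩ := hc x
  exact ⟨U i, hi, (h1 i).on (hU i) (hL i)⟩

variable [T2Space M] [SigmaCompactSpace M] [Fintype ι]

/-- **gluing of lines along a cocycle of parallel isometries** -/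
theorem exists_glue (hU : ∀ i, IsOpen (U i)) (hc : ∀ x, ∃ i, x ∈ U i) {L : ∀ i, Ln E M (κ i)}
    (hL : ∀ i, (L i).On I (U i)) {u : ∀ i j, M → Matrix (κ i) (κ j) ℂ}
    (hu : ∀ i j, Iso I (L j) (L i) (u i j) (U i ∩ U j))
    (hm : ∀ i j k, ∀ x ∈ U i, x ∈ U j → x ∈ U k → u i j x * u j k x = u i k x) :
    ∃ (G : Ln E M (Σ j, κ j)) (a : ∀ i, M → Matrix (Σ j, κ j) (κ i) ℂ), G.On I univ ∧
      (∀ i, Iso I (L i) G (a i) (U i)) ∧
      ∀ i j, ∀ x ∈ U i, x ∈ U j → a i x * u i j x = a j x := by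
  classical
  have hp : ∀ i, ∀ x ∈ U i, u i i x = (L i).p x := fun i x hx => by
    have k := (hu i i).iso x ⟨hx, hx⟩
    rw [← k.left, ← k.src, Matrix.mul_assoc, hm i i i x hx hx hx]
  have hct : ∀ i j, ∀ x ∈ U i, x ∈ U j → (u i j x)ᴴ = u j i x := fun i j x hi hj => by
    have k := (hu i j).iso x ⟨hi, hj⟩
    rw [← k.ct_right, ← hp i x hi, ← hm i j i x hi hj hi, ← Matrix.mul_assoc, k.src,
      ((hu j i).iso x ⟨hj, hi⟩).left]
  obtain ⟨Q, a, -, h2, h3, -⟩ := Pj41.exists_glue (I := I)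
    ⟨hU, fun i j x hi hj => (hu i j).sm x ⟨hi, hj⟩, hct, hm⟩ hc
  obtain ⟨b, h4, h5⟩ := exists_conn hU hc hL (Q := Q) (a := a)
    (fun i => ⟨fun x hx => (h2 i x hx).1, fun x hx => hp i x hx ▸ (h2 i x hx).2⟩)
    fun i j => (hu i j).congr ((hU i).inter (hU j)) fun x hx => (h3 i j x hx.1 hx.2).1
  exact ⟨_, a, h4, h5, fun i j x hi hj => (h3 i j x hi hj).2⟩

/-- **a line from transition functions and potentials** -/
theorem exists_cech (hU : ∀ i, IsOpen (U i)) (hc : ∀ x, ∃ i, x ∈ U i) {α : ι → M → Ext E}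
    (hα : ∀ i, Sm I (U i) (α i)) (hα' : ∀ i, Dg 1 (U i) (α i)) {g : ι → ι → M → Circle}
    (hg : ∀ i j, ∀ x ∈ U i, x ∈ U j → CSm I (g i j) x)
    (hm : ∀ i j k, ∀ x ∈ U i, x ∈ U j → x ∈ U k → g i j x * g j k x = g i k x)
    (h : ∀ i j, ∀ x ∈ U i, x ∈ U j → α j x = α i x + ang I (g i j) x) :
    ∃ (G : Ln E M (Σ _ : ι, Unit)) (s : ι → M → Matrix (Σ _ : ι, Unit) Unit ℂ), G.On I univ ∧
      (∀ i, G.Fr I (s i) (α i) (U i)) ∧
      ∀ i j, ∀ x ∈ U i, x ∈ U j → s i x * sc (g i j) x = s j x :=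
  exists_glue (κ := fun _ => Unit) hU hc (L := fun i => triv (α i))
    (fun i => on_triv (hα i) (hα' i)) (u := fun i j => sc (g i j))
    (fun i j => iso_sc (fun x hx => hg i j x hx.1 hx.2) fun x hx => h i j x hx.1 hx.2)
    fun i j k x hi hj hk => by
      rw [← sc_mul]
      exact congrArg (fun c : Circle => Matrix.of fun _ _ => (c : ℂ)) (hm i j k x hi hj hk)

end Glue

section Two

variable [T2Space M] [SigmaCompactSpace M] {U V : Set M} {L : Ln E M κ} {L' : Ln E M l}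
  {u : M → Matrix l κ ℂ}

/-- two lines glued along a parallel isometry -/
theorem exists_two (hU : IsOpen U) (hV : IsOpen V) (hc : U ∪ V = univ) (h : L.On I U)
    (h' : L'.On I V) (hu : Iso I L L' u (U ∩ V)) :
    ∃ (G : Ln E M (κ ⊕ l)) (a : M → Matrix (κ ⊕ l) κ ℂ) (b : M → Matrix (κ ⊕ l) l ℂ), G.On I univ ∧
      Iso I L G a U ∧ Iso I L' G b V ∧ ∀ x ∈ U ∩ V, b x * u x = a x := by
  obtain ⟨Q, a, b, -, h2, h3, h4, -⟩ := exists_glue_two (I := I) hU hV hc
    (fun x hx => ⟨h.sm x hx, h.prj x hx⟩) (fun x hx => ⟨h'.sm x hx, h'.prj x hx⟩)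
    fun x hx hx' => ⟨hu.sm x ⟨hx, hx'⟩, hu.iso x ⟨hx, hx'⟩⟩
  obtain ⟨c, hc'⟩ := exists_patch (U := fun b : Bool => cond b U V)
    (by rintro (_ | _); exacts [hV, hU]) (fun x => by
      rcases (hc ▸ mem_univ x : x ∈ U ∪ V) with h | h
      exacts [⟨true, h⟩, ⟨false, h⟩])
    (fun i => cond i (L.a - th I a) (L'.a - th I b)) (by
      have k : ∀ x ∈ U, x ∈ V → (L.a - th I a) x = (L'.a - th I b) x := fun x hx hx' => by
        have e : th I a x = th I b x + th I u x := by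
          rw [← th_trans (hu.sm x ⟨hx, hx'⟩) (h3 x hx').1 (hu.iso x ⟨hx, hx'⟩) (h3 x hx').2]
          exact th_congr (eventually_of_mem ((hU.inter hV).mem_nhds ⟨hx, hx'⟩)
            fun y hy => (h4 y hy.1 hy.2).2.symm)
        simp only [Pi.sub_apply]
        rw [e, ← hu.par x ⟨hx, hx'⟩]
        abel
      rintro (_ | _) (_ | _) x h1 h2
      exacts [rfl, (k x h2 h1).symm, k x h1 h2, rfl])
  have k1 : Iso I L ⟨Q, c⟩ a U := ⟨⟨fun x hx => (h2 x hx).1, fun x hx => (h2 x hx).2⟩, fun x hx => by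
    show _ + c x = _
    rw [(hc' true x hx).self_of_nhds]
    exact add_sub_cancel _ _⟩
  have k2 : Iso I L' ⟨Q, c⟩ b V := ⟨⟨fun x hx => (h3 x hx).1, fun x hx => (h3 x hx).2⟩, fun x hx => by
    show _ + c x = _
    rw [(hc' false x hx).self_of_nhds]
    exact add_sub_cancel _ _⟩
  refine ⟨_, a, b, Ln.on_of_loc fun x _ => ?_, k1, k2, fun x hx => (h4 x hx.1 hx.2).2⟩
  rcases (hc ▸ mem_univ x : x ∈ U ∪ V) with hx | hx
  exacts [⟨U, hx, k1.on hU h⟩, ⟨V, hx, k2.on hV h'⟩]

theorem smAt_cutoff {χ : M → ℝ} {a : M → Ext E} {x : M} (hχ : FSm I χ x) (hU : tsupport χ ⊆ U)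
    (ha : x ∈ U → SmAt I a x) : SmAt I (χ • a) x := by
  by_cases hx : x ∈ tsupport χ
  · exact (ha (hU hx)).fsmul le_rfl hχ
  · refine cAt_zero.congr ?_
    filter_upwards [notMem_tsupport_iff_eventuallyEq.1 hx] with y hy
    simp [hy]

/-- two lines glued along any isometry: the connections are interpolated by `ρ`
(`ρ = 0` near the complement of `V`, `ρ = 1` near the complement of `U`) -/
theorem exists_two' (hU : IsOpen U) (hV : IsOpen V) (hc : U ∪ V = univ) (h : L.On I U)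
    (h' : L'.On I V) (hu : Uni I L.p L'.p u (U ∩ V)) {ρ : M → ℝ} (hρ : ∀ x, FSm I ρ x)
    (h0 : tsupport ρ ⊆ V) (h1 : tsupport (1 - ρ) ⊆ U) :
    ∃ (G : Ln E M (κ ⊕ l)) (a : M → Matrix (κ ⊕ l) κ ℂ) (b : M → Matrix (κ ⊕ l) l ℂ), G.On I univ ∧
      Iso I (L.shift (ρ • (th I u + L'.a - L.a))) G a U ∧
      Iso I (L'.shift (-((1 - ρ) • (th I u + L'.a - L.a)))) G b V ∧
      (∀ x ∈ U ∩ V, b x * u x = a x) ∧
      (∀ x ∈ U, G.F I x = L.F I x + dM I (ρ • (th I u + L'.a - L.a)) x) ∧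
      ∀ x ∈ V, G.F I x = L'.F I x - dM I ((1 - ρ) • (th I u + L'.a - L.a)) x := by
  set β := th I u + L'.a - L.a with hβ
  have sβ : Sm I (U ∩ V) β :=
    (hu.sm_th.add (h'.sa.mono inter_subset_right)).sub (h.sa.mono inter_subset_left)
  have dβ : Dg 1 (U ∩ V) β :=
    ((dg_th u).add (h'.dg.mono inter_subset_right)).sub (h.dg.mono inter_subset_left)
  have s1 : Sm I U (ρ • β) := fun x hx => smAt_cutoff (hρ x) h0 fun hx' => sβ x ⟨hx, hx'⟩
  have s2 : Sm I V ((1 - ρ) • β) := fun x hx =>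
    smAt_cutoff (contMDiffAt_const.sub (hρ x)) h1 fun hx' => sβ x ⟨hx', hx⟩
  have d1 : Dg 1 U (ρ • β) := fun x hx => by
    by_cases e : ρ x = 0
    · simpa [e] using IsDeg.zero
    · exact (dβ x ⟨hx, h0 (subset_tsupport _ e)⟩).smul _
  have d2 : Dg 1 V ((1 - ρ) • β) := fun x hx => by
    by_cases e : (1 - ρ) x = 0
    · rw [Pi.smul_apply', e, zero_smul]; exact IsDeg.zero
    · exact (dβ x ⟨h1 (subset_tsupport _ e), hx⟩).smul _
  have o1 := h.shift s1 d1
  have o2 := h'.shift s2.neg d2.neg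
  obtain ⟨G, a, b, g1, g2, g3, g4⟩ := exists_two hU hV hc o1 o2 (u := u) ⟨hu, fun x _ => by
    show th I u x + (L'.a x + -((1 - ρ x) • β x)) = L.a x + ρ x • β x
    rw [sub_smul, one_smul, hβ]
    simp only [Pi.sub_apply, Pi.add_apply]
    abel⟩
  refine ⟨G, a, b, g1, g2, g3, g4, fun x hx => ?_, fun x hx => ?_⟩
  · rw [g2.F_eq hU o1 hx, h.F_shift hU s1 hx]
  · rw [g3.F_eq hV o2 hx, h'.F_shift hV s2.neg hx, dM_neg]
    exact (sub_eq_add_neg _ _).symm

end Two

end Crest.Agent.X212.Line51
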