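import Crest.Agent.X212.G75.Defs
import Crest.Agent.X212.Cut54.Wld
import Crest.Agent.X212.M.Api

/-!
# X212 / Line51, part Ic (helper51): the cuts of a scene

* `CutOK Lm` : the cuts of the model are admissible; `Scene.ct`, `Scene.nb` : the cuts of a scene and their regions;
* `ct_mok`, `nb_ok`, `nb_dj`, `ct_ok`, `ct_γ`, `ct_fl`, `unc_of`, `hf_U`, `U_eq` ; `Mt.ct_tp`, `Mt.ct_rel`, `Mt.nb_img` : naturality.
-/

set_option autoImplicit false
set_option linter.unusedSectionVars false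

open Set Function
open scoped ContDiff Manifold
noncomputable section

namespace Crest.Agent.X212.Cut54
open An M

/-- **two transports compose** -/
theorem MOK.tp_tp {X X' X'' : Mf 4} {l l' l'' : Type} [Fintype l] [Fintype l'] [Fintype l''] {k : Cut X.M l} {o p il K}
    (h : MOK X.I k o p il K) {φ : PartialDiffeomorph X.I X'.I X.M X'.M ∞}
    {ψ : PartialDiffeomorph X'.I X''.I X'.M X''.M ∞} {χ : PartialDiffeomorph X.I X''.I X.M X''.M ∞}
    {v : X.M → CL (Eu l) (Eu l')} {w : X'.M → CL (Eu l') (Eu l'')} {u : X.M → CL (Eu l) (Eu l'')}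
    (a : K ⊆ φ.source) (b : φ '' K ⊆ ψ.source) (c : K ⊆ χ.source) (e : EqOn χ (ψ ∘ φ) K)
    (d : ∀ x ∈ K, u x = w (φ x) ∘L v x) :
    (Tp.of χ.toPartialEquiv u).cut k = (Tp.of ψ.toPartialEquiv w).cut ((Tp.of φ.toPartialEquiv v).cut k) := by
  have key : ∀ {N N' : Type} [NormedAddCommGroup N] [NormedSpace ℝ N] [NormedAddCommGroup N'] [NormedSpace ℝ N']
      {f : X.M → N} {g : X'.M → N}, (∀ x ∉ K, f x = 0) → (∀ y ∉ φ '' K, g y = 0) → (∀ x ∈ K, g (φ x) = f x) →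
      xt χ f = xt ψ g := fun p q r => funext fun z => by
    by_cases t : z ∈ χ '' K
    · obtain ⟨x, t, rfl⟩ := t
      rw [xt_map _ _ (c t), e t, comp_apply, xt_map _ _ (b ⟨x, t, rfl⟩), r x t]
    · rw [xt_zero p t, xt_zero q (by rwa [← image_comp, ← e.image_eq])]
  have k1 : ∀ {f : X.M → ℝ}, Cs X.I K f → xt χ f = xt ψ (xt φ f) := fun s =>
    key (N' := ℝ) s.2 (fun _ => xt_zero s.2) fun _ t => xt_map _ _ (a t)
  simp only [← push_eq, Cut54.push, List.map_map]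
  congr 1
  · exact funext₂ fun θ s => e (h.sub θ s)
  · exact List.map_congr_left fun t m => by
      simp only [comp_apply, k1 (h.sw t m).1, k1 (h.sw t m).2.1, k1 (h.sw t m).2.2]
  · refine List.map_congr_left fun t m => ?_
    have z : ∀ x ∉ K, t.1 x = 0 := (h.se t m).1.2
    simp only [comp_apply, k1 (h.se t m).2.1, k1 (h.se t m).2.2, Prod.mk.injEq, and_true]
    exact key (N' := ℝ) (fun x q => by rw [z x q, map_zero])
      (fun y q => by rw [xt_zero (fun x q => by rw [z x q, map_zero]) q, map_zero])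
      fun x q => by rw [xt_map _ _ (a q), d x q]; rfl

end Crest.Agent.X212.Cut54

namespace Crest.Agent.X212.G75
open An M Cut54
open Line51 (rl iL Uni)

variable {κ lam : Type} [Fintype κ] [Fintype lam] [DecidableEq lam]

/-- the cuts of the model are admissible and lie inside the wall -/
def CutOK (Lm : LM κ lam) : Prop := ∀ s, ∃ K ⊆ (Lm.M.sys.w ()).sd false,
  MOK Lm.X.I (Lm.cut s) Lm.M.o (fun x => rl ((Lm.N s).p x)) (iL lam) K

variable {Lm : LM κ lam}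

namespace Scene
variable (S : Scene Lm)

/-- the cut inside the lens wall `l` -/
def ct (i : S.L) (l : S.ls) : Cut S.X.M (lam ⊕ lam) :=
  (Tp.of (S.I l).ψ.toPartialEquiv fun x => rl ((Lm.N (S.sg l i)).p x)).cut (Lm.cut (S.sg l i))

/-- the inside of the lens wall `l` -/
def nb (l : S.ls) : Set S.X.M := (S.M.sys.w l).sd false

variable {S}

namespace OK
variable (h : S.OK) (l : S.ls)
include h

theorem sd_src (i : S.L) : (Lm.M.sys.w ()).sd false ⊆ (S.I l).ψ.source := fun _ k => (h.ins l i).sub (.inl k)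

theorem mem_nb {x} (k : x ∈ (S.I l).ψ.source) : (S.I l).ψ x ∈ S.nb l ↔ x ∈ (Lm.M.sys.w ()).sd false := by
  rw [nb, ← h.wall l]
  exact (S.I l).sd () false x k

theorem nb_eq (i : S.L) : S.nb l = (S.I l).ψ '' (Lm.M.sys.w ()).sd false :=
  Subset.antisymm (fun _ k => let ⟨x, a, b⟩ := (h.img l).ge (.inl k)
    ⟨x, (h.mem_nb l ((h.ins l i).sub a)).1 (b ▸ k), b⟩)
    (image_subset_iff.2 fun _ k => (h.mem_nb l (h.sd_src l i k)).2 k)

theorem ct_γ (i : S.L) : (S.ct i l).γ = (S.cut l i).γ :=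
  funext₂ fun θ s => ((h.cut l i).γ θ s).symm

theorem ct_fl {l' : S.A} (h' : l' ∈ S.ls) (e : l' ≠ l) (i : S.L) : S.ct (S.fl l' i) l = S.ct i l := by
  rw [ct, ct, h.sg' l' h' l l.2 e]

theorem nb_dj : Pairwise (Disjoint on S.nb) := fun l l' e =>
  (h.lsd l l.2 l' l'.2 (Subtype.ext_iff.not.1 e)).mono subset_union_left subset_union_left

/-- a cut is not crossed if its wall is not -/
theorem unc_of {c : Set S.A} (k : ∀ a ∈ c, a ≠ l → S.M.sys.Cmp a l) : Disjoint (S.nb l) (S.M.sys.cores c) :=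
  disjoint_left.2 fun _ p q => by
    obtain ⟨a, q, r⟩ := mem_iUnion₂.1 q
    by_cases e : a = l
    exacts [r false (e ▸ p), Wall.not_mem_sd _ p (h.lsi l l.2 a e (k a q e) (Wall.core_subset _ r))]

/-- an inner lens wall lies in the region with its inside -/
theorem hf_U {π : Reg S.A} (k : ↑l ∈ S.M.sys.inn π) : hf S.M l false ⊆ S.M.sys.U π := fun _ p a b e =>
  have := S.M.con
  have c := k.2.2 a (Option.ne_none_iff_exists'.2 ⟨b, e⟩)
  Wall.nest c (b := true) (h.lsi l l.2 a (by rintro rfl; cases k.1.symm.trans e) c.symm) (fun _ q => k.2.1 q a b e) p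

theorem bd_eq {π : Reg S.A} (r : S.M.sys.IsReg π) (k : π l = some false) {a b} (e : π a = some b) : a = l :=
  by_contra fun c => let ⟨_, q⟩ := (S.M.sys.w a).ne b
    Wall.not_mem_sd _ (r.adj a b e q l _ k) (h.lsi l l.2 a c (r.cell (Sys.mem_bd_of e) (Sys.mem_bd_of k) c) q.1)

/-- the piece inside a broken lens wall -/
theorem U_eq {π : Reg S.A} (r : S.M.sys.IsReg π) (k : π l = some false) : S.M.sys.U π = S.nb l :=
  Subset.antisymm (fun _ p => p l _ k) fun _ p a b e => by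
    obtain rfl := h.bd_eq l r k e
    exact Option.some.inj (k.symm.trans e) ▸ p

variable (hc : CutOK Lm) (i : S.L)
include hc

theorem ct_mok : ∃ K ⊆ S.nb l, MOK S.X.I (S.ct i l) S.M.o (fun x => rl ((S.N i).p x)) (iL lam) K :=
  let ⟨_, a, b⟩ := hc (S.sg l i)
  have s := a.trans (h.sd_src l i)
  ⟨_, h.nb_eq l i ▸ image_mono a, b.tp _ s (fun x k => (S.I l).ori x (s k))
    ((h.ins l i).uni.mono fun _ k => .inl (a k))⟩

/-- the fields `nb` of `Job.OK` and of `Job.Loc` -/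
theorem nb_ok : IsOpen (S.nb l) ∧ CutIn S.X.I (S.nb l) (S.ct i l) ∧ IsPreconnected (S.nb l) :=
  have := S.M.con
  let ⟨_, a, b⟩ := h.ct_mok l hc i
  ⟨(S.M.sys.w l).op_sd _, b.cutIn a, (S.M.sys.w l).conn _⟩

/-- the field `ct` of `Job.OK` -/
theorem ct_ok {W : World S.M} (Λ : Lns W (S.N i)) (m c : S.M.Cl) {p : Prm S.A} (hp : p.2 ∈ S.M.sys.Par)
    (e : Sys.inf p.2 = c.1) (hd : Disjoint (S.nb l) (S.M.sys.cores c.1)) :
    (cutZ Λ m c (S.ct i l)).OK (Λ.B m c) (Λ.G m c p).F :=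
  let ⟨_, a, b⟩ := h.ct_mok l hc i
  b.ok_lns Λ m c (hd.mono_left a) (e ▸ Mark.mem_O_cOf hp)

end OK
end Scene

namespace Mt
variable {S S' : Scene Lm} {V : Set S.X.M} (m : Mt S S' V) (h : S.OK) (h' : S'.OK) {l : m.A₀} (hl : l ∈ m.ls)
  (k : m.I.f l ∈ S.ls) (k' : m.I.f' l ∈ S'.ls)
include hl

theorem hf_sub : hf S.M (m.I.f l) false ⊆ V :=
  have a := Finset.mem_map_of_mem m.I.f hl
  (m.lin _ (m.lsub a)).1 a

include h h'

theorem nb_img (i : m.L₀) : S'.nb ⟨_, k'⟩ = m.I.ψ '' S.nb ⟨_, k⟩ := by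
  rw [h.nb_eq _ (m.ι i), h'.nb_eq _ (m.ι' i), ← image_comp]
  exact ((m.mod l k k').mono subset_union_left).image_eq

/-- **the cuts are transported** -/
theorem ct_tp (hc : CutOK Lm) (i : m.L₀) : S'.ct (m.ι' i) ⟨_, k'⟩ =
    (Tp.of m.I.ψ.toPartialEquiv fun x => rl (m.w i x)).cut (S.ct (m.ι i) ⟨_, k⟩) := by
  obtain ⟨K, a, b⟩ := hc (S.sg (m.I.f l) (m.ι i))
  have e := (m.hfl l hl i).2.2
  have s : ∀ x ∈ K, (S.I ⟨_, k⟩).ψ x ∈ hf S.M (m.I.f l) false := fun x p => (h.img ⟨_, k⟩).le ⟨x, .inl (a p), rfl⟩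
  rw [Scene.ct, ← e.1]
  refine b.tp_tp (a.trans (h.sd_src _ (m.ι i))) (image_subset_iff.2 fun x p => (m.lid i).sub (m.hf_sub hl (s x p)))
    (a.trans (h'.sd_src _ (m.ι' i))) ((m.mod l k k').mono fun _ p => .inl (a p)) fun x p => ?_
  rw [← Line51.rl_comp, e.2.2 (s x p), ((h.ins ⟨_, k⟩ _).uni.iso x (.inl (a p))).left]

theorem ct_rel (hc : CutOK Lm) (i : m.L₀) :
    (S.ct (m.ι i) ⟨_, k⟩).Rel (S'.ct (m.ι' i) ⟨_, k'⟩) V m.I.ψ fun x => rl (m.w i x) :=
  m.ct_tp h h' hl k k' hc i ▸ (Tp.rel_of _ (m.lid i).sub).cut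
    ((h.nb_ok ⟨_, k⟩ hc _).2.1.sub.trans fun _ p => m.hf_sub hl (.inl p))

end Mt

end Crest.Agent.X212.G75
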