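import Crest.Agent.X212.Line51.Lit
import Crest.Agent.X212.Line51.Cm

/-!
# X212 / Line51, part Ms (helper51): general position for lines

* `dimH_image_le_mf` : smooth images of manifolds have small Hausdorff dimension;
* `exists_small` : a line on a manifold of dimension `< 2 |κ|` is isometric to a line in `ℂ^κ`.
-/

set_option autoImplicit false
set_option linter.unusedSectionVars false

open Set Filter Topology Function Matrix
open scoped ContDiff Manifold ComplexOrder
open Crest.Agent.R208 Crest.Agent.R208.F Crest.Agent.R208.FI Crest.Agent.X212.Dr59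
  Crest.Agent.X212.Pj41

noncomputable section

namespace Crest.Agent.X212.Line51

variable {E : Type*} [NormedAddCommGroup E] [NormedSpace ℝ E] [FiniteDimensional ℝ E]
  {H : Type*} [TopologicalSpace H] {I : ModelWithCorners ℝ E H} [I.Boundaryless]
  {M : Type*} [TopologicalSpace M] [ChartedSpace H M] [IsManifold I ∞ M]
  [SecondCountableTopology M] {ι κ : Type*} [Fintype ι] [Fintype κ]

theorem dimH_image_le_mf {F : Type*} [NormedAddCommGroup F] [NormedSpace ℝ F] {f : M → F}
    {U : Set M} (hf : ∀ x ∈ U, ContMDiffAt I 𝓘(ℝ, F) ∞ f x) :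
    dimH (f '' U) ≤ Module.finrank ℝ E := by
  have : ProperSpace E := FiniteDimensional.proper ℝ E
  obtain ⟨s, -, h2, h3⟩ := TopologicalSpace.countable_cover_nhdsWithin (s := U)
    (f := fun x => U ∩ (extChartAt I x).source)
    fun x _ => inter_mem_nhdsWithin U (extChartAt_source_mem_nhds x)
  refine (dimH_mono (image_mono h3)).trans ?_
  rw [image_iUnion₂, dimH_bUnion h2]
  refine iSup₂_le fun x _ => ?_
  have e : f '' (U ∩ (extChartAt I x).source) =
      (f ∘ (extChartAt I x).symm) '' (extChartAt I x '' (U ∩ (extChartAt I x).source)) := by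
    rw [image_image]
    exact image_congr fun y hy => by rw [Function.comp_apply, (extChartAt I x).left_inv hy.2]
  rw [e]
  refine (dimH_image_le_of_locally_lipschitzOn ?_).trans
    ((dimH_mono (subset_univ _)).trans (Real.dimH_univ_eq_finrank E).le)
  rintro _ ⟨y, hy, rfl⟩
  have hm := (extChartAt I x).map_source hy.2
  have k : ContMDiffAt 𝓘(ℝ, E) 𝓘(ℝ, F) ∞ (f ∘ (extChartAt I x).symm) (extChartAt I x y) :=
    ContMDiffAt.comp _ (by rw [(extChartAt I x).left_inv hy.2]; exact hf y hy.1)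
      ((contMDiffOn_extChartAt_symm x).contMDiffAt ((isOpen_extChartAt_target x).mem_nhds hm))
  obtain ⟨K, t, ht, hK⟩ := (k.contDiffAt.of_le (by simp) : ContDiffAt ℝ 1 _ _).exists_lipschitzOnWith
  exact ⟨K, t, mem_nhdsWithin_of_mem_nhds ht, hK⟩

/-- a generic linear map does not kill any line of the family -/
theorem exists_gen {p : M → Matrix ι ι ℂ} (sp : ∀ x, MSm I p x) (hp : ∀ x, (p x).trace = 1)
    (hd : Module.finrank ℝ E < 2 * Fintype.card κ) : ∃ B : Matrix κ ι ℂ, ∀ x, B * p x ≠ 0 := by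
  classical
  let g : ∀ i : ι, M × (κ → {j // j ≠ i} → ℂ) → κ → ι → ℂ := fun i z a j =>
    if h : j = i then -((p z.1 i i)⁻¹ * ∑ k, z.2 a k * p z.1 k i) else z.2 a ⟨j, h⟩
  have h1 : ∀ i, dimH (g i '' {z | p z.1 i i ≠ 0}) < Module.finrank ℝ (κ → ι → ℂ) := fun i => by
    refine (dimH_image_le_mf (I := I.prod 𝓘(ℝ, κ → {j // j ≠ i} → ℂ)) fun z hz => ?_).trans_lt ?_
    · have c : ∀ a k, FSm (I.prod 𝓘(ℝ, κ → {j // j ≠ i} → ℂ))
          (fun z : M × (κ → {j // j ≠ i} → ℂ) => z.2 a k) z := fun a k =>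
        (contDiff_apply_apply ℝ ℂ a k).contDiffAt.comp_contMDiffAt contMDiffAt_snd
      have q : ∀ a b, FSm (I.prod 𝓘(ℝ, κ → {j // j ≠ i} → ℂ))
          (fun z : M × (κ → {j // j ≠ i} → ℂ) => p z.1 a b) z := fun a b =>
        (sp _ a b).comp z contMDiffAt_fst
      refine contMDiffAt_pi_space.2 fun a => contMDiffAt_pi_space.2 fun j => ?_
      by_cases h : j = i
      · simp only [g, dif_pos h]
        exact (((q i i).inv' hz).mul' (FSm.sum' fun k _ => (c a k).mul' (q k i))).neg
      · simp only [g, dif_neg h]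
        exact c a _
    · have := Fintype.card_pos_iff.2 ⟨i⟩
      simp only [Module.finrank_prod, Module.finrank_pi_fintype, Complex.finrank_real_complex,
        Finset.sum_const, Finset.card_univ, smul_eq_mul, Fintype.card_subtype_compl,
        Fintype.card_unique, Nat.cast_lt]
      obtain ⟨n, hn⟩ := Nat.exists_eq_succ_of_ne_zero this.ne'
      rw [hn]
      simp only [Nat.succ_eq_add_one, Nat.add_sub_cancel]
      nlinarith
  cases isEmpty_or_nonempty ι
  · exact ⟨0, fun x => absurd (hp x) (by simp [Matrix.trace])⟩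
  obtain ⟨B, hB⟩ := (dense_compl_of_dimH_lt_finrank
    (s := ⋃ i, g i '' {z | p z.1 i i ≠ 0}) (by
      rw [dimH_iUnion]
      obtain ⟨i, k⟩ := exists_eq_ciSup_of_finite (f := fun i => dimH (g i '' {z | p z.1 i i ≠ 0}))
      exact k ▸ h1 i)).nonempty
  refine ⟨B, fun x h0 => hB ?_⟩
  obtain ⟨i, hi⟩ : ∃ i, p x i i ≠ 0 := by
    by_contra! k
    exact zero_ne_one ((Finset.sum_eq_zero fun i _ => k i).symm.trans (hp x))
  refine mem_iUnion.2 ⟨i, (x, fun a k => B a k), hi, funext₂ fun a j => ?_⟩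
  by_cases h : j = i
  · have k : ∑ k, B a k * p x k i = 0 := congrFun₂ h0 a i
    rw [Fintype.sum_eq_add_sum_subtype_ne _ i] at k
    simp only [g, dif_pos h]
    rw [h, eq_neg_of_add_eq_zero_right k]
    field_simp
  · simp only [g, dif_neg h]

/-- normalisation of a nowhere vanishing homomorphism -/
theorem exists_nrm {p : M → Matrix ι ι ℂ} {U : Set M} (hp : (⟨p, 0⟩ : Ln E M ι).On I U)
    {b : M → Matrix κ ι ℂ} (sb : ∀ x ∈ U, MSm I b x) (h : ∀ x ∈ U, b x * p x ≠ 0) :
    ∃ (q : M → Matrix κ κ ℂ) (w : M → Matrix κ ι ℂ), Uni I p q w U := by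
  let c : M → ℝ := fun x => (((b x * p x)ᴴ * (b x * p x)).trace).re
  have hc : ∀ x ∈ U, 0 < c x ∧ (c x : ℂ) = ((b x * p x)ᴴ * (b x * p x)).trace := fun x hx => by
    have k := (posSemidef_conjTranspose_mul_self (b x * p x)).trace_nonneg
    have k' := k.lt_of_ne' (mt trace_conjTranspose_mul_self_eq_zero_iff.1 (h x hx))
    exact ⟨(Complex.pos_iff.1 k').1, Complex.ext rfl (by simpa using (Complex.pos_iff.1 k').2)⟩
  let w : M → Matrix κ ι ℂ := fun x => (√(c x))⁻¹ • (b x * p x)
  have sw : ∀ x ∈ U, MSm I w x := fun x hx => by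
    have k := (sb x hx).mul (hp.sm x hx)
    exact MSm.rsmul (FSm.inv' ((Real.contDiffAt_sqrt (hc x hx).1.ne').comp_contMDiffAt
      (k.ct.mul k).trace.re) (Real.sqrt_pos.2 (hc x hx).1).ne') k
  refine ⟨fun x => w x * (w x)ᴴ, w, sw, fun x hx => PIso.of_prj (hp.prj x hx).idem ?_ rfl⟩
  have e : (b x * p x)ᴴ * (b x * p x) = p x * ((b x)ᴴ * b x) * p x := by
    rw [conjTranspose_mul, show (p x)ᴴ = p x from (hp.prj x hx).herm]
    simp only [Matrix.mul_assoc]
  have e' : (b x * p x)ᴴ * (b x * p x) = c x • p x := by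
    have k := rank_one (p := p x) (hp.prj x hx) (hp.tr x hx) ((b x)ᴴ * b x)
    have k2 : (p x * ((b x)ᴴ * b x)).trace = c x := by
      rw [(hc x hx).2, e, trace_mul_comm (_ * _), ← Matrix.mul_assoc (p x) (p x),
        show p x * p x = p x from (hp.prj x hx).idem]
    rw [e, k, k2]
    rfl
  simp only [w, conjTranspose_smul, star_trivial, Matrix.smul_mul, Matrix.mul_smul, e', smul_smul]
  rw [← mul_assoc, ← mul_inv, Real.mul_self_sqrt (hc x hx).1.le, inv_mul_cancel₀ (hc x hx).1.ne',
    one_smul]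

/-- **every line lives in a small space** -/
theorem exists_small {p : M → Matrix ι ι ℂ} (hp : (⟨p, 0⟩ : Ln E M ι).On I univ)
    (hd : Module.finrank ℝ E < 2 * Fintype.card κ) :
    ∃ (q : M → Matrix κ κ ℂ) (w : M → Matrix κ ι ℂ), Uni I p q w univ :=
  let ⟨B, hB⟩ := exists_gen (fun x => hp.sm x trivial) (fun x => hp.tr x trivial) hd
  exists_nrm hp (b := fun _ => B) (fun _ _ => MSm.const _) fun x _ => hB x

end Crest.Agent.X212.Line51
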