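import Crest.Agent.X212.M.Rel
import Crest.Agent.X212.Line51.Ms

/-!
# X212 / Line51, part Exl (helper51): the leaves MS2 and EXL of layer M

* `J1` : jointly smooth families of one-forms;  `exists_lit3` : literal isometries through spare indices;
* `hub`, `lay` : the standard connections;  `ms2 : Ms2Stmt`, `exl : ExlStmt`.
-/

set_option autoImplicit false
set_option linter.unusedSectionVars false

open Set Filter Topology Function Matrix
open scoped ContDiff Manifold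
open Crest.Agent.R208 Crest.Agent.R208.F Crest.Agent.R208.FI Crest.Agent.X212.Dr59
  Crest.Agent.X212.Pj41
open Crest.Agent.X212.Num57 (e1)
open Crest.Agent.X212.Prm93 (JAt)
open Crest.Agent.X212.Met55 (VF VAt)
open Crest.Agent.X212.Cyf70 (IC)

noncomputable section

namespace Crest.Agent.X212.Line51

section gen

variable {E : Type} [NormedAddCommGroup E] [NormedSpace ℝ E] [FiniteDimensional ℝ E]
  {H : Type} [TopologicalSpace H] {I : ModelWithCorners ℝ E H} [I.Boundaryless]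
  {M : Type} [TopologicalSpace M] [ChartedSpace H M] [IsManifold I ∞ M]
  {E' : Type} [NormedAddCommGroup E'] [NormedSpace ℝ E'] [FiniteDimensional ℝ E']
  {H' : Type} [TopologicalSpace H'] {J : ModelWithCorners ℝ E' H'} [J.Boundaryless]
  {N : Type} [TopologicalSpace N] [ChartedSpace H' N] [IsManifold J ∞ N]
  {T : Type} [NormedAddCommGroup T] [NormedSpace ℝ T]
  {κ l m : Type} [Fintype κ] [Fintype l] [Fintype m]

variable (I) in
/-- a jointly smooth family of one-forms -/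
def J1 (a : T → M → Ext E) (t : T) (x : M) : Prop :=
  ∀ e : VF I M, VAt I e x → JAt I (fun s y => e1 (a s y) (e y)) t x

variable {a b : T → M → Ext E} {t : T} {x : M}

theorem J1.congr (h : J1 I a t x) (e : ∀ᶠ z in 𝓝 (t, x), b z.1 z.2 = a z.1 z.2) : J1 I b t x :=
  fun v hv => (h v hv).congr (e.mono fun _ k => by rw [k])

theorem J1.add (h : J1 I a t x) (h' : J1 I b t x) : J1 I (fun s y => a s y + b s y) t x :=
  fun v hv => (ContMDiffAt.add (h v hv) (h' v hv)).congr_of_eventuallyEq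
    (Eventually.of_forall fun _ => Num57.e1_add _ _ _)

theorem J1.sub (h : J1 I a t x) (h' : J1 I b t x) : J1 I (fun s y => a s y - b s y) t x :=
  fun v hv => (ContMDiffAt.sub (h v hv) (h' v hv)).congr_of_eventuallyEq
    (Eventually.of_forall fun _ => Num57.e1_sub _ _ _)

theorem J1.smul {f : T → M → ℝ} (hf : JAt I f t x) (h : J1 I a t x) :
    J1 I (fun s y => f s y • a s y) t x :=
  fun v hv => (FSm.mul' hf (h v hv)).congr_of_eventuallyEq
    (Eventually.of_forall fun _ => Num57.e1_smul _ _ _)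

theorem J1.sum {ι : Type} {s : Finset ι} {a : ι → T → M → Ext E} (h : ∀ i ∈ s, J1 I (a i) t x) :
    J1 I (fun r y => ∑ i ∈ s, a i r y) t x :=
  fun v hv => (FSm.sum' fun i hi => h i hi v hv).congr_of_eventuallyEq
    (Eventually.of_forall fun _ => Num57.e1_sum _ _ _)

theorem j1_fixed {α : M → Ext E} (h : SmAt I α x) (hd : ∀ᶠ y in 𝓝 x, IsDeg 1 (α y)) :
    J1 I (fun _ : T => α) t x := fun _ hv => Prm93.JAt.of_fixed (fsm_e1 h hd hv)

theorem j1_zero (h : ∀ᶠ z in 𝓝 (t, x), a z.1 z.2 = 0) : J1 I a t x :=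
  (j1_fixed (α := 0) cAt_zero (Eventually.of_forall fun _ => IsDeg.zero)).congr h

theorem J1.reparam {T' : Type} [NormedAddCommGroup T'] [NormedSpace ℝ T'] {φ : T' → T} {s : T'}
    (hφ : ContDiffAt ℝ ∞ φ s) (h : J1 I a (φ s) x) : J1 I (fun s => a (φ s)) s x :=
  fun v hv => (h v hv).reparam hφ

theorem J1.pm (Φ : PartialDiffeomorph J I N M ∞) {y : N} (hy : y ∈ Φ.source) (h : J1 I a t (Φ y)) :
    J1 J (fun s => pm J I Φ (a s)) t y := fun v hv => by
  have k := h (Met55.pbv I J Φ.symm v) (Met55.vAt_pbv (Φ.symm.isLocalDiffeomorphAt _ _ _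
    (Φ.map_source hy)) (by rwa [show Φ.symm (Φ y) = y from Φ.left_inv hy]))
  refine (ContMDiffAt.comp (f := fun z : T × N => (z.1, Φ z.2)) (t, y) k (contMDiffAt_fst.prodMk
    ((Φ.contMDiffOn.contMDiffAt (Φ.open_source.mem_nhds hy)).comp _
      contMDiffAt_snd))).congr_of_eventuallyEq ?_
  filter_upwards [(Φ.open_source.preimage continuous_snd).mem_nhds hy] with z hz
  have h1 := Met55.pbv_rel (Φ.symm.isLocalDiffeomorphAt _ _ _ (Φ.map_source hz)) v
  have h2 : Φ.symm (Φ z.2) = z.2 := Φ.left_inv hz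
  have d1 : MDifferentiableAt J I Φ (Φ.symm (Φ z.2)) := by
    rw [h2]; exact (Φ.contMDiffOn.contMDiffAt (Φ.open_source.mem_nhds hz)).mdifferentiableAt ne0
  have h3 := mf_comp d1 ((Φ.symm.contMDiffOn.contMDiffAt
    (Φ.open_target.mem_nhds (Φ.map_source hz))).mdifferentiableAt ne0)
  rw [mf_congr (f := Φ ∘ Φ.symm) (g := id) (eventually_of_mem (Φ.open_target.mem_nhds (Φ.map_source hz))
    fun _ k => Φ.right_inv k), mf_id, h2] at h3
  refine (e1_pb _ _ _).trans (congrArg (e1 (a z.1 (Φ z.2))) ?_)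
  refine Eq.trans ?_ (DFunLike.congr_fun h3 _).symm
  exact congrArg (mf J I Φ z.2) ((congrArg (fun w => (v w : E')) h2.symm).trans h1.symm)

theorem em_em_mul [DecidableEq l] {e : κ → l} (he : Injective e) {u : Matrix l m ℂ}
    (h : ∀ i, i ∉ range e → ∀ j, u i j = 0) : em e * ((em e)ᴴ * u) = u := by
  ext i j
  simp only [em, Matrix.mul_apply, conjTranspose_apply, submatrix_apply, id, one_apply,
    apply_ite star, star_one, star_zero, ite_mul, one_mul, zero_mul, Finset.sum_ite_eq',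
    Finset.mem_univ, if_true]
  by_cases k : i ∈ range e
  · obtain ⟨i, rfl⟩ := k
    rw [Finset.sum_eq_single i (fun c _ k => if_neg fun e => k (he e).symm)
      fun k => absurd (Finset.mem_univ _) k, if_pos rfl]
  · rw [h i k j]
    exact Finset.sum_eq_zero fun c _ => if_neg fun k' => k ⟨c, k'.symm⟩

/-- **literal isometries through spare indices** -/
theorem exists_lit3 [SecondCountableTopology M] {p : M → Matrix m m ℂ}
    (hp : (⟨p, 0⟩ : Ln E M m).On I univ) (hk : Module.finrank ℝ E < 2 * Fintype.card κ) (e : κ ↪ l)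
    {A : Type} {O : A → Set M} (hO : ∀ a, IsOpen (O a)) (hd : Pairwise (Disjoint on O))
    {q : A → M → Matrix l l ℂ} {u : A → M → Matrix l m ℂ} (h : ∀ a, Uni I p (q a) (u a) (O a))
    (he : ∀ a, ∀ x ∈ O a, ∀ j k, q a x (e j) k = 0) {ρ : M → ℝ} (hρ : ∀ x, FSm I ρ x)
    (hs : tsupport ρ ⊆ ⋃ a, O a) :
    ∃ q' w, Uni I p q' w univ ∧ ∀ a, ∀ x ∈ O a, ρ x = 1 → w x = u a x := by
  classical
  obtain ⟨q₀, w₀, h₀⟩ := exists_small hp hk
  let V : Matrix l {i // i ∉ range e} ℂ := em Subtype.val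
  have k : ∀ a, ∀ x ∈ O a, V * (Vᴴ * u a x) = u a x := fun a x hx =>
    em_em_mul Subtype.val_injective fun i hi j => by
      obtain ⟨c, rfl⟩ : i ∈ range e := by_contra fun k => hi ⟨⟨i, k⟩, rfl⟩
      rw [← ((h a).iso x hx).left, Matrix.mul_apply]
      exact Finset.sum_eq_zero fun _ _ => by rw [he a x hx, zero_mul]
  have h1 : ∀ a, Uni I p (fun x => Vᴴ * q a x * V) (fun x => Vᴴ * u a x) (O a) := fun a =>
    ⟨fun x hx => (MSm.const _).mul ((h a).sm x hx), fun x hx =>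
      PIso.of_prj (hp.prj x trivial).idem (by
        rw [conjTranspose_mul, conjTranspose_conjTranspose, Matrix.mul_assoc, k a x hx,
          ((h a).iso x hx).src]) (by
        rw [conjTranspose_mul, conjTranspose_conjTranspose, ← ((h a).iso x hx).tgt]
        simp only [Matrix.mul_assoc])⟩
  have o : (⟨q₀, _⟩ : Ln E M κ).On I univ :=
    Iso.on (L := ⟨p, 0⟩) (L' := ⟨q₀, 0 - th I w₀⟩) isOpen_univ ⟨h₀, fun x _ => add_sub_cancel (th I w₀ x) 0⟩ hp
  obtain ⟨L', w, -, k2, k3, -⟩ := exists_lit_fam o hO hd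
    (fun a => (h₀.symm.mono (subset_univ _)).trans (h1 a)) hρ hs (V₁ := em e) (V₂ := V)
    (em_iso e.injective) (em_iso Subtype.val_injective) (em_orth fun i j k => j.2 ⟨i, k⟩)
  refine ⟨_, _, h₀.trans k2.toUni, fun a x hx h2 => ?_⟩
  show w x * w₀ x = _
  rw [(k3 a x hx h2).1, ← Matrix.mul_assoc V, k a x hx, Matrix.mul_assoc, (h₀.iso x trivial).src,
    ((h a).iso x hx).idem]

end gen

open Crest.Agent.X212.M

theorem ms2 : Ms2Stmt := fun Z _ _ _ hp => exists_small hp (by simp [Z.dim])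

section band

variable {X : Mf 4} (B : Band X)

/-- the inverse of a band -/
def ji : X.M → B.Y.M × ℝ := B.oe.pd.symm

theorem ji_j (q : B.Y.M × ℝ) : ji B (B.j q) = q := B.oe.pd_symm_apply q

theorem mp_j (S : Set ℝ) : Mp (IC B.Y.I) X.I (univ ×ˢ S) (B.slab S) B.j :=
  ⟨fun q _ => B.oe.contMDiff q, mapsTo_image _ _⟩

theorem cm_ji (q : B.Y.M × ℝ) : ContMDiffAt X.I (IC B.Y.I) ∞ (ji B) (B.j q) :=
  B.oe.pd.symm.contMDiffOn.contMDiffAt (B.oe.isOpen_range.mem_nhds ⟨q, rfl⟩)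

theorem mp_ji (S : Set ℝ) : Mp X.I (IC B.Y.I) (B.slab S) (univ ×ˢ S) (ji B) :=
  ⟨by rintro _ ⟨q, -, rfl⟩; exact cm_ji B q, by rintro _ ⟨q, h, rfl⟩; rwa [ji_j]⟩

theorem pm_j_ji (α : B.Y.M × ℝ → Ext (B.Y.E × ℝ)) (q : B.Y.M × ℝ) :
    pm (IC B.Y.I) X.I B.j (pm X.I (IC B.Y.I) (ji B) α) q = α q := by
  rw [pm_comp ((cm_ji B q).mdifferentiableAt ne0) ((B.oe.contMDiff q).mdifferentiableAt ne0)]
  exact pm_of_eventually_id (Eventually.of_forall (ji_j B)) _

/-- the cut-off of a band -/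
def cb (x : X.M) : ℝ := M.chi (B.s x)

theorem cb_j (q : B.Y.M × ℝ) : cb B (B.j q) = M.chi q.2 := by
  rw [cb, B.s_j]
  rcases le_or_gt |q.2| 3 with h | h
  · rw [clp_eq h]
  · rw [chi_eq_zero (s := q.2) (by linarith), chi_eq_zero]
    rcases lt_abs.1 h with h | h
    · exact le_abs.2 (.inl (by linarith [clp_ge h.le]))
    · exact le_abs.2 (.inr (by linarith [clp_le (s := q.2) (by linarith)]))

theorem cb_off {x : X.M} (h : x ∉ B.slab (Icc (-2) 2)) : cb B x = 0 := by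
  by_cases hx : x ∈ range B.j
  · obtain ⟨q, rfl⟩ := hx
    rw [cb_j]
    exact chi_eq_zero (not_lt.1 fun k => h (B.j_mem_slab.2 (abs_le.1 k.le)))
  · exact chi_eq_zero (by linarith [B.three_le_abs_s fun k => hx (B.slab_subset _ k)])

theorem cb_ev {x : X.M} (h : x ∉ B.slab (Icc (-2) 2)) : ∀ᶠ y in 𝓝 x, cb B y = 0 :=
  eventually_of_mem ((B.isCompact_slab isCompact_Icc).isClosed.isOpen_compl.mem_nhds h)
    fun _ => cb_off B

theorem fsm_cb (x : X.M) : FSm X.I (cb B) x :=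
  contDiff_chi.contDiffAt.comp_contMDiffAt (B.contMDiff_s x)

theorem slab23 : B.slab (Icc (-2) 2) ⊆ B.slab (Ioo (-3) 3) :=
  B.slab_mono (Icc_subset_Ioo (by norm_num) (by norm_num))

end band

variable {X : Mf 4} {A κ lam : Type} [Fintype A] [Fintype κ] [Fintype lam] {K : Mark X A κ}
  (N : ML K lam) (b : LBas X univ)

/-- the model connection form of a band -/
def nX (a : A) : X.M → Ext X.E := pm X.I (IC (K.bn a).Y.I) (ji (K.bn a)) (N.nA a)

theorem uni_m (a : A) : Uni X.I N.p (fun x => (N.LY a).p (ji (K.bn a) x).1)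
    (fun x => N.m a (ji (K.bn a) x)) ((K.bn a).slab (Ioo (-3) 3)) := by
  have k := ((N.um a).mono (V := univ ×ˢ Ioo (-3) 3) fun q h => (abs_lt.2 h.2).le).comp
    (mp_ji (K.bn a) _)
  refine ⟨k.sm, ?_⟩
  rintro _ ⟨q, h, rfl⟩
  simpa only [ji_j] using k.iso _ ⟨q, h, rfl⟩

theorem sm_nX (a : A) : Sm X.I ((K.bn a).slab (Ioo (-3) 3)) (nX N a) :=
  Sm.pm (a := N.nA a) (((N.um a).mono fun _ h => (abs_lt.2 h.2).le).sm_th.add
    ((N.okY a).sa.pm ⟨fun _ _ => contMDiffAt_fst, mapsTo_univ _ _⟩)) (mp_ji _ _)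

theorem dg_nX (a : A) : Dg 1 univ (nX N a) :=
  Dg.pm (a := N.nA a) ((dg_th _).add ((N.okY a).dg.pm (mapsTo_univ _ univ))) (mapsTo_univ _ _)

/-- the standard connection form -/
def hub (p : Prm A) (x : X.M) : Ext X.E :=
  b.b p.1 x + ∑ a, (tau (p.2 a) * cb (K.bn a) x) • (nX N a x - b.b p.1 x)

theorem hub_congr {u : ℝ} {t t' : A → ℝ} {x : X.M}
    (h : ∀ a, x ∈ (K.bn a).slab (Icc (-2) 2) → t a = t' a) : hub N b (u, t) x = hub N b (u, t') x := by
  refine congrArg _ (Finset.sum_congr rfl fun a _ => ?_)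
  by_cases k : x ∈ (K.bn a).slab (Icc (-2) 2)
  · rw [show (u, t).2 a = (u, t').2 a from h a k]
  · rw [cb_off _ k, mul_zero, mul_zero]

theorem hub_one {p : Prm A} {a : A} {x : X.M}
    (h : ∀ a', a' ≠ a → p.2 a' = 0 ∨ x ∉ range (K.bn a').j) :
    hub N b p x = b.b p.1 x + (tau (p.2 a) * cb (K.bn a) x) • (nX N a x - b.b p.1 x) := by
  rw [hub, Finset.sum_eq_single a (fun a' _ k => ?_) fun k => absurd (Finset.mem_univ a) k]
  rcases h a' k with e | e
  · rw [e, tau_zero, zero_mul, zero_smul]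
  · rw [cb_off _ fun k => e ((K.bn a').slab_subset _ k), mul_zero, zero_smul]

theorem hub_on (p : Prm A) : Ln.On X.I ⟨N.p, hub N b p⟩ univ := by
  have := K.cpt
  refine ⟨N.ok.sm, N.ok.prj, N.ok.tr, fun x _ => ?_, fun x _ => (b.dg _ x trivial).add ?_⟩
  · have k : SmAt X.I (∑ a, tau (p.2 a) • cb (K.bn a) • (nX N a - b.b p.1)) x :=
      sm_sum (U := {x}) (fun a _ y _ => (smAt_cutoff (fsm_cb _ y)
        ((closure_minimal (support_subset_iff'.2 fun _ => cb_off _)
          ((K.bn a).isCompact_slab isCompact_Icc).isClosed).trans (slab23 _))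
        fun k => (sm_nX N a y k).sub (b.sm _ y trivial)).smul _) x rfl
    refine ((b.sm p.1 x trivial).add k).congr (Eventually.of_forall fun y => ?_)
    simp [hub, mul_smul]
  · have := dg_sum (s := Finset.univ) (fun a _ => ((dg_nX N a).sub (b.dg p.1)).fsmul
      fun y => tau (p.2 a) * cb (K.bn a) y) x trivial
    rwa [Finset.sum_apply] at this

theorem j1_hub (p : Prm A) (x : X.M) : J1 X.I (hub N b) p x := by
  have hb : J1 X.I (fun p : Prm A => b.b p.1) p x :=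
    J1.reparam (a := b.b) contDiffAt_fst (b.js _ x trivial)
  refine hb.add (J1.sum fun a _ => ?_)
  by_cases k : x ∈ (K.bn a).slab (Icc (-2) 2)
  · exact J1.smul (FSm.mul' (Prm93.JAt.of_par (c := fun p : Prm A => tau (p.2 a))
      (contDiff_tau.contDiffAt.comp _ (by fun_prop))) (Prm93.JAt.of_fixed (fsm_cb _ x)))
      ((j1_fixed (sm_nX N a x (slab23 _ k)) (Eventually.of_forall fun y => dg_nX N a y trivial)).sub hb)
  · exact j1_zero ((continuousAt_snd.eventually (cb_ev _ k)).mono fun z e => by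
      rw [e, mul_zero, zero_smul])

theorem par_off {t : A → ℝ} (ht : t ∈ K.sys.Par) {a : A} (h : t a ≠ 0) (q : (K.bn a).Y.M × ℝ) (a' : A)
    (k : a' ≠ a) : t a' = 0 ∨ (K.bn a).j q ∉ range (K.bn a').j :=
  or_iff_not_imp_left.2 fun e k' => disjoint_left.1 (ht.2 e h k) k' ⟨q, rfl⟩

theorem hub_band (u : ℝ) {t : A → ℝ} (ht : t ∈ K.sys.Par) {a : A} (h : t a ≠ 0)
    (q : (K.bn a).Y.M × ℝ) : pm (IC (K.bn a).Y.I) X.I (K.bn a).j (hub N b (u, t)) q =
      (1 - tau (t a) * M.chi q.2) • pm (IC (K.bn a).Y.I) X.I (K.bn a).j (b.b u) q +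
        (tau (t a) * M.chi q.2) • N.nA a q := by
  rw [← pm_j_ji (K.bn a) (N.nA a) q, pm_apply, hub_one N b (par_off ht h q), cb_j, map_add, map_smul,
    map_sub, sub_smul, one_smul, smul_sub]
  exact (add_sub_assoc _ _ _).symm.trans (add_sub_right_comm _ _ _)

open Classical in
/-- the parameter seen from the cell `c` -/
def tc (K : Mark X A κ) (c : Set A) (p : Prm A) : Prm A :=
  (p.1, fun a => if a ∈ c then 1 else if a ∈ K.sys.fr c then p.2 a else 0)

theorem contDiff_tc (c : Set A) : ContDiff ℝ ∞ (tc K c) := by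
  refine contDiff_fst.prodMk (contDiff_pi.2 fun a => ?_)
  split_ifs <;> fun_prop

theorem tc_br {c : Set A} {p : Prm A} (h : p ∈ K.Br c) : tc K c p = p := by
  refine Prod.ext rfl (funext fun a => ?_)
  simp only [tc]
  split_ifs with h1 h2
  · exact (h.2 h1).symm
  · rfl
  · by_contra k
    exact h2 ⟨h1, fun a' h' => h.1.2 (Ne.symm k) (Sys.inf_subset _ (h.2 h')) fun e => h1 (e ▸ h')⟩

theorem tc_off {c : K.Cl} {a : A} (h : a ∈ c.1) (p : Prm A) (q : (K.bn a).Y.M × ℝ) (a' : A)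
    (k : a' ≠ a) : (tc K c.1 p).2 a' = 0 ∨ (K.bn a).j q ∉ range (K.bn a').j := by
  simp only [tc]
  split_ifs with h1 h2
  · exact Or.inr fun e => disjoint_left.1 (c.2 h1 h k) e ⟨q, rfl⟩
  · exact Or.inr fun e => disjoint_left.1 (h2.2 a h) e ⟨q, rfl⟩
  · exact Or.inl rfl

theorem exists_v (hN : N.Spare) (σ : K.Cl) : ∃ q v, Uni X.I N.p q v univ ∧
    ∀ a ∈ σ.1, ∀ z : (K.bn a).Y.M × ℝ, |z.2| ≤ 1 → v ((K.bn a).j z) = N.m a z := by
  classical
  obtain ⟨e, he⟩ := hN
  obtain ⟨q, v, h1, h2⟩ := exists_lit3 N.ok (by simp [X.dim]) e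
    (O := fun a : σ.1 => (K.bn a).slab (Ioo (-3) 3)) (fun a => (K.bn a).isOpen_slab isOpen_Ioo)
    (fun a a' k => (σ.2 a.2 a'.2 (Subtype.coe_ne_coe.2 k)).mono ((K.bn a).slab_subset _)
      ((K.bn a').slab_subset _)) (fun a => uni_m N a) (fun a x _ j k => he a j _ k)
    (ρ := fun x => ∑ a : σ.1, cb (K.bn a) x) (fun x => FSm.sum' fun a _ => fsm_cb _ x)
    ((closure_minimal (t := ⋃ a : σ.1, (K.bn a).slab (Icc (-2) 2)) (support_subset_iff'.2 fun x k =>
      Finset.sum_eq_zero fun a _ => cb_off _ fun k' => k (mem_iUnion.2 ⟨a, k'⟩))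
      (isClosed_iUnion_of_finite fun a => ((K.bn a).isCompact_slab isCompact_Icc).isClosed)).trans
      (iUnion_mono fun a => slab23 _))
  refine ⟨q, v, h1, fun a ha z hz => (h2 ⟨a, ha⟩ _ ((K.bn a).j_mem_slab.2 (abs_lt.1 (by linarith)))
    ?_).trans (by rw [ji_j])⟩
  rw [Finset.sum_eq_single (⟨a, ha⟩ : σ.1) (fun a' _ k => cb_off _ fun k' => ?_)
    fun k => absurd (Finset.mem_univ _) k, cb_j, chi_eq_one hz]
  exact disjoint_left.1 (σ.2 a'.2 ha fun e => k (Subtype.ext e)) ((K.bn a').slab_subset _ k') ⟨z, rfl⟩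

/-- the walls on which the layer `(m, c)` is literal -/
def lc (m c : K.Cl) : K.Cl := ⟨c.1 ∪ m.1 ∩ K.sys.fr c.1, by
  rintro a (h | h) a' (h' | h') k
  exacts [c.2 h h' k, (h'.2.2 a h).symm, h.2.2 a' h', m.2 h.1 h'.1 k]⟩

section caps

variable (C : Caps K) {c : K.Cl} {a : A}

theorem j_mem_src (h : a ∈ c.1) {z : (K.bn a).Y.M × ℝ} (hz : z.2 ≠ 0) :
    (K.bn a).j z ∈ (C.φ c).source := by
  rw [C.src]
  intro k
  obtain ⟨a', h', k⟩ := mem_iUnion₂.1 k
  by_cases e : a' = a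
  · subst e
    exact hz ((K.bn a').j_mem_core.1 k)
  · exact disjoint_left.1 (c.2 h' h e) ((K.sys.w a').core_subset k) ⟨z, rfl⟩

theorem ev_cap (h : a ∈ c.1) (hp : K.pin a) (s : Bool) : ∀ᶠ z in 𝓝 (C.β c a s 0),
    z = C.β c a s 0 ∨ ∃ q : (K.bn a).Y.M × ℝ, q.2 ≠ 0 ∧ |q.2| < 1 ∧ C.φ c ((K.bn a).j q) = z := by
  refine eventually_of_mem (((C.βoe c a h hp s).isOpen_image (Metric.isOpen_ball (ε := 1))).mem_nhds
    ⟨0, Metric.mem_ball_self one_pos, rfl⟩) ?_
  rintro _ ⟨v, hv, rfl⟩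
  by_cases e : v = 0
  · exact Or.inl (by rw [e])
  · have hr := norm_pos_iff.2 e
    obtain ⟨y, hy⟩ := (K.rnd a hp).surj (‖v‖⁻¹ • v) (by rw [norm_smul]; simp [hr.ne'])
    have k : |M.pm s * ‖v‖| = ‖v‖ := by rw [abs_mul, abs_pm, one_mul, abs_norm]
    refine Or.inr ⟨(y, M.pm s * ‖v‖), abs_pos.1 (hr.trans_eq k.symm),
      k.trans_lt (mem_ball_zero_iff.1 hv), ?_⟩
    rw [← C.βφ c a h hp s y _ hr, hy, smul_inv_smul₀ hr.ne']

theorem exists_cap {z : (C.Z c).M} (h : z ∉ (C.φ c).target) :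
    ∃ x : A × Bool, x.1 ∈ c.1 ∧ K.pin x.1 ∧ z = C.β c x.1 x.2 0 := by
  rw [C.tgt] at h
  simp only [mem_ofPred_eq, not_forall, not_not] at h
  obtain ⟨a, h1, h2, s, h3⟩ := h
  exact ⟨(a, s), h1, h2, h3⟩

open Classical in
/-- the projector on a capped manifold -/
def pZ (c : K.Cl) (q : X.M → Matrix lam lam ℂ) (z : (C.Z c).M) : Matrix lam lam ℂ :=
  if h : z ∈ (C.φ c).target then q ((C.φ c).symm z) else
    (N.LY (exists_cap C h).choose.1).p (Classical.arbitrary _)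

open Classical in
/-- a form on a capped manifold -/
def aZ (c : K.Cl) (γ : X.M → Ext X.E) (z : (C.Z c).M) : Ext (C.Z c).E :=
  if z ∈ (C.φ c).target then pm (C.Z c).I X.I (C.φ c).symm γ z else 0

theorem pZ_φ {q : X.M → Matrix lam lam ℂ} {x : X.M} (h : x ∈ (C.φ c).source) :
    pZ N C c q (C.φ c x) = q x := by
  rw [pZ, dif_pos ((C.φ c).map_source h)]
  exact congrArg q ((C.φ c).left_inv h)

theorem aZ_zero {γ : X.M → Ext X.E} {x : X.M} (h : x ∈ (C.φ c).source) (e : γ x = 0) :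
    aZ C c γ (C.φ c x) = 0 := by
  rw [aZ, if_pos ((C.φ c).map_source h), pm_apply, show (C.φ c).symm (C.φ c x) = x from
    (C.φ c).left_inv h, e, map_zero]

theorem pm_aZ {γ : X.M → Ext X.E} {x : X.M} (h : x ∈ (C.φ c).source) :
    pm X.I (C.Z c).I (C.φ c) (aZ C c γ) x = γ x := by
  have h' := (C.φ c).map_source h
  rw [pm_congr_right (b := pm (C.Z c).I X.I (C.φ c).symm γ) (if_pos h'), pm_comp
    (((C.φ c).symm.contMDiffOn.contMDiffAt ((C.φ c).open_target.mem_nhds h')).mdifferentiableAt ne0)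
    (((C.φ c).contMDiffOn.contMDiffAt ((C.φ c).open_source.mem_nhds h)).mdifferentiableAt ne0)]
  exact pm_of_eventually_id (eventually_of_mem ((C.φ c).open_source.mem_nhds h)
    fun _ k => (C.φ c).left_inv k) _

variable {q v : X.M → Matrix lam lam ℂ} (hv : Uni X.I N.p q v univ)
  (hl : ∀ a ∈ c.1, ∀ z : (K.bn a).Y.M × ℝ, |z.2| ≤ 1 → v ((K.bn a).j z) = N.m a z)
include hv hl

theorem cap_p {z : (C.Z c).M} (h : z ∉ (C.φ c).target) : ∀ᶠ y in 𝓝 z, pZ N C c q y = pZ N C c q z := by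
  obtain ⟨h1, h2, h3⟩ := (exists_cap C h).choose_spec
  obtain ⟨p₀, e⟩ := N.cst _ h2
  have k := ev_cap C h1 h2 (exists_cap C h).choose.2
  rw [← h3] at k
  refine k.mono ?_
  rintro _ (rfl | ⟨w, w1, w2, rfl⟩)
  · rfl
  · rw [pZ_φ N C (j_mem_src C h1 w1), pZ, dif_neg h, ← (hv.iso _ trivial).tgt, hl _ h1 w w2.le,
      ((N.um _).iso w (w2.le.trans (by norm_num))).tgt, e]

theorem cap_a {z : (C.Z c).M} (h : z ∉ (C.φ c).target) :
    ∀ᶠ y in 𝓝 z, ∀ p, aZ C c (hub N b (tc K c.1 p) - th X.I v) y = 0 := by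
  obtain ⟨⟨a, s⟩, h1, h2, rfl⟩ := exists_cap C h
  obtain ⟨p₀, e⟩ := N.cst _ h2
  refine (ev_cap C h1 h2 s).mono ?_
  rintro _ (rfl | ⟨w, w1, w2, rfl⟩) p
  · exact if_neg h
  · refine aZ_zero C (j_mem_src C h1 w1) ?_
    have k : v =ᶠ[𝓝 ((K.bn a).j w)] fun x => N.m a (ji (K.bn a) x) := by
      refine eventually_of_mem (((K.bn a).isOpen_slab (isOpen_Ioo (a := -1) (b := 1))).mem_nhds
        ((K.bn a).j_mem_slab.2 (abs_lt.1 w2))) ?_
      rintro _ ⟨w', k, rfl⟩
      exact (hl a h1 w' (abs_lt.2 k.2).le).trans (by simp only [ji_j])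
    rw [Pi.sub_apply, hub_one N b (tc_off h1 p w), cb_j, chi_eq_one w2.le, th_congr k,
      ← pm_th (by rw [ji_j]; exact (N.um a).sm w (w2.le.trans (by norm_num)))
        ((cm_ji _ w).mdifferentiableAt ne0)]
    simp only [tc, if_pos h1, tau_one, one_mul, one_smul, add_sub_cancel, sub_eq_zero]
    exact pm_congr_right (by simp only [ML.nA, e, pm_zero, Pi.zero_apply, add_zero])

omit hl in
theorem iso_v {γ : X.M → Ext X.E} : Iso X.I ⟨N.p, γ⟩ ⟨q, γ - th X.I v⟩ v univ :=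
  ⟨hv, fun _ _ => add_sub_cancel _ _⟩

theorem on_Z (p : Prm A) :
    Ln.On (C.Z c).I ⟨pZ N C c q, aZ C c (hub N b (tc K c.1 p) - th X.I v)⟩ univ := by
  refine Ln.on_of_loc fun z _ => ?_
  by_cases h : z ∈ (C.φ c).target
  · exact ⟨_, h, (((iso_v N hv).on isOpen_univ (hub_on N b _)).pull (f := (C.φ c).symm)
      ⟨fun y k => (C.φ c).symm.contMDiffOn.contMDiffAt ((C.φ c).open_target.mem_nhds k),
        mapsTo_univ _ _⟩).congr (C.φ c).open_target (fun _ k => dif_pos k) fun _ k => if_pos k⟩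
  · have k := (cap_a N b C hv hl h).mono fun y k => k p
    refine ⟨{z}, rfl, ?_, ?_, ?_, ?_, ?_⟩ <;> rintro _ rfl
    · exact (MSm.const _).congr (cap_p N C hv hl h)
    · exact (congrArg Prj (dif_neg h)).mpr ((N.okY _).prj _ trivial)
    · exact (congrArg trace (dif_neg h)).trans ((N.okY _).tr _ trivial)
    · exact cAt_zero.congr k
    · exact (congrArg (IsDeg 1) k.self_of_nhds).mpr IsDeg.zero

theorem j1_Z (p : Prm A) (z : (C.Z c).M) :
    J1 (C.Z c).I (fun p => aZ C c (hub N b (tc K c.1 p) - th X.I v)) p z := by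
  by_cases h : z ∈ (C.φ c).target
  · refine (J1.pm (C.φ c).symm h ((J1.reparam (contDiff_tc (K := K) c.1).contDiffAt (j1_hub N b _ _)).sub
      (j1_fixed (hv.sm_th _ trivial) (Eventually.of_forall fun _ => isDeg_io _)))).congr ?_
    filter_upwards [((C.φ c).open_target.preimage continuous_snd).mem_nhds h] with y k using if_pos k
  · exact j1_zero ((continuousAt_snd.eventually (cap_a N b C hv hl h)).mono fun y k => k y.1)

end caps

/-- **EXL** -/
theorem exl : ExlStmt := by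
  intro X A κ lam _ _ _ K W N b hN
  choose q v h1 h2 using exists_v N hN
  have hl : ∀ m c : K.Cl, ∀ a ∈ c.1, ∀ z : (K.bn a).Y.M × ℝ, |z.2| ≤ 1 →
      v (lc m c) ((K.bn a).j z) = N.m a z := fun m c a h => h2 _ a (Or.inl h)
  refine ⟨{
    a0 := hub N b
    Λ := fun m c => ⟨pZ N W.toCaps c (q (lc m c)),
      fun p => aZ W.toCaps c (hub N b (tc K c.1 p) - th X.I (v (lc m c))),
      on_Z N b _ (h1 _) (hl m c), fun k p z => j1_Z N b _ (h1 _) (hl m c) p z _ ((W.L m c).F0.sm k z)⟩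
    v := fun m c => v (lc m c)
    ok0 := hub_on N b
    loc := fun m c u t t' z h => ?_
    iso := fun m c p hp => ?_
    neck := fun a p hp h => ⟨(N.um a).mono fun z k => le_trans (show |z.2| ≤ 1 from k) (by norm_num),
      fun z k => ?_⟩
    lit := fun m c a z k => h2 (lc m c) a (k.2.imp And.left id) z k.1 },
    fun u t _ x h => ?_, fun u t ht a h z => hub_band N b u ht h z⟩
  · simp only [aZ]
    split_ifs with k
    · refine pm_congr_right (congrArg (· - _) (hub_congr N b fun a ha => ?_))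
      split_ifs with k1 k2
      exacts [rfl, h a k2 ⟨_, ha, (W.φ c).right_inv k⟩, rfl]
    · rfl
  · refine ((iso_v N (h1 _)).mono (subset_univ _)).of_eq (fun _ _ => rfl) (fun _ _ => rfl)
      (fun x k => pZ_φ N _ k) fun x k => (pm_aZ W.toCaps k).trans ?_
    rw [tc_br hp]
  · refine Eq.symm ((hub_band N b p.1 hp (by linarith) z).trans ?_)
    rw [tau_eq_one h, chi_eq_one k]
    simp only [mul_one, sub_self, zero_smul, one_smul, zero_add]
    rfl
  · refine (congrArg _ (Finset.sum_eq_zero fun a _ => ?_)).trans (add_zero _)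
    by_cases k : t a = 0
    · rw [show (u, t).2 a = 0 from k, tau_zero, zero_mul, zero_smul]
    · rw [cb_off _ fun k' => h a k ((K.bn a).slab_subset _ k'), mul_zero, zero_smul]

end Crest.Agent.X212.Line51
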