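import Crest.Agent.X212.Line51.Cm
import Crest.Agent.X212.Line51.Rl
import Crest.Agent.X212.Eqv71.Sec
import Crest.Agent.X212.Wz78.Int

/-!
# X212 / Line51, part An (helper51): lines in the format of `An/Gauge`

`L.base P o : Base M ι (κ ⊕ κ)`, `L.geo F : Geo I M ι (κ ⊕ κ)`; `base_ok`, `geo_ok`, the curvature
`curv_geo`, and `Iso.geq` : a parallel isometry gives the line part of `GEq`.
-/

set_option autoImplicit false
set_option linter.unusedSectionVars false

open Set Filter Topology Function Matrix MeasureTheory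
open scoped ContDiff Manifold
open Crest.Agent.R208 Crest.Agent.R208.F Crest.Agent.X212.Dr59 Crest.Agent.X212.Pj41
open Crest.Agent.X212.Num57 (e1 e2)
open Crest.Agent.X212.Sob92 (dv)
open Crest.Agent.X212.An (Eu CL En Sym Skw trn Base Geo GEq)
open Crest.Agent.X212.Wz78 (curv Frm Con Pr)

noncomputable section

namespace Crest.Agent.X212.Line51

variable {κ κ' : Type} [Fintype κ] [DecidableEq κ] [Fintype κ'] [DecidableEq κ']

section gen

variable {E : Type*} [NormedAddCommGroup E] [NormedSpace ℝ E] [FiniteDimensional ℝ E]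
  {H : Type*} [TopologicalSpace H] {I : ModelWithCorners ℝ E H}
  {M : Type*} [TopologicalSpace M] [ChartedSpace H M] {ι : Type*} [Fintype ι]

/-- the real projector field -/
def Ln.l (L : Ln E M κ) (x : M) : En (κ ⊕ κ) := rl (L.p x)

variable (I) in
/-- the components of the real connection -/
def Ln.A (L : Ln E M κ) (e : ι → (x : M) → TangentSpace I x) (a : ι) (x : M) : En (κ ⊕ κ) :=
  rl (L.cm I x (e a x))

variable {L : Ln E M κ} {K : Ln E M κ'} {U : Set M} {x : M}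
  {e : ι → (x : M) → TangentSpace I x} {P : ι → ι → M → ℝ} {c : ι → ι → ι → M → ℝ}

theorem A_congr {L' : Ln E M κ} (h : L'.p =ᶠ[𝓝 x] L.p) (h' : L'.a x = L.a x) (a : ι) :
    L'.A I e a x = L.A I e a x := by rw [Ln.A, cm_congr h h', Ln.A]

theorem A_shift (b : M → Ext E) (a : ι) :
    (L.shift b).A I e a x = L.A I e a x + e1 (b x) (e a x) • (iL κ * L.l x) := by
  refine (congrArg rl (cm_shift (I := I) b (e a x))).trans ?_
  rw [map_add, map_smul, rl_I_smul]
  rfl

theorem A_triv (α : M → Ext E) (a : ι) : (triv α).A I e a x = e1 (α x) (e a x) • iL Unit :=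
  (congrArg rl (cm_triv (I := I) α (e a x))).trans (map_smul _ _ _)

theorem A_comb (r : ι → ℝ) : ∑ b, r b • L.A I e b x = rl (L.cm I x (∑ b, r b • e b x)) :=
  ((map_sum (rl ∘ₗ L.cm I x) (fun b => r b • (show E from e b x)) _).trans
    (Finset.sum_congr rfl fun _ _ => map_smul _ _ _)).symm

theorem sum_rot {ι' : Type*} [Fintype ι'] {w : ι → E} {w' : ι' → E} {R : ι' → ι → ℝ}
    {Q : ι → ι → ℝ} (k1 : ∀ b, w' b = ∑ a, R b a • w a) (k2 : ∀ a, w a = ∑ b, Q a b • w b)
    (UU : ∀ a a', ∑ b, R b a * R b a' = Q a a') (a : ι) : ∑ b, R b a • w' b = w a := by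
  rw [k2 a]
  simp only [k1, Finset.smul_sum, smul_smul, ← UU, Finset.sum_smul]
  exact Finset.sum_comm

theorem Ln.On.A_par (hU : IsOpen U) (h : L.On I U) (hx : x ∈ U) (a : ι) :
    dv I (e a) L.l x + (L.A I e a x * L.l x - L.l x * L.A I e a x) = 0 := by
  have k := congrArg rl (h.cm_par hU hx (e a x))
  rw [map_add, map_sub, rl_mul, rl_mul, map_zero, ← dv_rl (h.sm x hx)] at k
  exact k

theorem Iso.itw {u : M → Matrix κ' κ ℂ} (hU : IsOpen U) (h : Iso I L K u U) (hL : L.On I U)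
    (hK : K.On I U) (hx : x ∈ U) : Eqv71.Itw I e (L.A I e) (K.A I e) (fun y => rl (u y)) x := by
  intro a
  have k := congrArg rl (h.cm hU hL hK hx (e a x))
  rw [map_sub, map_add, rl_comp, rl_comp, map_zero, ← dv_rl (h.sm x hx), sub_eq_zero] at k
  exact k

variable [I.Boundaryless] [IsManifold I ∞ M]

theorem Ln.On.sm_A (hU : IsOpen U) (h : L.On I U) (hx : x ∈ U) {a : ι}
    (he : ContMDiffAt I I.tangent ∞ (fun y => (⟨y, e a y⟩ : TangentBundle I M)) x) :
    FSm I (L.A I e a) x := fsm_rl (h.msm_cm hU hx he)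

theorem curv_triv (F : Frm I e P c) {α : M → Ext E} (hU : IsOpen U) (h : Sm I U α)
    (h' : Dg 1 U α) (hx : x ∈ U) (a b : ι) :
    curv I e c ((triv α).A I e) a b x = e2 (dM I α x) (e a x) (e b x) • iL Unit := by
  have hd := eventually_of_mem (hU.mem_nhds hx) h'
  have k : ∀ a b, dv I (e a) ((triv α).A I e b) x =
      dv I (e a) (fun y => e1 (α y) (e b y)) x • iL Unit := fun a b => by
    rw [show (triv α).A I e b = fun y => e1 (α y) (e b y) • iL Unit from funext fun _ => A_triv α b,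
      Sob92.dv_smul ((fsm_e1 (h x hx) hd (F.se b x)).mdifferentiableAt ne0)
        mdifferentiableAt_const]
    simp
  rw [e2_dM F (h x hx) hd, curv, k, k]
  simp only [A_triv, smul_mul_smul_comm, smul_smul, sub_smul, Finset.sum_smul,
    mul_comm (e1 (α x) (e b x)), sub_self, add_zero]

/-- **the curvature of the real connection on the line** -/
theorem Ln.On.curv_A (F : Frm I e P c) (hU : IsOpen U) (h : L.On I U) (hx : x ∈ U) (a b : ι) :
    curv I e c (L.A I e) a b x * L.l x = e2 (L.F I x) (e a x) (e b x) • (iL κ * L.l x) := by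
  obtain ⟨V, s, α, h1, h2, h3, h4, h5, h6, h7⟩ := h.exists_pot hU hx
  have k := Eqv71.itw_curv F (eventually_of_mem (h1.mem_nhds h2) fun y hy =>
    h4.itw h1 (on_triv h5 h6) (h.mono h3) hy) (fsm_rl (h4.sm x h2))
    (fun a => (on_triv h5 h6).sm_A h1 h2 (F.se a x)) (fun a => h.sm_A hU hx (F.se a x)) a b
  have hl : L.l x = rl (s x) ∘L rl (s x)ᴴ := by rw [← rl_comp, (h4.iso x h2).tgt, Ln.l]
  rw [curv_triv F h1 h5 h6 h2, ContinuousLinearMap.comp_smul, rl_comp_iL] at k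
  rw [h7 h2, hl, ContinuousLinearMap.mul_def, ContinuousLinearMap.mul_def,
    ← ContinuousLinearMap.comp_assoc, k, ContinuousLinearMap.smul_comp,
    ContinuousLinearMap.comp_assoc]

end gen

variable {E : Type} [NormedAddCommGroup E] [NormedSpace ℝ E] [FiniteDimensional ℝ E]
  [MeasurableSpace E] [BorelSpace E]
  {H : Type} [TopologicalSpace H] {I : ModelWithCorners ℝ E H}
  {M : Type} [TopologicalSpace M] [ChartedSpace H M] [IsManifold I ∞ M]
  [MeasurableSpace M] {ι : Type} [Fintype ι]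
  {E' : Type} [NormedAddCommGroup E'] [NormedSpace ℝ E'] [FiniteDimensional ℝ E']
  [MeasurableSpace E'] [BorelSpace E']
  {H' : Type} [TopologicalSpace H'] {I' : ModelWithCorners ℝ E' H'}
  {M' : Type} [TopologicalSpace M'] [ChartedSpace H' M'] [IsManifold I' ∞ M']
  [MeasurableSpace M'] {ι' : Type} [Fintype ι']

/-- the background with the line `L` -/
def Ln.base (L : Ln E M κ) (P : ι → ι → M → ℝ) (o : ι → ι → ι → ι → M → ℝ) :
    Base M ι (κ ⊕ κ) := ⟨P, o, L.l, iL κ⟩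

/-- the geometry with the connection of `L` -/
def Ln.geo (L : Ln E M κ) (F : An.Fr I M ι) : Geo I M ι (κ ⊕ κ) := ⟨F, L.A I F.e⟩

variable {L : Ln E M κ}

theorem Ln.On.base_ok (h : L.On I univ) {P : ι → ι → M → ℝ} {o : ι → ι → ι → ι → M → ℝ}
    (sP : ∀ a b, An.Sm I (P a b)) (so : ∀ a b c d, An.Sm I (o a b c d))
    (pr : ∀ x, Pr fun a b => P a b x) (rk : ∀ x, ∑ a, P a a x = 4)
    (o12 : ∀ a b c d x, o a b c d x = -o b a c d x) (o23 : ∀ a b c d x, o a b c d x = -o a c b d x)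
    (o34 : ∀ a b c d x, o a b c d x = -o a b d c x)
    (oP : ∀ a b c d x, ∑ k, P a k x * o k b c d x = o a b c d x)
    (onm : ∀ x, ∑ a, ∑ b, ∑ c, ∑ d, o a b c d x ^ 2 = 24) : (L.base P o).OK I where
  sP := sP
  so := so
  sl x := fsm_rl (h.sm x trivial)
  pr := pr
  rk := rk
  o12 := o12
  o23 := o23
  o34 := o34
  oP := oP
  onm := onm
  lsym x := sym_rl (h.prj x trivial).herm
  lidem x := (rl_mul _ _).symm.trans (congrArg rl (h.prj x trivial).idem)
  lrk x := (rl_trace _).trans (by rw [h.tr x trivial]; simp)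
  ilsq := iL_sq
  ilsk := iL_skw
  ill _ := iL_mul _

/-- changing only the line of a background -/
theorem Ln.On.base_ok' (h : L.On I univ) {lam : Type} [Fintype lam] {B : Base M ι lam}
    (hB : B.OK I) : (L.base B.P B.o).OK I :=
  h.base_ok hB.sP hB.so hB.pr hB.rk hB.o12 hB.o23 hB.o34 hB.oP hB.onm

theorem Ln.On.geo_ok [I.Boundaryless] (h : L.On I univ) {F : An.Fr I M ι} (hF : F.IsVol)
    (o : ι → ι → ι → ι → M → ℝ) : (L.geo F).OK (L.base F.P o) where
  P := rfl
  vol := hF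
  con := ⟨fun a x => h.sm_A isOpen_univ trivial (F.sm a x), fun a x =>
    (A_comb _).trans (congrArg (fun v => rl (L.cm I x v)) (F.P_e a x))⟩
  sk _ _ := skw_rl (h.cm_ct isOpen_univ trivial _)
  il _ _ := iL_mul _
  par a _ := h.A_par isOpen_univ trivial a

theorem Ln.On.curv_geo [I.Boundaryless] {U : Set M} (hU : IsOpen U) (h : L.On I U) (F : An.Fr I M ι)
    {x : M} (hx : x ∈ U) (a b : ι) : curv I F.e F.c (L.geo F).a a b x * L.l x =
      e2 (L.F I x) (F.e a x) (F.e b x) • (iL κ * L.l x) := h.curv_A (Wz78.frm F) hU hx a b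

/-- the equation `GEq.par` -/
theorem Iso.geq_par [I.Boundaryless] [I'.Boundaryless] {L' : Ln E' M' κ'} {φ : M → M'} {O : Set M} {O' : Set M'} (hO : IsOpen O)
    (hφ : Mp I I' O O' φ) {u : M → Matrix κ' κ ℂ} (h : Iso I L (L'.pull I I' φ) u O)
    (hL : L.On I O) (hL' : L'.On I' O') {F : An.Fr I M ι} {F' : An.Fr I' M' ι'} {R : ι' → ι → ℝ} {x : M}
    (hx : x ∈ O) (UU : ∀ a a', ∑ b, R b a * R b a' = F.P a a' x)
    (he : ∀ b, mfderiv I I' φ x (∑ a, R b a • F.e a x) = F'.e b (φ x)) (a : ι) :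
    F.D a (fun y => rl (u y)) x + (∑ b, R b a • (L'.geo F').a b (φ x)) ∘L rl (u x) -
      rl (u x) ∘L (L.geo F).a a x = 0 := by
  have k : ∑ b, R b a • F'.e b (φ x) = mf I I' φ x (F.e a x) :=
    sum_rot (E := E') (w := fun a => mf I I' φ x (F.e a x)) (w' := fun b => F'.e b (φ x))
      (fun b => (he b).symm.trans
        ((map_sum _ _ _).trans (Finset.sum_congr rfl fun _ _ => map_smul _ _ _)))
      (fun a => (congrArg (mfderiv I I' φ x) (F.P_e a x)).symm.trans
        ((map_sum _ _ _).trans (Finset.sum_congr rfl fun _ _ => map_smul _ _ _))) UU a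
  have k3 : ∑ b, R b a • (L'.geo F').a b (φ x) = (L'.pull I I' φ).A I F.e a x :=
    (A_comb _).trans ((congrArg (fun v => rl (L'.cm I' (φ x) v)) k).trans (congrArg rl
      (cm_pull (hL'.sm _ (hφ.maps hx)) ((hφ.sm x hx).mdifferentiableAt ne0) _).symm))
  rw [k3, sub_eq_zero]
  exact h.itw hO hL (hL'.pull hφ) hx a

/-- **a parallel isometry gives the line part of `GEq`** -/
theorem Iso.geq [I.Boundaryless] [I'.Boundaryless] {L' : Ln E' M' κ'}
    {φ : OpenPartialHomeomorph M M'} {u : M → Matrix κ' κ ℂ}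
    (h : Iso I L (L'.pull I I' φ) u φ.source) (hL : L.On I φ.source) (hL' : L'.On I' φ.target)
    {F : An.Fr I M ι} {F' : An.Fr I' M' ι'} {o : ι → ι → ι → ι → M → ℝ}
    {o' : ι' → ι' → ι' → ι' → M' → ℝ} {R : M → ι' → ι → ℝ}
    (sm : ContMDiffOn I I' ∞ φ φ.source) (sm' : ContMDiffOn I' I ∞ φ.symm φ.target)
    (sU : ∀ b a, ContMDiffOn I 𝓘(ℝ, ℝ) ∞ (fun x => R x b a) φ.source)
    (UU : ∀ x ∈ φ.source, ∀ a a', ∑ b, R x b a * R x b a' = F.P a a' x)
    (UU' : ∀ x ∈ φ.source, ∀ b b', ∑ a, R x b a * R x b' a = F'.P b b' (φ x))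
    (he : ∀ x ∈ φ.source, ∀ b, mfderiv I I' φ x (∑ a, R x b a • F.e a x) = F'.e b (φ x))
    (hμ : (F.μ.restrict φ.source).map φ = F'.μ.restrict φ.target)
    (ho : ∀ x ∈ φ.source, ∀ b₁ b₂ b₃ b₄, o' b₁ b₂ b₃ b₄ (φ x) = ∑ a₁, ∑ a₂, ∑ a₃, ∑ a₄,
      R x b₁ a₁ * R x b₂ a₂ * R x b₃ a₃ * R x b₄ a₄ * o a₁ a₂ a₃ a₄ x) :
    GEq (L.base F.P o) (L.geo F) (L'.base F'.P o') (L'.geo F') φ R fun x => rl (u x) where
  sm := sm
  sm' := sm'
  sU := sU
  sv x hx := (fsm_rl (h.sm x hx)).contMDiffWithinAt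
  UU := UU
  UU' := UU'
  e := he
  μ := hμ
  o := ho
  vv x hx := by rw [← rl_ct, ← rl_comp, (h.iso x hx).src]; rfl
  vv' x hx := by rw [← rl_ct, ← rl_comp, (h.iso x hx).tgt]; rfl
  il _ _ := rl_comp_iL _
  par x hx a := h.geq_par φ.open_source
    ⟨fun y hy => sm.contMDiffAt (φ.open_source.mem_nhds hy), φ.mapsTo⟩ hL hL' hx (UU x hx)
    (he x hx) a

/-- changing only the lines in an equivalence of backgrounds -/
theorem Iso.geq' [I.Boundaryless] [I'.Boundaryless] {L' : Ln E' M' κ'}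
    {φ : OpenPartialHomeomorph M M'} {u : M → Matrix κ' κ ℂ}
    (h : Iso I L (L'.pull I I' φ) u φ.source) (hL : L.On I φ.source) (hL' : L'.On I' φ.target)
    {lam lam' : Type} [Fintype lam] [Fintype lam'] {B : Base M ι lam} {G : Geo I M ι lam}
    {B' : Base M' ι' lam'} {G' : Geo I' M' ι' lam'} {R : M → ι' → ι → ℝ}
    {v : M → CL (Eu lam) (Eu lam')} (g : GEq B G B' G' φ R v) (hP : G.F.P = B.P)
    (hP' : G'.F.P = B'.P) :
    GEq (L.base G.F.P B.o) (L.geo G.F) (L'.base G'.F.P B'.o) (L'.geo G'.F) φ R fun x => rl (u x) :=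
  h.geq hL hL' g.sm g.sm' g.sU (hP ▸ g.UU) (hP' ▸ g.UU') g.e g.μ g.o

end Crest.Agent.X212.Line51
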