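import Crest.Agent.X212.Line51.Wd

/-!
# X212 / Line51, part Wd2 (helper51): comparison of the lines of two weighted words

* `Gd`, `Ga` : slots that agree; `Vw`, `Vg` : the domain of comparison; `Cp`, `GM`, `exists_cp`;
* `act_ok`, `TwX`, `exists_twx`, `tw_nat` : twists.
-/

set_option autoImplicit false
set_option linter.unusedSectionVars false

open Set Filter Topology Function Matrix
open scoped ContDiff Manifold

noncomputable section

namespace Crest.Agent.X212.Line51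

open Crest.Agent.X212.Glue52 Crest.Agent.X212.Pj41 Crest.Agent.X212.Tau19 Crest.Agent.X212.Wd38
  Crest.Agent.X212.M Crest.Agent.X212.Int54
open Crest.Agent.X212.Rod53 hiding Uni X
open Crest.Agent.X212.Cyl58 (TP TIso IsOE)
open Crest.Agent.X212.Dr59 (Mp)

variable {Γ : Nm} {C : Cx Γ} {Λ : NmL Γ} {w w' : Shp Γ} {n n' : Wt} {x y x' y' a b j d : ℤ} {t : ℝ}
  {L : LCx C Λ} {hw : w.OK} {hw' : w'.OK} {X X' : TP V4} {R : Rz C hw X} {R' : Rz C hw' X'}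
  {κ lam : Type} [Fintype κ] [Fintype lam] {A : Set ℤ} {eL eR : Prop} {z : X.P.M}
  {ψ : PartialDiffeomorph X.mf.I X'.mf.I X.P.M X'.P.M ∞}

/-- rods and orders of the slot `j` agree inside the window -/
def Gd (w w' : Shp Γ) (n n' : Wt) (d x y j : ℤ) : Prop :=
  (j < y → (w'.s (j + d)).r = (w.s j).r ∧ n'.nr (j + d) = n.nr j) ∧
    (x < j → (w'.s (j + d)).l = (w.s j).l ∧ n'.nl (j + d) = n.nl j)

/-- a set of good slots that contains the junctions -/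
structure Ga (w w' : Shp Γ) (n n' : Wt) (d x y : ℤ) (A : Set ℤ) : Prop where
  lt : x < y
  gd : ∀ j ∈ A, Gd w w' n n' d x y j
  jn : ∀ j J, x ≤ j → j ≤ y → w.s j = .jn J → j ∈ A

theorem ga_agr (h : x < y) (g : w.Agr w' d x y) (g' : n.Agr n' d x y) : Ga w w' n n' d x y (Icc x y) :=
  ⟨h, fun j k => ⟨fun e => ⟨(g.mono k.1 e le_rfl).lo, g'.r j k.1 e⟩,
    fun e => ⟨(g.mono le_rfl e k.2).hi, g'.l j e k.2⟩⟩, fun _ _ p q _ => ⟨p, q⟩⟩

/-- the times over a set of slots -/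
def TA (A : Set ℤ) : Set ℝ := {t | ∃ i k : ℤ, t ∈ Ioo (i : ℝ) (k + 1) ∧ ∀ j, i ≤ j → j ≤ k → j ∈ A}

theorem isOpen_TA : IsOpen (TA A) := isOpen_iff_mem_nhds.2 fun _ ⟨i, k, p, q⟩ =>
  mem_of_superset (isOpen_Ioo.mem_nhds p) fun _ r => ⟨i, k, r, q⟩

theorem mem_TA (h : ∀ j, a ≤ j → j ≤ b → j ∈ A) (ht : t ∈ II a b) : t ∈ TA A := ⟨a, b, II_sub _ _ ht, h⟩

theorem mem_TA1 (h : j ∈ A) (ht : t ∈ Ioo (j : ℝ) (j + 1)) : t ∈ TA A :=
  ⟨j, j, ht, fun _ p q => le_antisymm q p ▸ h⟩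

theorem Ga.bw (G : Ga w w' n n' d x y A) (h : a < b) (h1 : x ≤ a) (h2 : b ≤ y) (ht : t ∈ II a b) (ht' : t ∈ TA A) :
    ∃ i k : ℤ, t ∈ Ioo (i : ℝ) (k + 1) ∧ ∀ j, i ≤ j → j ≤ k →
      w.bw a b j = w'.bw (a + d) (b + d) (j + d) ∧ n.bn a b j = n'.bn (a + d) (b + d) (j + d) := by
  obtain ⟨i, k, p, q⟩ := ht'
  refine ⟨max i a, min k b, ?_, fun j u v => ?_⟩
  · push_cast
    exact ⟨max_lt p.1 (II_sub _ _ ht).1, by rw [← min_add_add_right]; exact lt_min p.2 (II_sub _ _ ht).2⟩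
  have g := G.gd j (q j (by omega) (by omega))
  rcases (le_of_max_le_right u).eq_or_lt with rfl | e
  · rw [Shp.bw_le le_rfl, Shp.bw_le le_rfl, bn_le le_rfl, bn_le le_rfl, (g.1 (by omega)).1, (g.1 (by omega)).2]
    exact ⟨rfl, rfl⟩
  · rw [Shp.bw_mid e (by omega), Shp.bw_mid (by omega) (by omega), bn_mid e (by omega), bn_mid (by omega) (by omega),
      (g.2 (by omega)).1, (g.2 (by omega)).2]
    exact ⟨rfl, rfl⟩

/-- the charts of a window -/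
def Ch.In (x y : ℤ) (eL eR : Prop) : Ch w → Prop
  | .B a b _ => x ≤ a ∧ b ≤ y
  | .L => eL
  | .R => eR

variable (L R) in
/-- where the sections of the charts of a window are defined -/
def Dw (x y : ℤ) (eL eR : Prop) : Set X.P.M := {z | ∃ c : Ch w, c.In x y eL eR ∧ X.τ z ∈ c.J ∧ z ∈ c.D L R}

variable (R) in
/-- off the axis -/
def Of : Set X.P.M := {z | ∃ x y, ∃ h : w.Rg x y, X.τ z ∈ II x y ∧ z ∈ Db R h}

variable (R) in
/-- the domain of comparison in a window -/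
def Vw (A : Set ℤ) (x y : ℤ) : Set X.P.M := X.τ ⁻¹' II x y ∩ (Of R ∪ X.τ ⁻¹' TA A)

variable (R) in
/-- the domain of comparison -/
def Vg (A : Set ℤ) (x y : ℤ) (eL eR : Prop) : Set X.P.M :=
  Vw R A x y ∪ {z | eL ∧ X.τ z < w.l + 3 / 4} ∪ {z | eR ∧ w.r + 1 / 4 < X.τ z}

theorem op_Db (h : w.Rg x y) : IsOpen (Db R h) := isOpen_im (k := (R.B h).φ) isOpen_off

theorem isOpen_Of : IsOpen (Of R) := isOpen_iff_mem_nhds.2 fun _ ⟨x, y, h, p, q⟩ =>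
  mem_of_superset ((((isOpen_II x y).preimage X.cont).inter (op_Db h)).mem_nhds ⟨p, q⟩)
    fun _ r => ⟨x, y, h, r⟩

theorem isOpen_Vw : IsOpen (Vw R A x y) :=
  ((isOpen_II x y).preimage X.cont).inter (isOpen_Of.union (isOpen_TA.preimage X.cont))

theorem isOpen_Vg : IsOpen (Vg R A x y eL eR) :=
  (isOpen_Vw.union (isOpen_const.and (isOpen_lt X.cont continuous_const))).union
    (isOpen_const.and (isOpen_lt continuous_const X.cont))

theorem Vw_sub : Vw R A x y ⊆ Vg R A x y eL eR := subset_union_left.trans subset_union_left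

theorem isOpen_Dw : IsOpen (Dw L R x y eL eR) := isOpen_iff_mem_nhds.2 fun _ ⟨c, h, p, q⟩ =>
  mem_of_superset (((c.isOpen_J.preimage X.cont).inter c.isOpen_D).mem_nhds ⟨p, q⟩) fun _ r => ⟨c, h, r⟩

theorem Ch.cl' (c : Ch w) (h : c.In x y eL eR) : X.τ ⁻¹' c.J ⊆ closure (Dw L R x y eL eR) := fun _ hz =>
  closure_mono (fun _ k => Exists.intro c ⟨h, k⟩) ((c.isOpen_J.preimage X.cont).inter_closure ⟨hz, c.cl hz⟩)

theorem ex_one (h1 : w.l ≤ x) (h : x < y) (h2 : y ≤ w.r) (ht : t ∈ II x y) :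
    ∃ j, ∃ _ : w.Rg j (j + 1), x ≤ j ∧ j + 1 ≤ y ∧ t ∈ II j (j + 1) :=
  let ⟨j, p, q, r⟩ := exists_II h ht
  ⟨j, Shp.rg_one (h1.trans p) (q.trans_le h2), p, q, r⟩

theorem cl_II (h1 : w.l ≤ x) (h : x < y) (h2 : y ≤ w.r) : X.τ ⁻¹' II x y ⊆ closure (Dw L R x y eL eR) := fun _ hz =>
  let ⟨_, r, p, q, k⟩ := ex_one h1 h h2 hz
  (Ch.B _ _ r).cl' ⟨p, q⟩ k

theorem cl_Vg (h1 : w.l ≤ x) (h : x < y) (h2 : y ≤ w.r) : Vg R A x y eL eR ⊆ closure (Dw L R x y eL eR) := by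
  rintro z ((k | k) | k)
  exacts [cl_II h1 h h2 k.1, Ch.L.cl' k.1 k.2, Ch.R.cl' k.1 k.2]

theorem dense_Dw : Dense (Dw L R w.l w.r True True) := fun z => by
  obtain ⟨c, h⟩ := Ch.cover hw (X.τ z)
  refine c.cl' ?_ h
  cases c with
  | B _ _ r => exact ⟨r.lo, r.hi⟩
  | _ => trivial

theorem WL.unit (W : WL L R n κ) (h : z ∈ Dw L R x y eL eR) : PIso (W.g z) 1 (W.p z) :=
  let ⟨c, _, p, q⟩ := h; Ch.unit (W.ck c) z p q

theorem WL.unit' (W : WL L R n κ) (h : z ∈ Dw L R x y eL eR) (a : ℤ) : PIso (sg L R n W.g a z) 1 (W.p z) :=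
  piso_smul (W.unit h) _

theorem surj_B (h : w.Rg a b) (hz : X.τ z ∈ II a b) : ∃ p : C.XR w a b, C.tm p ∈ II a b ∧ R.B h p = z :=
  ⟨_, (R.B h).symm.mem hz, (R.B h).apply_symm hz⟩

theorem tm_B (h : w.Rg a b) {p : C.XR w a b} (hp : C.tm p ∈ II a b) : X.τ (R.B h p) = C.tm p := (R.B h).tm p hp

theorem vw_ta (G : Ga w w' n n' d x y A) (h : w.Rg a b) (h1 : x ≤ a) (h2 : b ≤ y) {p : C.XR w a b}
    (hp : C.tm p ∈ II a b) (hz : R.B h p ∈ Vw R A x y) (o : p ∉ off _ _) : C.tm p ∈ TA A := by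
  rcases hz.2 with ⟨a', b', h', u, v⟩ | k
  · obtain ⟨q, hq, e⟩ := surj_B (R := R) h' u
    rw [tm_B h hp] at u
    by_cases c : w.Ov a b a' b'
    · have m := c.hull h h' hp u
      exact (o ((nr_off ((C.T_eq hw m (min_le_left _ _) (lt_max_of_lt_left h.lt)).trans (C.T_eq hw m
        (min_le_right _ _) (lt_max_of_lt_right h'.lt)).symm) (R.nr_of_eq h h' c hp hq e.symm)).1
          ((mem_imT _ hq).1 (e ▸ v)))).elim
    · simp only [Shp.Ov, Shp.rod_iff, not_and_or, not_forall, not_not, exists_prop] at c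
      have := h.lt
      rcases c with ⟨rfl, J, c⟩ | ⟨rfl, J, c⟩
      exacts [mem_TA1 (G.jn _ J (by omega) h2 c) (II_sub _ _ ⟨u.1, hp.2⟩),
        mem_TA1 (G.jn _ J h1 (by omega) c) (II_sub _ _ ⟨hp.1, u.2⟩)]
  · rwa [mem_preimage, tm_B h hp] at k

theorem vw_src (H : Lc R R' d x y ψ) (G : Ga w w' n n' d x y A) : Vw R A x y ⊆ ψ.source := fun z hz => by
  obtain ⟨j, h, p, q, k⟩ := ex_one H.sk.lo' G.lt H.sk.hi' hz.1
  obtain ⟨a, u, rfl⟩ := surj_B (R := R) h k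
  exact H.mem h p q u ((Classical.em _).imp_right fun o =>
    let ⟨_, _, c, c'⟩ := G.bw h.lt p q u (vw_ta G h p q u hz o); (ag_wz hw hw' h (H.sk.rg h p q) c' c).1)

theorem nu_nat (H : Lc R R' d x y ψ) (G : Ga w w' n n' d x y A) (h1 : x < a) (h2 : a < y) (hz : z ∈ ψ.source)
    (hz' : X.τ z ∈ II x y) : L.nu R' n' (a + d) (ψ z) = L.nu R n a z := by
  by_cases k : X.τ z ∈ II a a
  · cases e : w.s a with
    | rod τ => rw [LCx.nu_one (.inl ⟨τ, e⟩), LCx.nu_one (.inl (H.sk.rod h1 h2 ⟨τ, e⟩))]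
    | jn J =>
      have e' := (H.sk.jn a J h1 h2).2 e
      have g := G.gd a (G.jn a J h1.le h2.le e)
      have k1 := H.sk.lo'.trans h1.le
      have k2 := h2.trans_le H.sk.hi'
      obtain ⟨q, hq⟩ := (R.P (τ := Γ.tgt J) k1 k2 (congrArg Sl.r e)).exists_cyl k
      obtain ⟨q, rfl⟩ := (C.g J).surjective q
      rw [LCx.Nu.eq ⟨J, e, k1, k2, q, _, k, hq, rfl⟩, ← (g.1 h2).2, ← (g.2 h1).2]
      exact LCx.Nu.eq ⟨J, e', by linarith [H.sk.lo], by linarith [H.sk.hi], q, _, add_mem_II.2 k,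
        (H.P h1.le h2 _ _ _ _ _ _ _ k).2.symm.trans (congrArg ψ hq), rfl⟩
  · rw [LCx.nu_one (.inr k), LCx.nu_one (.inr (by rwa [H.time hz (.inl hz'), add_mem_II]))]

variable (L R R' n n' ψ) in
/-- the phase at the left end of a window -/
def lm (d x : ℤ) (z : X.P.M) : Circle := L.nu R n x z * (L.nu R' n' (x + d) (ψ z))⁻¹

theorem lm_eq (H : Lc R R' d x y ψ) (G : Ga w w' n n' d x y A) (h : a < b) (h1 : x ≤ a) (h2 : b ≤ y)
    (hz : z ∈ ψ.source) (hz' : X.τ z ∈ II a b) : lm n n' L R R' ψ d x z = lm n n' L R R' ψ d a z := by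
  rcases h1.eq_or_lt with rfl | k
  · rfl
  have u := II_mono h1 h2 hz'
  rw [lm, lm, nu_nat H G k (by omega) hz u, LCx.nu_lt k hz', LCx.nu_lt (x' := a + d) (y' := b + d) (by omega)
    (by rwa [H.time hz (.inl u), add_mem_II]), mul_inv_cancel, mul_inv_cancel]

variable (W : WL L R n κ) (W' : WL L R' n' lam)

/-- `u` matches the sections of the charts of the window -/
structure Cp (ψ : X.P.M → X'.P.M) (d x y : ℤ) (V : Set X.P.M) (u : X.P.M → Matrix lam κ ℂ) : Prop where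
  uni : Uni X.P.I W.p (fun z => W'.p (ψ z)) u V
  mt : ∀ {a b} (h : w.Rg a b), x ≤ a → b ≤ y → ∀ z ∈ V, X.τ z ∈ II a b → z ∈ Db R h →
    u z * sg L R n W.g a z = sg L R' n' W'.g (a + d) (ψ z)

/-- `u` matches the global sections up to the phase `c` -/
abbrev GM (ψ : X.P.M → X'.P.M) (D : Set X.P.M) (c : X.P.M → Circle) (V : Set X.P.M)
    (u : X.P.M → Matrix lam κ ℂ) : Prop :=
  Mt X.P.I D W.p W.g (fun z => W'.p (ψ z)) (fun z => (c z : ℂ) • W'.g (ψ z)) u V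

variable (R R' n n' eL eR) in
/-- the caps are matched -/
structure Cs (ψ : X.P.M → X'.P.M) : Prop where
  l : eL → n'.mL = n.mL ∧ ∀ p, (C.cap w.l).τ p < w.l + 3 / 4 →
    (C.cap w'.l).τ p < w'.l + 3 / 4 ∧ ψ (R.kL p) = R'.kL p
  r : eR → n'.mR = n.mR ∧ ∀ p, w.r + 1 / 4 < (C.cap w.r).τ p →
    w'.r + 1 / 4 < (C.cap w'.r).τ p ∧ ψ (R.kR p) = R'.kR p

variable {W W'} {V V' O D : Set X.P.M} {u u' : X.P.M → Matrix lam κ ℂ} {φ : X.P.M → X'.P.M}

theorem cs_cm (H : Hc w w' d x y eL eR) (c : Cm R R' d x y eL eR ψ) (hL : eL → n'.mL = n.mL)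
    (hR : eR → n'.mR = n.mR) : Cs n n' R R' eL eR ψ :=
  ⟨fun e => ⟨hL e, fun _ k => ⟨H.capL e k, (c.rl _ (c.sL e _ (R.kL.mem k))).uq H (.kL e k)⟩⟩,
    fun e => ⟨hR e, fun _ k => ⟨H.capR e k, (c.rl _ (c.sR e _ (R.kR.mem k))).uq H (.kR e k)⟩⟩⟩

theorem Cp.mono (h : Cp W W' φ d x y V u) (hV : V' ⊆ V) (h1 : x ≤ x') (h2 : y' ≤ y) : Cp W W' φ d x' y' V' u :=
  ⟨h.uni.mono hV, fun r p q z k => h.mt r (h1.trans p) (q.trans h2) z (hV k)⟩

/-- comparisons are unique -/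
theorem Cp.unique (h : Cp W W' φ d x y V u) (h' : Cp W W' φ d x y V' u') (h1 : w.l ≤ x) (h0 : x < y) (h2 : y ≤ w.r)
    (hO : IsOpen O) (s : O ⊆ X.τ ⁻¹' II x y) (v : O ⊆ V) (v' : O ⊆ V') : EqOn u u' O :=
  (h.uni.mono v).ext_sec hO (s.trans (cl_II (L := L) (R := R) (eL := False) (eR := False) h1 h0 h2)) (h'.uni.mono v')
    fun z k e => by
      obtain ⟨_ | _ | _, p, q, r⟩ := id e
      exacts [⟨_, W.unit' e _, (h.mt _ p.1 p.2 z (v k) q r).trans (h'.mt _ p.1 p.2 z (v' k) q r).symm⟩,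
        p.elim, p.elim]

theorem key_cc' {m j' : ℤ} {J J' : Set ℝ} {k : TIso (C.cap j) X J} {k' : TIso (C.cap j') X' J'} {p g q g'}
    (H : CC (lam := κ) L m p g k) (H' : CC (lam := lam) L m q g' k')
    (e : ∀ a, (C.cap j).τ a ∈ J → (C.cap j').τ a ∈ J' ∧ φ (k a) = k' a) :
    ∃ u, Mt X.P.I (im k.φ L.S0.D) p g (fun z => q (φ z)) (fun z => g' (φ z)) u (X.τ ⁻¹' J) :=
  let ⟨_, H⟩ := H
  let ⟨_, H'⟩ := H'
  ⟨_, mt_T k (((((H.symm fun a _ c => L.ok0.fr.iso a c).trans (H'.mono (fun a c => (e a c).1)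
    inter_subset_right)).smul fun a => (L.μ m a)⁻¹).congr_p (fun _ _ => rfl) fun a c => congrArg q (e a c).2).congr
    fun a c _ => ⟨(inv_csmul _ _).symm, (congrArg g' (e a c).2).trans (inv_csmul _ _).symm⟩) subset_rfl
    fun _ b _ => ⟨b, (mem_imT _ b).1⟩⟩

theorem nu_L (h : w.l ≤ x) (hz : X.τ z < w.l + 3 / 4) : L.nu R n x z = 1 :=
  LCx.nu_one (h.eq_or_lt.imp (fun e => ⟨_, e ▸ hw.sl⟩) fun e k => (II_le k (x' := x) ⟨k.1, hz⟩).not_gt e)

theorem nu_R (h : x < w.r) (hz : w.r + 1 / 4 < X.τ z) : L.nu R n x z = 1 :=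
  LCx.nu_one (.inr fun k => (II_le (y := x) ⟨hz, k.2⟩ k).not_gt h)

theorem GM.cp (H : Lc R R' d x y ψ) (G : Ga w w' n n' d x y A) (hV : V ⊆ ψ.source)
    (h : GM W W' ψ (Dw L R x y eL eR) (lm n n' L R R' ψ d x) V u) : Cp W W' ψ d x y V u :=
  ⟨h.toUni, fun r p q z k e o => by
    rw [sg, Matrix.mul_smul, h.eq z k ⟨.B _ _ r, ⟨p, q⟩, e, o⟩, lm_eq H G r.lt p q (hV k) e, csmul_smul, lm,
      inv_mul_cancel_left, sg]⟩

variable (W W') in
/-- **existence of the comparison** -/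
theorem exists_gm (H : Lc R R' d x y ψ) (G : Ga w w' n n' d x y A) (K : Cs n n' R R' eL eR ψ) :
    ∃ u, GM W W' ψ (Dw L R x y eL eR) (lm n n' L R R' ψ d x) (Vg R A x y eL eR) u := by
  have lt := G.lt
  obtain ⟨u, k1, k2⟩ := exists_mt_glue (I := X.P.I) (ι := {c : Ch w // c.In x y eL eR})
    (U := fun c => X.τ ⁻¹' c.1.J ∩ (Vw R A x y ∪ {_z | ∀ a b h, c.1 ≠ .B a b h})) (D := fun c => c.1.D L R) (p := W.p)
    (q := fun z => W'.p (ψ z)) (s := fun _ => W.g) (s' := fun _ z => (lm n n' L R R' ψ d x z : ℂ) • W'.g (ψ z))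
    (fun c => (c.1.isOpen_J.preimage X.cont).inter (isOpen_Vw.union isOpen_const)) (fun c => c.1.isOpen_D)
    (fun c => inter_subset_left.trans c.1.cl) (fun c z a => Ch.unit (W.ck c) z a.1) (by
      rintro ⟨⟨a, b, h⟩ | _ | _, i⟩
      · have s : X.τ ⁻¹' II a b ∩ (Vw R A x y ∪ {_z | ∀ a' b' h', Ch.B a b h ≠ .B a' b' h'}) ⊆ Vw R A x y :=
          fun _ k => k.2.resolve_right fun e => e _ _ _ rfl
        obtain ⟨u, k⟩ := mt_B (d := d) (ψ := ψ) h (H.sk.rg h i.1 i.2) (H.T h i.1 i.2 rfl)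
          (((isOpen_II a b).preimage X.cont).inter (isOpen_Vw.union isOpen_const)) inter_subset_left
          (fun p e o => let ⟨q, c, c'⟩ := H.ex h _ i.1 i.2 e (vw_src H G (s o)); ⟨q, c, (mem_II_nr c).2 e, c'⟩)
          (fun p e o f => G.bw h.lt i.1 i.2 e (vw_ta G h i.1 i.2 e (s o) f)) (W.tl h) (W'.tl _)
        exact ⟨u, (k.smul (L.nu R n a)).congr fun z c _ => ⟨(csmul_inv _ _).symm, by
          rw [lm_eq H G h.lt i.1 i.2 (vw_src H G (s c)) c.1, sg, csmul_smul, lm]⟩⟩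
      · obtain ⟨u, k⟩ := key_cc' (φ := ψ) (k' := R'.kL) W.cL ((K.l i).1 ▸ W'.cL) (K.l i).2
        refine ⟨u, (k.mono inter_subset_left inter_subset_right).congr fun z c _ => ⟨rfl, ?_⟩⟩
        obtain ⟨p, e, rfl⟩ := R.kL.surj c.1
        have e' := (K.l i).2 p (e ▸ c.1)
        rw [lm, nu_L H.sk.lo' c.1, nu_L H.sk.lo (e'.2 ▸ R'.kL.mem e'.1), mul_inv_cancel, Circle.coe_one, one_smul]
      · obtain ⟨u, k⟩ := key_cc' (φ := ψ) (k' := R'.kR) W.cR ((K.r i).1 ▸ W'.cR) (K.r i).2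
        refine ⟨u, (k.mono inter_subset_left inter_subset_right).congr fun z c _ => ⟨rfl, ?_⟩⟩
        obtain ⟨p, e, rfl⟩ := R.kR.surj c.1
        have e' := (K.r i).2 p (e ▸ c.1)
        rw [lm, nu_R (lt.trans_le H.sk.hi') c.1, nu_R (by linarith [H.sk.hi]) (e'.2 ▸ R'.kR.mem e'.1),
          mul_inv_cancel, Circle.coe_one, one_smul])
    fun _ _ _ _ _ => ⟨1, (Matrix.mul_one _).symm, (Matrix.mul_one _).symm⟩
  refine ⟨u, k1.mono ?_, fun z _ ⟨c, i, p, q⟩ => (k2 ⟨c, i⟩).eq z ⟨p, ?_⟩ q⟩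
  · rintro z ((k | k) | k)
    · obtain ⟨j, h, p, q, e⟩ := ex_one H.sk.lo' lt H.sk.hi' k.1
      exact mem_iUnion.2 ⟨⟨.B _ _ h, p, q⟩, e, .inl k⟩
    · exact mem_iUnion.2 ⟨⟨.L, k.1⟩, k.2, .inr fun _ _ _ => nofun⟩
    · exact mem_iUnion.2 ⟨⟨.R, k.1⟩, k.2, .inr fun _ _ _ => nofun⟩
  · cases c with
    | B a b h => exact .inl ⟨II_mono i.1 i.2 p, .inl ⟨a, b, h, p, q⟩⟩
    | _ => exact .inr fun _ _ _ => nofun

variable (W W') in
theorem exists_cp (H : Lc R R' d x y ψ) (G : Ga w w' n n' d x y A) : ∃ u, Cp W W' ψ d x y (Vw R A x y) u :=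
  let ⟨u, k⟩ := exists_gm (eL := False) (eR := False) W W' H G ⟨False.elim, False.elim⟩
  ⟨u, GM.cp H G (vw_src H G) (k.mono Vw_sub inter_subset_right)⟩

/-- uniqueness for lines that are literally equal on `O` -/
theorem GM.unique {n₁ n₁' : Wt} {W₁ : WL L R n₁ κ} {W₁' : WL L R' n₁' lam} {c c₁ : X.P.M → Circle}
    (h : GM W W' φ D c V u) (h₁ : GM W₁ W₁' φ D c₁ V' u') (hD : D ⊆ Dw L R x y eL eR) (hO : IsOpen O)
    (cl : O ⊆ closure D) (v : O ⊆ V) (v' : O ⊆ V')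
    (e : ∀ z ∈ O, W₁.p z = W.p z ∧ W₁.g z = W.g z ∧ W₁'.g (φ z) = W'.g (φ z) ∧ c₁ z = c z) : EqOn u u' O :=
  (h.toUni.mono v).ext_sec hO cl ((h₁.toUni.mono v').congr_p (fun z k => (e z k).1.symm) fun _ _ => rfl)
    fun z k o => ⟨_, W.unit (hD o), by
      rw [h.eq z (v k) o, ← (e z k).2.1, h₁.eq z (v' k) o, (e z k).2.2.1, (e z k).2.2.2]⟩

/-- the identity -/
abbrev idp (X : TP V4) : PartialDiffeomorph X.mf.I X.mf.I X.P.M X.P.M ∞ :=
  (Diffeomorph.refl X.mf.I X.mf.M ∞).toPartialDiffeomorph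

theorem lc_refl (h1 : w.l ≤ x) (h2 : y ≤ w.r) : Lc R R 0 x y (idp X) := by
  refine ⟨⟨by omega, by omega, h1, h2, fun _ _ _ => by rw [add_zero], fun _ _ _ _ => by rw [add_zero]⟩,
    ⟨id, strictMono_id, fun _ _ => by simp, fun _ _ => rfl⟩, fun {a b} h h' _ _ p k _ => ?_, fun _ _ _ _ _ _ => trivial⟩
  revert h'
  rw [add_zero, add_zero]
  exact fun _ => ⟨p, (NR.refl p).cast Int.cast_zero.symm, rfl⟩

theorem cs_refl (hL : n'.mL = n.mL) (hR : n'.mR = n.mR) : Cs n n' R R eL eR (idp X) :=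
  ⟨fun _ => ⟨hL, fun _ k => ⟨k, rfl⟩⟩, fun _ => ⟨hR, fun _ k => ⟨k, rfl⟩⟩⟩

theorem lm_one (h : ∃ τ, w.s x = .rod τ) (h' : ∃ τ, w'.s (x + d) = .rod τ) : lm n n' L R R' ψ d x z = 1 := by
  rw [lm, LCx.nu_one (.inl h), LCx.nu_one (.inl h'), mul_inv_cancel]

/-! ### twists -/

variable {τ : Tw} {v α : Z2}

theorem sg_sq (v α : Z2) : Tw.sg v α * Tw.sg v α = 1 := by unfold Tw.sg; split_ifs <;> rfl

theorem dot_sg (h : PM v α) (η : Z2) : dot η v = Tw.sg v α * dot η α := by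
  unfold Tw.sg
  split_ifs with e
  · rw [e, one_mul]
  · rw [h.resolve_left e, dot_neg', neg_one_mul]

theorem dot_of_sg (h : PM v α) {η : Z2} {i : ℤ} (e : dot η α = Tw.sg v α * i) : dot η v = i := by
  rw [dot_sg h, e, ← mul_assoc, sg_sq, one_mul]

theorem sg_neg (h : PM v α) {β : Z2} (hu : Rod53.Uni α β) : Tw.sg (-v) α = -Tw.sg v α := by
  have := dot_neg' (dual α β 1 0) v
  rwa [dot_sg h, dot_sg (h.symm.trans (.inr (neg_neg v).symm)).symm, dual_left hu, mul_one, mul_one] at this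

/-- the order on the left of the sphere -/
def tI (τ : Tw) (w : Shp Γ) (n : Wt) : ℤ := Tw.sg (w.lf τ.x) τ.a * n.nr (τ.x - 1)

/-- the order along the sphere -/
def tH (τ : Tw) (w : Shp Γ) (n : Wt) : ℤ := Tw.sg (w.rt τ.x) τ.b * n.nl τ.x

/-- the order on the right of the sphere -/
def tJ (τ : Tw) (w : Shp Γ) (n : Wt) : ℤ := Tw.sg (w.rt (τ.y + 1)) (-τ.a + (τ.n : ℤ) • τ.b) * n.nl (τ.y + 1)

theorem act_out (h : j < τ.x ∨ τ.y < j) : (τ.act w n).nl j = n.nl j ∧ (τ.act w n).nr j = n.nr j :=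
  ⟨if_neg (by omega), if_neg (by omega)⟩

theorem act_in (h : τ.x ≤ j) (h' : j ≤ τ.y) :
    (τ.act w n).nl j = Tw.sg (w.rt j) τ.b * (τ.e * (tI τ w n + tJ τ w n)) - n.nl j ∧
      (τ.act w n).nr j = Tw.sg (w.rt j) τ.b * (τ.e * (tI τ w n + tJ τ w n)) - n.nr j :=
  ⟨if_pos ⟨h, h'⟩, if_pos ⟨h, h'⟩⟩

theorem uni_ba (h : τ.OK w) : Rod53.Uni τ.b (-τ.a + (τ.n : ℤ) • τ.b) := by
  rw [Rod53.Uni, dt_add_smul, dt_self, mul_zero, add_zero]
  exact h.uni.symm.neg_right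

theorem lf_rt (h : τ.OK w) (h1 : τ.x < j) (h2 : j ≤ τ.y + 1) : w.lf j = w.rt (j - 1) :=
  congrArg Prod.snd (h.rg.lr (by omega) (by omega)).symm

theorem act_ok (hn : n.OK w Λ) (h : τ.OK w) : (τ.act w n).OK w Λ := by
  have := h.rg.lo; have := h.rg.hi; have := h.le
  have key : ∀ j, PM (w.lf j) (w.rt j) → (j < τ.x ∨ τ.y + 1 < j) ∨ (τ.x < j ∧ j ≤ τ.y) := fun j p => by
    rcases eq_or_ne j τ.x with rfl | e
    · exact absurd p ((h.m _ le_rfl h.le).uni (h.l.uni h.uni).symm).symm.not_pm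
    rcases eq_or_ne j (τ.y + 1) with rfl | e'
    · rw [lf_rt h (by omega) le_rfl] at p
      exact absurd p (h.r.uni ((h.m _ (by omega) (by omega)).uni (uni_ba h)).symm).symm.not_pm
    omega
  refine ⟨(act_out (by omega)).2.trans hn.sl, (act_out (by omega)).1.trans hn.sr, fun j σ p q e => ?_,
    fun j J p q e => ?_, fun j p q e => ?_, fun j p q e => ?_⟩
  · by_cases k : τ.x ≤ j ∧ j ≤ τ.y
    · rw [(act_in k.1 k.2).1, (act_in k.1 k.2).2, hn.rod j σ p q e]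
    · rw [(act_out (by omega)).1, (act_out (by omega)).2, hn.rod j σ p q e]
  · have k : j < τ.x ∨ τ.y < j := by_contra fun k => Shp.rod_iff.1 (h.rg.fr j (by omega) (by omega)) J e
    rw [(act_out k).1, (act_out k).2]
    exact hn.jn j J p q e
  · rcases key j (.inl e) with k | k
    · rw [(act_out (by omega)).1, (act_out (by omega)).2, hn.eq j p q e]
    · rw [(act_in k.1.le k.2).1, (act_in (by omega) (by omega)).2, hn.eq j p q e, ← lf_rt h k.1 (by omega), e]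
  · rcases key j (.inr e) with k | k
    · rw [(act_out (by omega)).1, (act_out (by omega)).2, hn.neg j p q e]
    · rw [(act_in k.1.le k.2).1, (act_in (by omega) (by omega)).2, hn.neg j p q e, ← lf_rt h k.1 (by omega), e,
        sg_neg (h.m j k.1.le k.2) h.uni.symm]
      ring

theorem tH_eq (hn : n.OK w Λ) (h : τ.OK w) (h1 : τ.x ≤ j) (h2 : j ≤ τ.y) :
    tH τ w n = Tw.sg (w.rt j) τ.b * n.nl j := by
  have := h.rg.lo; have := h.rg.hi
  induction j, h1 using Int.leInduction with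
  | base => rfl
  | succ j k ih =>
    obtain ⟨σ, e⟩ := h.rg.fr j (by omega) (by omega)
    have e1 := lf_rt h (j := j + 1) (by omega) (by omega)
    have e2 := hn.eq (j + 1) (by omega) (by omega)
    have e3 := hn.neg (j + 1) (by omega) (by omega)
    rw [e1, add_sub_cancel_right] at e2 e3
    rw [ih (by omega), hn.rod j σ (by omega) (by omega) e]
    rcases (h.m j k (by omega)).trans (h.m (j + 1) (by omega) h2).symm with p | p
    · rw [e2 p, p]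
    · rw [e3 p, p, sg_neg (h.m _ (by omega) h2) h.uni.symm, neg_mul_neg]

theorem wts (hw : w.OK) (hn : n.OK w Λ) (h : τ.OK w) : Wts (w.v (τ.x - 1) (τ.y + 1)) (wz w n (τ.x - 1) (τ.y + 1))
    τ.a τ.b (-τ.a + (τ.n : ℤ) • τ.b) (cc (τ.x - 1) (τ.y + 1)) √(τ.y - τ.x + 1) ((τ.y - τ.x + 1) / 2 + 3 / 4)
    (tI τ w n) (tH τ w n) (tJ τ w n) := by
  have le := h.le
  have le' : (τ.x : ℝ) ≤ τ.y := by exact_mod_cast le
  have e : √((τ.y : ℝ) - τ.x + 1) ^ 2 = τ.y - τ.x + 1 := Real.sq_sqrt (by linarith)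
  have m : ∀ η, dot η τ.b = tH τ w n → ∀ k, τ.x ≤ k → k ≤ τ.y →
      dot η (w.bz (τ.x - 1) (τ.y + 1) k) = n.bn (τ.x - 1) (τ.y + 1) k := fun η p k a b => by
    rw [h.rg.bz_eq hw, Shp.bw_mid (by omega) (by omega), bn_mid (by omega) (by omega)]
    exact dot_of_sg (h.m k a b) (p.trans (tH_eq hn h a b))
  refine ⟨⟨_, dual_left h.uni _ _, dual_right h.uni _ _, fun t ht => rep_wd (i := τ.x - 1) (j := τ.y)
    (fun k a b => ?_) ?_⟩, _, dual_left (uni_ba h) _ _, dual_right (uni_ba h) _ _,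
    fun t ht => rep_wd (i := τ.x) (j := τ.y + 1) (fun k a b => ?_) ?_⟩
  · rcases a.eq_or_lt with rfl | a
    · rw [h.rg.bz_eq hw, Shp.bw_le le_rfl, bn_le le_rfl]
      exact dot_of_sg h.l (dual_left h.uni _ _)
    · exact m _ (dual_right h.uni _ _) k (by omega) b
  · rw [e, cc] at ht
    push_cast at ht ⊢
    exact ⟨by linarith [ht.1], by linarith [ht.2]⟩
  · rcases b.eq_or_lt with rfl | b
    · rw [h.rg.bz_eq hw, Shp.bw_ge h.rg.lt le_rfl, bn_ge h.rg.lt le_rfl]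
      exact dot_of_sg h.r (dual_right (uni_ba h) _ _)
    · exact m _ (dual_left (uni_ba h) _ _) k a (by omega)
  · rw [e, cc] at ht
    push_cast at ht ⊢
    exact ⟨by linarith [ht.1], by linarith [ht.2]⟩

theorem nu_congr (h : n'.nl j = n.nl j) (h' : n'.nr j = n.nr j) : L.nu R n' j = L.nu R n j := by
  have : L.Nu R n' j = L.Nu R n j := by unfold LCx.Nu; rw [h, h']
  unfold LCx.nu
  rw [this]

theorem nu_act (h : τ.OK w) (j : ℤ) : L.nu R (τ.act w n) j = L.nu R n j := by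
  by_cases k : j < τ.x ∨ τ.y < j
  · exact nu_congr (act_out k).1 (act_out k).2
  · funext z
    rw [LCx.nu_one (.inl (h.rg.fr j (by omega) (by omega))), LCx.nu_one (.inl (h.rg.fr j (by omega) (by omega)))]

/-- `U` is the canonical isometry over the twist -/
structure TwX (h : τ.OK w) (W : WL L R n κ) (W' : WL L R (τ.act w n) lam) (U : X.P.M → Matrix κ lam ℂ) : Prop where
  uni : Uni X.P.I W'.p (fun z => W.p (R.tw τ z)) U univ
  tw : TwR (h.sph hw) h.ne (Tw.r_mem h.le) (tI τ w n) (tH τ w n) (tJ τ w n) (tH τ w (τ.act w n))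
    (fun a => W.p (R.B h.rg a)) (fun a => sg L R n W.g (τ.x - 1) (R.B h.rg a)) (fun a => W'.p (R.B h.rg a))
    (fun a => sg L R (τ.act w n) W'.g (τ.x - 1) (R.B h.rg a)) (fun a => U (R.B h.rg a))
    (C.tm ⁻¹' II (τ.x - 1) (τ.y + 1))
  off : ∀ z ∉ R.K τ, z ∈ Dw L R w.l w.r True True → U z * W'.g z = W.g z

theorem isClosed_K (h : τ.OK w) : IsClosed (R.K τ) := by
  rw [Rz.K, R.D_eq (S := Iic τ.r) h.rg fun _ hs => lt_of_le_of_lt hs τ.r_lt]
  exact (((C.T _).isCompact_disc isClosed_Iic (fun _ h => h) fun x _ => w.loc _ _ x).image_of_continuousOn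
    ((R.B h.rg).φ.contMDiffOn_toFun.continuousOn.mono (R.K_src h))).isClosed

/-- the domain of comparison contains the complement of a half disc -/
theorem compl_D (h : w.Rg x y) {S : Set ℝ} (hS : Iic (((y : ℝ) - x - 1) / 2) ⊆ S) (hA : ∀ j, j ≤ x ∨ y ≤ j → j ∈ A) :
    (R.D x y S)ᶜ ⊆ Vg R A w.l w.r True True := fun z hz => by
  rcases Rz.cover hw (X.τ z) with k | k | ⟨j, p, q, k⟩
  · exact .inl (.inr ⟨trivial, k⟩)
  · exact .inr ⟨trivial, k⟩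
  refine .inl (.inl ⟨II_mono p q k, ?_⟩)
  rcases lt_or_ge (X.τ z) (x + 1) with e | e
  · exact .inr ⟨j, x, ⟨(II_sub _ _ k).1, e⟩, fun i _ c => hA i (.inl c)⟩
  rcases lt_or_ge (y : ℝ) (X.τ z) with e' | e'
  · exact .inr ⟨y, j + 1, ⟨e', (II_sub _ _ k).2⟩, fun i c _ => hA i (.inr c)⟩
  have u : X.τ z ∈ II x y := ⟨by linarith, by linarith⟩
  obtain ⟨a, c, rfl⟩ := surj_B (R := R) h u
  refine .inl ⟨x, y, h, u, (mem_imT _ c).2 (by_contra fun o => hz ⟨h, a, c, ?_⟩)⟩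
  have := (C.T _).rr_axis (c := cc x y) o
  rw [tm_B h c] at e e'
  exact ⟨⟨this.1, hS (this.2.trans_le (abs_le.2 (by unfold cc; exact ⟨by linarith, by linarith⟩)))⟩, rfl⟩

theorem exists_twx (h : τ.OK w) (W : WL L R n κ) (W' : WL L R (τ.act w n) lam) : ∃ U, TwX h W W' U := by
  have le := h.le
  have le' : (τ.x : ℝ) ≤ τ.y := by exact_mod_cast le
  have o := op_tm C w (τ.x - 1) (τ.y + 1)
  obtain ⟨U₁, k⟩ := exists_twR (h.sph hw) h.ne (Tw.r_mem le) o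
    (fun a c => C.tm_disc ((h.sph hw).image_subset_disc _ c) fun s hs => by push_cast; linarith [mem_Iio.1 hs])
    (W.tl h.rg) (W'.tl h.rg) (wts hw W.ok h) (h' := tH τ w (τ.act w n))
    (by have := wts hw W'.ok h
        rwa [tI, tJ, (act_out (by omega)).2, (act_out (by omega)).1] at this)
    (by rw [tH, (act_in le_rfl le).1, mul_sub, ← mul_assoc, sg_sq, one_mul, tH]; ring)
    fun a c t e f => by
      rw [Real.sq_sqrt (by linarith), cc, mem_Icc, not_and_or, not_le, not_le] at e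
      replace c : t ∈ II (τ.x - 1) (τ.y + 1) := f ▸ mem_preimage.1 c
      have c1 := c.1
      have c2 := c.2
      push_cast at e c1 c2
      rcases e with e | e
      · filter_upwards [(isOpen_Ioo (a := ((τ.x - 1 : ℤ) : ℝ)) (b := (τ.x - 1 : ℤ) + 1)).mem_nhds
          (by push_cast; exact ⟨by linarith, by linarith⟩)] with s hs
        rw [wz, wz, wm_of_mem hs, wm_of_mem hs, bn_le le_rfl, bn_le le_rfl, (act_out (by omega)).2]
      · filter_upwards [(isOpen_Ioo (a := ((τ.y + 1 : ℤ) : ℝ)) (b := (τ.y + 1 : ℤ) + 1)).mem_nhds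
          (by push_cast; exact ⟨by linarith, by linarith⟩)] with s hs
        rw [wz, wz, wm_of_mem hs, wm_of_mem hs, bn_ge h.rg.lt le_rfl, bn_ge h.rg.lt le_rfl, (act_out (by omega)).1]
  obtain ⟨U₂, k'⟩ := exists_gm (A := {j | j < τ.x ∨ τ.y < j}) (eL := True) (eR := True) W' W (lc_refl le_rfl le_rfl)
    ⟨hw.lt, fun j c => by
      rw [Gd, add_zero, (act_out c).1, (act_out c).2]; exact ⟨fun _ => ⟨rfl, rfl⟩, fun _ => ⟨rfl, rfl⟩⟩,
      fun j J _ _ e => by_contra fun c => Shp.rod_iff.1 (h.rg.fr j (by simp at c; omega) (by simp at c; omega)) J e⟩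
    (cs_refl rfl rfl)
  have s : (R.K τ)ᶜ ⊆ _ := compl_D (A := {j | j < τ.x ∨ τ.y < j}) h.rg
    (Iic_subset_Iic.2 (by unfold Tw.r; push_cast; linarith)) fun j c => by simp only [mem_ofPred_eq]; omega
  have e2 : ∀ z ∉ R.K τ, z ∈ Dw L R w.l w.r True True → U₂ z * W'.g z = W.g z := fun z c e => by
    rw [k'.eq z (s c) e, lm_one ⟨_, hw.sl⟩ ⟨_, (add_zero w.l).symm ▸ hw.sl⟩, Circle.coe_one, one_smul]
    rfl
  have oI := (isOpen_II (τ.x - 1) (τ.y + 1)).preimage X.cont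
  have oK := (isClosed_K (R := R) h).isOpen_compl
  have u1 : Uni X.P.I W'.p (fun z => W.p (R.tw τ z)) (fun z => U₁ ((R.B h.rg).symm z)) (X.τ ⁻¹' II _ _) :=
    (mt_T (R.B h.rg) (D := ∅) (B := ∅) (s := W'.g) (s' := W.g) (q := fun z => W.p (R.tw τ z)) ⟨k.uni.congr_p (fun _ _ => rfl)
      fun a c => congrArg W.p (R.tw_B h c), fun _ _ c => c.elim⟩ subset_rfl fun _ c _ => ⟨c, id⟩).toUni
  have u2 : Uni X.P.I W'.p (fun z => W.p (R.tw τ z)) U₂ (R.K τ)ᶜ :=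
    (k'.toUni.mono s).congr_p (fun _ _ => rfl) fun z c => congrArg W.p (R.tw_off z c)
  have e : EqOn (fun z => U₁ ((R.B h.rg).symm z)) U₂ (X.τ ⁻¹' II _ _ ∩ (R.K τ)ᶜ) :=
    (u1.mono inter_subset_left).ext_sec (oI.inter oK) (inter_subset_left.trans (Ch.B _ _ h.rg).cl)
      (u2.mono inter_subset_right) fun z c f => by
        have f' : z ∈ Dw L R w.l w.r True True := ⟨.B _ _ h.rg, ⟨h.rg.lo, h.rg.hi⟩, c.1, f⟩
        obtain ⟨a, b, rfl⟩ := surj_B (R := R) h.rg c.1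
        refine ⟨_, W'.unit' f' (τ.x - 1), ?_⟩
        rw [(R.B h.rg).symm_apply b, k.out a b (fun g => c.2 ⟨h.rg, a, b, (h.sph hw).K_subset _ (Tw.r_mem le).2 g, rfl⟩)
          ((mem_imT _ b).1 f), sg, sg, Matrix.mul_smul, e2 _ c.2 f', nu_act h]
  obtain ⟨U, v1, v2⟩ := exists_uni_glue (U := fun b => cond b (X.τ ⁻¹' II (τ.x - 1) (τ.y + 1)) (R.K τ)ᶜ)
    (a := fun b => cond b (fun z => U₁ ((R.B h.rg).symm z)) U₂) (by rintro (_ | _); exacts [oK, oI])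
    (by rintro (_ | _); exacts [u2, u1]) (by
      rintro (_ | _) (_ | _) z p q
      exacts [rfl, (e ⟨q, p⟩).symm, e ⟨p, q⟩, rfl])
  have e1 : ∀ a, C.tm a ∈ II _ _ → U (R.B h.rg a) = U₁ a := fun a c =>
    (v2 true ((R.B h.rg).mem c)).trans (congrArg U₁ ((R.B h.rg).symm_apply c))
  exact ⟨U, v1.mono fun z _ => mem_iUnion.2 ((Classical.em (z ∈ R.K τ)).elim (fun c => ⟨true, R.D_II c⟩)
    fun c => ⟨false, c⟩), ⟨k.uni.congr o e1, fun a c p q => e1 a c ▸ k.out a c p q, fun y c p q => by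
      rw [e1 _ (C.tm_disc ((h.sph hw).image_subset_disc _ ⟨y, c, rfl⟩) fun s hs => by
        push_cast; linarith [mem_Iio.1 hs])]
      exact k.inn y c p q⟩, fun z c f => (congrArg (· * _) (v2 false c)).trans (e2 z c f)⟩

theorem t_sh (G : Ga w w' n n' d x y A) (h : τ.Mt w w' d x y) (hA : ∀ j, τ.x - 1 ≤ j → j ≤ τ.y + 1 → j ∈ A) :
    tI (τ.sh d) w' n' = tI τ w n ∧ tJ (τ.sh d) w' n' = tJ τ w n ∧ tH (τ.sh d) w' n' = tH τ w n := by
  have := h.1.le; have := h.2.1; have := h.2.2.1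
  have g1 := (G.gd _ (hA (τ.x - 1) le_rfl (by omega))).1 (by omega)
  have g2 := (G.gd _ (hA (τ.y + 1) (by omega) le_rfl)).2 (by omega)
  have g3 := (G.gd _ (hA τ.x (by omega) (by omega))).2 (by omega)
  simp only [tI, tJ, tH, Tw.sh, Shp.lf, Shp.rt, add_sub_right_comm τ.x, add_right_comm τ.y d, g1, g2, g3, and_self]

theorem ga_act (G : Ga w w' n n' d x y A) (h : τ.Mt w w' d x y) (hA : ∀ j, τ.x - 1 ≤ j → j ≤ τ.y + 1 → j ∈ A) :
    Ga w w' (τ.act w n) ((τ.sh d).act w' n') d x y A := by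
  refine ⟨G.lt, fun j k => ?_, G.jn⟩
  have g := G.gd j k
  have := h.2.1; have := h.2.2.1
  by_cases c : τ.x ≤ j ∧ j ≤ τ.y
  · have e := act_in (w := w) (n := n) c.1 c.2
    have e' := act_in (τ := τ.sh d) (w := w') (n := n') (j := j + d) (add_le_add_left c.1 d) (add_le_add_left c.2 d)
    have g1 := g.1 (by omega)
    have g2 := g.2 (by omega)
    rw [(t_sh G h hA).1, (t_sh G h hA).2.1, Shp.rt, g1.2, g2.1, g2.2] at e'
    exact ⟨fun _ => ⟨g1.1, e'.2.trans e.2.symm⟩, fun _ => ⟨g2.1, e'.1.trans e.1.symm⟩⟩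
  · have e := act_out (τ := τ) (w := w) (n := n) (j := j) (by omega)
    have e' := act_out (τ := τ.sh d) (w := w') (n := n') (j := j + d) (by simp only [Tw.sh]; omega)
    rw [Gd, e.1, e.2, e'.1, e'.2]
    exact g

theorem TwR.nr' {T T' : Tb (𝓡 3) S3'} {v v' : ℝ → Z2} {a b a' : Z2} {m e : ℕ} {c c' k k' ρ ρ' r r' d : ℝ}
    {i h j h' i₁ h₁ j₁ h₁' : ℤ} {κ' lam' : Type} [Fintype κ'] [Fintype lam'] {S : Sph v a b a' m c' k' ρ'}
    {S' : Sph v' a b a' m c k ρ} {hn : m * e = 2} {hr hr'} {p s q s' O p₁ s₁ q₁ s₁' O₁}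
    {U : Rod53.X T v → Matrix κ lam ℂ} {U₁ : Rod53.X T' v' → Matrix κ' lam' ℂ}
    (H : TwR (r := r') S hn hr' i₁ h₁ j₁ h₁' p s q s' U O) (H' : TwR (r := r) S' hn hr i h j h' p₁ s₁ q₁ s₁' U₁ O₁)
    (e1 : c' = c + d) (e2 : k' = k) (e3 : ρ' = ρ) (e4 : r' = r) (e5 : i₁ = i) (e6 : h₁ = h) (e7 : j₁ = j)
    (e8 : h₁' = h') (e' : T' = T) (hv : ∀ x ∈ Ioo (c - ρ) (c + ρ), v' x = v (x + d)) {x : Rod53.X T' v'}
    {y : Rod53.X T v} (l : NR d x y) (hx : x ∈ O₁) (hy : y ∈ O) (o : x ∈ off T' v') (o' : S'.tau T' hn hr x ∈ off T' v') :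
    ∃ γ : Circle, U₁ x * s₁' x = (γ : ℂ) • s₁ (S'.tau T' hn hr x) ∧ U y * s' y = (γ : ℂ) • s (S.tau T hn hr' y) := by
  subst e1 e2 e3 e4 e5 e6 e7 e8
  exact H.nr H' e' hv l hx hy o o'

theorem K_Vw (h : τ.Mt w w' d x y) (hA : ∀ j, τ.x - 1 ≤ j → j ≤ τ.y + 1 → j ∈ A) : R.K τ ⊆ Vw R A x y :=
  fun _ k => ⟨R.K_II h.2.1 h.2.2.1 k, .inr (mem_TA hA (R.D_II k))⟩

theorem Dw_mono : Dw L R x y eL eR ⊆ Dw L R w.l w.r True True := by
  rintro z ⟨c, p, q⟩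
  refine ⟨c, ?_, q⟩
  cases c with
  | B _ _ r => exact ⟨r.lo, r.hi⟩
  | _ => trivial

/-- **naturality of the twist** -/
theorem tw_nat (H : Lc R R' d x y ψ) (G : Ga w w' n n' d x y A) (h : τ.Mt w w' d x y)
    (hA : ∀ j, τ.x - 1 ≤ j → j ≤ τ.y + 1 → j ∈ A) {κ' lam' : Type} [Fintype κ'] [Fintype lam']
    {W₁ : WL L R (τ.act w n) κ'} {W₁' : WL L R' ((τ.sh d).act w' n') lam'} {U U' u₁} (hU : TwX h.1 W W₁ U)
    (hU' : TwX (h.ok H.sk) W' W₁' U') (c : Cp W W' ψ d x y (Vw R A x y) u) (c₁ : Cp W₁ W₁' ψ d x y (Vw R A x y) u₁) :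
    EqOn (fun z => U' (ψ z) * u₁ z) (fun z => u (R.tw τ z) * U z) (Vw R A x y) := by
  have o := h.ok H.sk
  have e1 : (τ.sh d).x - 1 = τ.x - 1 + d := add_sub_right_comm _ _ _
  have e2 : (τ.sh d).y + 1 = τ.y + 1 + d := add_right_comm _ _ _
  have e3 : (((τ.sh d).y : ℝ) - (τ.sh d).x + 1) = τ.y - τ.x + 1 := by simp [Tw.sh]
  have e4 : (τ.sh d).r = τ.r := by rw [Tw.r, e3, Tw.r]
  have h1 : x ≤ τ.x - 1 := by linarith [h.2.1]
  have sr := vw_src H G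
  have tv : ∀ z ∈ Vw R A x y, R.tw τ z ∈ Vw R A x y := fun z => (R.tw_mem (.inl (K_Vw h hA))).2
  have u1 := c₁.uni.trans ((hU'.uni.comp (f := ψ) ⟨fun z k => (Rod53.ld_pd ψ (sr k)).contMDiffAt, mapsTo_univ _ _⟩).congr_p
    (fun _ _ => rfl) fun z k => congrArg W'.p (H.tw h (sr k)))
  have u2 := (hU.uni.mono (subset_univ _)).trans (c.uni.comp (f := R.tw τ) ⟨fun z _ => (R.tw τ).contMDiff z, tv⟩)
  intro z hz
  by_cases k : z ∈ R.K τ
  · have oI := isOpen_Vw (R := R) (A := A) (x := x) (y := y) |>.inter ((isOpen_II (τ.x - 1) (τ.y + 1)).preimage X.cont)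
    refine (u1.mono inter_subset_left).ext_sec oI (inter_subset_right.trans (imT_cl (R.B h.1.rg)
      (A := off _ _ ∩ C.tau hw h.1 ⁻¹' off _ _) (dense_off.inter_of_isOpen_left
        (dense_off.preimage (C.tau hw h.1).toHomeomorph.isOpenMap) isOpen_off))) (u2.mono inter_subset_left)
      (fun z c' f => ?_) ⟨hz, R.D_II k⟩
    obtain ⟨a, p, rfl⟩ := surj_B (R := R) h.1.rg c'.2
    replace f := (mem_imT _ p).1 f
    obtain ⟨a', l, e⟩ := H.ex' h.1.rg o.rg e1 e2 h1 h.2.2.1 p (sr c'.1)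
    have p' : C.tm a' ∈ II ((τ.sh d).x - 1) ((τ.sh d).y + 1) := by rw [C.tm_nr l, e1, e2, add_mem_II]; exact p
    have t : C.tm (C.tau hw h.1 a) ∈ II (τ.x - 1) (τ.y + 1) :=
      maps_of_off (A := (C.tp w _ _).mf) (C.tau hw h.1).injective (fun _ => (h.1.sph hw).tau_off_disc _ _ _)
        (s := C.tm ⁻¹' II _ _) (fun _ m => C.tm_disc m fun _ hs => lt_of_le_of_lt hs τ.r_lt) p
    obtain ⟨γ, g, g'⟩ := hU'.tw.nr' hU.tw (by rw [e1, e2, cc_add]) (by rw [e3]) (by rw [e3]) e4 (t_sh G h hA).1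
      (t_sh G h hA).2.2 (t_sh G h hA).2.1 (t_sh (ga_act G h hA) h hA).2.2 (H.T h.1.rg h1 h.2.2.1 e1) (fun s hs => by
        have := h.2.2.2.v hw hw' h.1.rg (H.sk.rg h.1.rg h1 h.2.2.1) (t := s) (by
          unfold cc at hs; push_cast at hs
          exact ⟨by push_cast; linarith [hs.1], by push_cast; linarith [hs.2]⟩)
        rwa [e1, e2]) l p p' f.1 f.2
    have m := (mem_imT (R.B h.1.rg) p).2 f.1
    refine ⟨_, W₁.unit' (x := x) (y := y) (eL := False) (eR := False) ⟨.B _ _ h.1.rg, ⟨h1, h.2.2.1⟩, c'.2, m⟩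
      (τ.x - 1), ?_⟩
    change _ = _ • sg L R n W.g _ (R.B h.1.rg (C.tau hw h.1 a)) at g
    rw [Matrix.mul_assoc, Matrix.mul_assoc, c₁.mt _ h1 h.2.2.1 _ c'.1 c'.2 m, g, Matrix.mul_smul, R.tw_B h.1 p,
      c.mt _ h1 h.2.2.1 _ (R.tw_B h.1 p ▸ tv _ c'.1) ((R.B _).mem t) ((mem_imT _ t).2 f.2), ← R.tw_B h.1 p,
      H.tw h (sr c'.1), ← e, R'.tw_B o p', ← e1]
    exact g'
  · have oK := isOpen_Vw (R := R) (A := A) (x := x) (y := y) |>.inter (isClosed_K (R := R) h.1).isOpen_compl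
    refine (u1.mono inter_subset_left).ext_sec oK (fun z k => cl_II (L := L) (R := R) (eL := False) (eR := False) H.sk.lo'
      G.lt H.sk.hi' k.1.1) (u2.mono inter_subset_left) (fun z c' f => ?_) ⟨hz, k⟩
    have f' := Dw_mono f
    obtain ⟨⟨a, b, r⟩ | _ | _, i, p, q⟩ := id f
    · obtain ⟨s, s1, rfl⟩ := surj_B (R := R) r p
      obtain ⟨s', l, e⟩ := H.ex r (H.sk.rg r i.1 i.2) i.1 i.2 s1 (sr c'.1)
      have s2 := (mem_II_nr l).2 s1
      refine ⟨_, W₁.unit' f a, ?_⟩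
      rw [Matrix.mul_assoc, Matrix.mul_assoc, c₁.mt r i.1 i.2 _ c'.1 p q, R.tw_off _ c'.2, sg, sg, Matrix.mul_smul,
        Matrix.mul_smul, hU.off _ c'.2 f', nu_act h.1, nu_act o, hU'.off _
          (fun m => c'.2 ((H.D e1 e2 h1 h.2.2.1 (sr c'.1)).1 (e4 ▸ m))) (e ▸ ⟨.B _ _ (H.sk.rg r i.1 i.2),
            ⟨(H.sk.rg r i.1 i.2).lo, (H.sk.rg r i.1 i.2).hi⟩, (R'.B _).mem s2,
            (mem_imT _ s2).2 ((nr_off (H.T r i.1 i.2 rfl) l).2 ((mem_imT _ s1).1 q))⟩)]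
      exact (c.mt r i.1 i.2 _ c'.1 p q).symm
    exacts [i.elim, i.elim]

end Crest.Agent.X212.Line51
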