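import Crest.Agent.X212.Line51.Atl
import Crest.Agent.X212.Wd38.Cmp

/-!
# X212 / Line51, part Wd (helper51): the toric line of a weighted word

* `LCx` : framed lines on the fillings, isometries over the junctions, the line of the caps;
* `wz` : the orders on a range; `nu` : the phases over the junctions; `WL` : lines with orders `n`; `exists_WL`.
-/

set_option autoImplicit false
set_option linter.unusedSectionVars false

open Set Filter Topology Function Matrix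
open scoped ContDiff Manifold

noncomputable section

namespace Crest.Agent.X212.Line51

open Crest.Agent.X212.Glue52 Crest.Agent.X212.Pj41 Crest.Agent.X212.Tau19 Crest.Agent.X212.Wd38
  Crest.Agent.X212.M Crest.Agent.X212.Int54 Crest.Agent.X212.Cyf70
open Crest.Agent.X212.Rod53 hiding Uni X
open Crest.Agent.X212.Cyl58 (TP TIso IsOE)
open Crest.Agent.X212.Dr59 (Mp)

/-- three indices -/
abbrev K3 : Type := Option Bool

section gen

variable {E : Type*} [NormedAddCommGroup E] [NormedSpace ℝ E] [FiniteDimensional ℝ E]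
  {H : Type*} [TopologicalSpace H] {I : ModelWithCorners ℝ E H} {M : Type*} [TopologicalSpace M] [ChartedSpace H M]
  {κ l : Type*} [Fintype κ] [Fintype l] {D O : Set M} {p : M → Matrix κ κ ℂ} {q : M → Matrix l l ℂ}
  {s : M → Matrix κ Unit ℂ} {s' : M → Matrix l Unit ℂ} {u : M → Matrix l κ ℂ}

theorem Uni.mt (h : Uni I p q u O) (hs : ∀ x ∈ O, x ∈ D → PIso (s x) 1 (p x))
    (hs' : ∀ x ∈ O, x ∈ D → PIso (s' x) 1 (q x)) :
    Mt I D p s q (fun x => (ph ((s' x)ᴴ * (u x * s x)) : ℂ) • s' x) u O :=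
  ⟨h, fun x a b => ph_spec (hs x a b) (hs' x a b) (h.iso x a)⟩

theorem inv_csmul (g : Circle) (a : Matrix κ l ℂ) : ((g⁻¹ : Circle) : ℂ) • (g : ℂ) • a = a := by
  rw [csmul_smul, inv_mul_cancel, Circle.coe_one, one_smul]

theorem csmul_inv (g : Circle) (a : Matrix κ l ℂ) : (g : ℂ) • ((g⁻¹ : Circle) : ℂ) • a = a := by
  rw [csmul_smul, mul_inv_cancel, Circle.coe_one, one_smul]

theorem mt_empty (h : ∀ x, x ∉ O) : Mt I D p s q s' u O :=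
  ⟨⟨fun x k => (h x k).elim, fun x k => (h x k).elim⟩, fun x k => (h x k).elim⟩

theorem on_of_loc [I.Boundaryless] [IsManifold I ∞ M] (h : ∀ x, ∃ U, x ∈ U ∧ (⟨p, 0⟩ : Ln E M κ).On I U) : (⟨p, 0⟩ : Ln E M κ).On I univ :=
  ⟨fun x _ => let ⟨_, a, b⟩ := h x; b.sm x a, fun x _ => let ⟨_, a, b⟩ := h x; b.prj x a,
    fun x _ => let ⟨_, a, b⟩ := h x; b.tr x a, fun _ _ => Dr59.cAt_zero, Dr59.Dg.zero⟩

theorem on_comp {E' : Type*} [NormedAddCommGroup E'] [NormedSpace ℝ E'] [FiniteDimensional ℝ E']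
    {H' : Type*} [TopologicalSpace H'] {J : ModelWithCorners ℝ E' H'} {W : Type*} [TopologicalSpace W]
    [ChartedSpace H' W] [J.Boundaryless] [IsManifold J ∞ W] (h : (⟨p, 0⟩ : Ln E M κ).On I O) {f : W → M} {V : Set W} (hf : Mp J I V O f) :
    (⟨fun y => p (f y), 0⟩ : Ln E' W κ).On J V :=
  ⟨fun y k => (h.sm _ (hf.maps k)).comp (hf.sm y k), fun _ k => h.prj _ (hf.maps k), fun _ k => h.tr _ (hf.maps k),
    fun _ _ => Dr59.cAt_zero, Dr59.Dg.zero⟩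

variable {V V' : Type} [NormedAddCommGroup V] [NormedSpace ℝ V] [FiniteDimensional ℝ V]
  [NormedAddCommGroup V'] [NormedSpace ℝ V'] [FiniteDimensional ℝ V'] {Z : TP V} {X : TP V'} {J : Set ℝ}

theorem mem_imT (k : TIso Z X J) {a : Z.P.M} (h : Z.τ a ∈ J) {A : Set Z.P.M} : k a ∈ im k.φ A ↔ a ∈ A :=
  mem_im (k.mem_src h)

theorem imT_cl (k : TIso Z X J) {A : Set Z.P.M} (h : Dense A) : X.τ ⁻¹' J ⊆ closure (im k.φ A) :=
  fun _ hz => im_cl (A := univ) (fun a _ => h a) ⟨k.mem_tgt hz, trivial⟩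

theorem mp_T (k : TIso Z X J) {A : Set Z.P.M} {B : Set X.P.M} (h : ∀ a ∈ A, Z.τ a ∈ J ∧ k a ∈ B) :
    Mp Z.P.I X.P.I A B k := ⟨fun a ha => (k.ld (h a ha).1).contMDiffAt, fun a ha => (h a ha).2⟩

/-- matching through a chart -/
theorem mt_T (k : TIso Z X J) {p : X.P.M → Matrix κ κ ℂ} {q : X.P.M → Matrix l l ℂ} {s : X.P.M → Matrix κ Unit ℂ}
    {s' : X.P.M → Matrix l Unit ℂ} {u : Z.P.M → Matrix l κ ℂ} {A B : Set Z.P.M} {D O : Set X.P.M}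
    (h : Mt Z.P.I B (fun a => p (k a)) (fun a => s (k a)) (fun a => q (k a)) (fun a => s' (k a)) u A)
    (hO : O ⊆ X.τ ⁻¹' J) (e : ∀ a, Z.τ a ∈ J → k a ∈ O → a ∈ A ∧ (k a ∈ D → a ∈ B)) :
    Mt X.P.I D p s q s' (fun z => u (k.symm z)) O :=
  (Mt.of_chart (k := k.φ) h).mono
    (fun _ hz => ⟨k.mem_tgt (hO hz), (e _ (k.symm.mem (hO hz)) ((k.apply_symm (hO hz)).symm ▸ hz)).1⟩)
    fun _ hz => ⟨k.mem_tgt (hO hz.1), (e _ (k.symm.mem (hO hz.1)) ((k.apply_symm (hO hz.1)).symm ▸ hz.1)).2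
      ((k.apply_symm (hO hz.1)).symm ▸ hz.2)⟩

end gen

variable {Γ : Nm} {C : Cx Γ} {Λ : NmL Γ} {w w' : Shp Γ} {n n' : Wt} {x y x' y' j d : ℤ} {t : ℝ} {τ : Γ.ι × Z2}

/-! ### orders -/

/-- the orders on a range -/
def wz (w : Shp Γ) (n : Wt) (x y : ℤ) : ℝ → ℤ := wm (w.bz x y) (n.bn x y)

theorem bn_le (h : j ≤ x) : n.bn x y j = n.nr x := if_pos h

theorem bn_mid (h : x < j) (h' : j ≤ y) : n.bn x y j = n.nl j := by rw [Wt.bn, if_neg h.not_ge, min_eq_left h']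

theorem bn_ge (h : x < y) (h' : y ≤ j) : n.bn x y j = n.nl y := by
  rw [Wt.bn, if_neg (by omega), min_eq_right h']

theorem bn_r (hn : n.OK w Λ) (h : w.Rg x y) (h1 : x ≤ j) (h2 : j < y) : n.bn x y j = n.nr j := by
  rcases h1.eq_or_lt with rfl | k
  · exact bn_le le_rfl
  · obtain ⟨τ, e⟩ := h.fr j k h2
    exact (bn_mid k h2.le).trans (hn.rod j τ (h.lo.trans_lt k) (h2.trans_le h.hi) e)

theorem vch (hw : w.OK) (hn : n.OK w Λ) (h : w.Rg x y) (i : ℤ) :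
    ∃ η, dot η (w.bz x y (i - 1)) = n.bn x y (i - 1) ∧ dot η (w.bz x y i) = n.bn x y i := by
  have := h.lo; have := h.hi; have := h.lt
  rw [h.bz_eq hw]
  rcases le_or_gt i x with k | k
  · rw [Shp.bw_le k, Shp.bw_le (by omega), bn_le k, bn_le (by omega)]
    exact (exists_dot (h.prl hw) _).imp fun _ e => ⟨e, e⟩
  rcases le_or_gt i y with k' | k'
  · obtain ⟨b, hb⟩ := (h.isWd hw).prim i
    have e1 := hn.eq i (by omega) (by omega)
    have e2 := hn.neg i (by omega) (by omega)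
    have st := (h.isWd hw).step i
    rw [bn_r hn h (by omega) (by omega), bn_mid k k']
    rw [h.bw_r (by omega) (by omega), Shp.bw_mid k k'] at st ⊢
    rw [Shp.bw_mid k k'] at hb
    rcases st with (e | e) | e
    · exact ⟨dual _ b _ 0, by rw [e, e1 e, dual_left hb], dual_left hb _ _⟩
    · exact ⟨dual _ b _ 0, by rw [e, e2 e, dot_neg', dual_left hb], dual_left hb _ _⟩
    · exact ⟨_, dual_left e _ _, dual_right e _ _⟩
  · rw [Shp.bw_ge h.lt (by omega), Shp.bw_ge h.lt k'.le, bn_ge h.lt (by omega), bn_ge h.lt k'.le]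
    exact (exists_dot (h.prr hw) _).imp fun _ e => ⟨e, e⟩

theorem oa_wz (hw : w.OK) (h : w.Rg x y) (ht : t ∈ Ioo (j : ℝ) (j + 1)) :
    Oa (w.v x y) (wz w n x y) (w.bw x y j) (n.bn x y j) t := h.bz_eq hw ▸ oa_wd ht

theorem wm_sh (a : ℤ → Z2) (n : ℤ → ℤ) (d : ℤ) (t : ℝ) :
    wm a n (t + d) = wm (fun j => a (j + d)) (fun j => n (j + d)) t := by
  have k : (t + d = ((⌊t⌋ + d : ℤ) : ℝ)) ↔ t = ⌊t⌋ := by rw [Int.cast_add, add_left_inj]
  unfold wm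
  rw [Int.floor_add_intCast, add_sub_right_comm]
  by_cases h : t = ⌊t⌋ ∧ ¬PM (a (⌊t⌋ - 1 + d)) (a (⌊t⌋ + d))
  · rw [if_pos h, if_pos ⟨k.2 h.1, h.2⟩]
  · rw [if_neg h, if_neg fun h' => h ⟨k.1 h'.1, h'.2⟩]

/-- rods and orders agree near a time -/
theorem ag_wz (hw : w.OK) (hw' : w'.OK) (h : w.Rg x y) (h' : w'.Rg x' y') {a b : ℤ}
    (e : ∀ j, a ≤ j → j ≤ b → w.bw x y j = w'.bw x' y' (j + d) ∧ n.bn x y j = n'.bn x' y' (j + d))
    (ht : t ∈ Ioo (a : ℝ) (b + 1)) :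
    t ∈ Ag (w.v x y) (w'.v x' y') d ∧ ∀ᶠ s in 𝓝 t, wz w n x y s = wz w' n' x' y' (s + d) :=
  ⟨Ag.of_open isOpen_Ioo (fun _ => Shp.v_congr hw hw' h h' fun j p q => (e j p q).1) ht,
    eventually_of_mem (isOpen_Ioo.mem_nhds ht) fun s hs => by
      rw [wz, wz, h.bz_eq hw, h'.bz_eq hw', wm_sh]
      exact wm_congr (fun j p q => (e j p q).1) (fun j p q => (e j p q).2) hs⟩

theorem ov_bw (hn : n.OK w Λ) (h : w.Rg x y) (h' : w.Rg x' y') (o : w.Ov x y x' y') (h1 : x ≤ j) (h2 : j ≤ y)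
    (h3 : x' ≤ j) (h4 : j ≤ y') : w.bw x y j = w.bw x' y' j ∧ n.bn x y j = n.bn x' y' j := by
  have key : ∀ {x y x' y'}, w.Rg x y → w.Rg x' y' → (x = y' → ∃ τ, w.s y' = .rod τ) → x' < x → x ≤ y' →
      w.bw x y x = w.bw x' y' x ∧ n.bn x y x = n.bn x' y' x := fun {x y x' y'} h h' o a b => by
    obtain ⟨τ, e⟩ : ∃ τ, w.s x = .rod τ := b.eq_or_lt.elim (fun k => k ▸ o k) (h'.fr x a)
    rw [Shp.bw_le le_rfl, Shp.bw_mid a b, bn_le le_rfl, bn_mid a b,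
      hn.rod x τ (h'.lo.trans_lt a) (h.lt.trans_le h.hi) e, e]
    exact ⟨rfl, rfl⟩
  rcases h1.eq_or_lt with rfl | k <;> rcases h3.eq_or_lt with rfl | k'
  · exact ⟨by rw [Shp.bw_le le_rfl, Shp.bw_le le_rfl], by rw [bn_le le_rfl, bn_le le_rfl]⟩
  · exact key h h' o.2 k' h4
  · exact (key h' h o.1 k h2).imp Eq.symm Eq.symm
  · rw [Shp.bw_mid k h2, Shp.bw_mid k' h4, bn_mid k h2, bn_mid k' h4]
    exact ⟨rfl, rfl⟩

theorem op_tm (C : Cx Γ) (w : Shp Γ) (x y : ℤ) : IsOpen ((C.tm : C.XR w x y → ℝ) ⁻¹' II x y) :=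
  (isOpen_II _ _).preimage (C.T _).continuous_time

/-! ### the lines of the context -/

variable (C Λ) in
/-- framed lines on the fillings, isometries over the junctions, the line of the caps -/
structure LCx where
  S : ∀ (τ : Γ.ι × Z2) (_ : ℤ), Sec E3 (mF C.kd τ).M K3
  sf : ∀ τ i, SF (C.F τ rfl) (uni_s (fd τ.2)) i (S τ i)
  u : ∀ J (_ _ : ℤ), (mF C.kd (Γ.src J)).M → Matrix K3 K3 ℂ
  hu : ∀ J i j, Λ.ok J i j → Uni (𝓡 3) (S _ i).L.p (fun q => (S _ j).L.p (C.g J q)) (u J i j) univ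
  S0 : Sec C.X0.E C.X0.M K3
  ok0 : S0.OK C.X0.I
  m0 : (mF C.kd Γ.cap).M × ℝ → Matrix K3 K3 ℂ
  hm0 : Uni ((𝓡 3).prod 𝓘(ℝ, ℝ)) (fun q => S0.L.p (C.S.n q)) (fun q => (S Γ.cap Λ.x).L.p q.1) m0
    (Prod.snd ⁻¹' Ioo (-(1 / 4)) (1 / 4))
  θ : (mF C.kd Γ.cap).M → Circle
  hθ : ∀ q, CSm (𝓡 3) θ q

variable (L : LCx C Λ) {hw : w.OK} {hw' : w'.OK} {X X' : TP V4} (R : Rz C hw X) {lam : Type} [Fintype lam]

namespace LCx

/-- the phase of a junction -/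
def γ (J : Γ.J) (i j : ℤ) (q : (mF C.kd (Γ.src J)).M) : Circle :=
  ph (((L.S _ j).s (C.g J q))ᴴ * (L.u J i j q * (L.S _ i).s q))

/-- the phase of a cap -/
def μ (m : ℤ) : C.X0.M → Circle :=
  extend C.S.n (fun q => L.θ q.1 ^ m * ph (((L.S Γ.cap Λ.x).s q.1)ᴴ * (L.m0 q * L.S0.s (C.S.n q)))) 1

/-- the phase over the slot `j` -/
def Nu (n : Wt) (j : ℤ) (z : X.P.M) (c : Circle) : Prop :=
  ∃ (J : Γ.J) (e : w.s j = .jn J) (h1 : w.l ≤ j) (h2 : j < w.r) (q : (mF C.kd (Γ.src J)).M), ∃ t ∈ II j j,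
    R.P (τ := Γ.tgt J) h1 h2 (congrArg Sl.r e) (C.g J q, t) = z ∧ c = L.γ J (n.nl j) (n.nr j) q

open Classical in
/-- the phase over the slot `j` -/
def nu (n : Wt) (j : ℤ) (z : X.P.M) : Circle := if h : ∃ c, L.Nu R n j z c then h.choose else 1

variable {L R} {z : X.P.M}

theorem Nu.eq {c : Circle} (h : L.Nu R n j z c) : L.nu R n j z = c := by
  have k : ∃ c, L.Nu R n j z c := ⟨c, h⟩
  rw [nu, dif_pos k]
  obtain ⟨J, e, h1, h2, q, t, ht, a, b⟩ := k.choose_spec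
  obtain ⟨J', e', _, _, q', t', ht', a', rfl⟩ := h
  obtain rfl : J = J' := Sl.jn.inj (e.symm.trans e')
  rw [b, (C.g J).injective (congrArg Prod.fst ((R.P h1 h2 _).inj (x := (_, t)) (y := (_, t')) ht ht'
    (a.trans a'.symm)))]

theorem nu_one (h : (∃ τ, w.s j = .rod τ) ∨ X.τ z ∉ II j j) : L.nu R n j z = 1 := dif_neg <| by
  rintro ⟨_, J, e, h1, h2, q, t, ht, rfl, -⟩
  exact h.elim (fun k => Shp.rod_iff.1 k J e) fun k => k ((R.P h1 h2 _).mem (x := (_, t)) ht)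

theorem nu_lt (h : x < x') (hz : X.τ z ∈ II x' y') : L.nu R n x z = 1 :=
  nu_one (.inr fun k => Rz.II_disj h k hz)

theorem nu_ov (h : w.Rg x y) (h' : w.Rg x' y') (o : w.Ov x y x' y') (hz : X.τ z ∈ II x y) (hz' : X.τ z ∈ II x' y') :
    L.nu R n x z = L.nu R n x' z := by
  have key : ∀ {x y x' y'}, w.Rg x y → (x' = y → ∃ τ, w.s y = .rod τ) → X.τ z ∈ II x y → X.τ z ∈ II x' y' →
      x < x' → L.nu R n x z = L.nu R n x' z := fun h o hz hz' k =>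
    (nu_lt k hz').trans (nu_one (.inl ((II_le hz' hz).eq_or_lt.elim (fun e => e ▸ o e) (h.fr _ k)))).symm
  rcases lt_trichotomy x x' with k | rfl | k
  exacts [key h o.1 hz hz' k, rfl, (key h' o.2 hz' hz k).symm]

end LCx

theorem SF.flc {i : ℤ} {κ : Type} [Fintype κ] {S : Sec E3 (mF C.kd τ).M κ}
    (h : SF (C.F τ rfl) (uni_s (fd τ.2)) i S) {k : Γ.ι} (e : τ.1 = k) : SF (C.F τ e) (uni_s (fd τ.2)) i S := by
  subst e
  exact h

/-- the marking of a product region -/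
theorem mark_pt (hw : w.OK) (h : w.Rg x y) (h1 : x ≤ j) (h2 : j ≤ y) (e : τ.1 = w.kn x) (e' : w.bw x y j = τ.2)
    {κ : Type} [Fintype κ] {S : Sec E3 (mF C.kd τ).M κ} {i : ℤ} (hi : n.bn x y j = i)
    (hS : SF (C.F τ rfl) (uni_s (fd τ.2)) i S) {p : C.XR w x y → Matrix lam lam ℂ}
    {s : C.XR w x y → Matrix lam Unit ℂ} (hp : TL _ _ (wz w n x y) p s (C.tm ⁻¹' II x y)) :
    ∃ m, S.Mk (𝓡 3) (fun q => p (C.pt hw h j τ e e' q)) (fun q => s (C.pt hw h j τ e e' q)) m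
      (Prod.snd ⁻¹' II j j) := by
  have k := sa_fd (e' ▸ (h.isWd hw).prim j : Pr τ.2)
  exact (hS.flc e).mark (op_tm C w x y) hp
    (isOpen_II j j) (by rw [k, ← e']; exact h.jr hw)
    (fun t ht => by rw [k, ← e', ← hi]; exact oa_wz hw h (II_sub _ _ ht)) (preimage_mono (II_mono h1 h2))

theorem pt_off (hw : w.OK) (h : w.Rg x y) (e : τ.1 = w.kn x) (e' : w.bw x y j = τ.2) (i : ℤ)
    {q : (mF C.kd τ).M × ℝ} (hq : q.2 ∈ II j j) : (C.pt hw h j τ e e' q : C.XR w x y) ∈ off _ _ ↔ q.1 ∈ (L.S τ i).D := by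
  rw [((L.sf τ i).flc e).D]
  exact cyf_mem_off _ _ (by rw [sa_fd (e' ▸ (h.isWd hw).prim j : Pr τ.2), ← e']; exact h.jr hw hq)

/-! ### matching in charts -/

variable {κ : Type} [Fintype κ] {R} {R' : Rz C hw' X'}

/-- the points off the axis in a chart -/
abbrev Db (R : Rz C hw X) (h : w.Rg x y) : Set X.P.M := im (R.B h).φ (off _ _)

theorem op_B (h : w.Rg x y) {O : Set X.P.M} (hO : IsOpen O) : IsOpen (C.tm ⁻¹' II x y ∩ R.B h ⁻¹' O) :=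
  ((R.B h).src ▸ (R.B h).φ.contMDiffOn_toFun.continuousOn).isOpen_inter_preimage (op_tm C w x y) hO

/-- translated charts -/
theorem mt_B (h : w.Rg x y) (h' : w'.Rg x' y') (e : C.T (w.kn x) = C.T (w'.kn x')) {ψ : X.P.M → X'.P.M}
    {O : Set X.P.M} (hO : IsOpen O) (hs : O ⊆ X.τ ⁻¹' II x y)
    (hψ : ∀ a, C.tm a ∈ II x y → R.B h a ∈ O → ∃ a', NR d a a' ∧ C.tm a' ∈ II x' y' ∧ R'.B h' a' = ψ (R.B h a))
    (ha : ∀ a, C.tm a ∈ II x y → R.B h a ∈ O → a ∉ off _ _ → ∃ i k : ℤ, C.tm a ∈ Ioo (i : ℝ) (k + 1) ∧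
      ∀ j, i ≤ j → j ≤ k → w.bw x y j = w'.bw x' y' (j + d) ∧ n.bn x y j = n'.bn x' y' (j + d))
    {p : X.P.M → Matrix κ κ ℂ} {s : X.P.M → Matrix κ Unit ℂ} {q : X'.P.M → Matrix lam lam ℂ}
    {s' : X'.P.M → Matrix lam Unit ℂ}
    (hp : TL _ _ (wz w n x y) (fun a => p (R.B h a)) (fun a => s (R.B h a)) (C.tm ⁻¹' II x y))
    (hq : TL _ _ (wz w' n' x' y') (fun a => q (R'.B h' a)) (fun a => s' (R'.B h' a)) (C.tm ⁻¹' II x' y')) :
    ∃ u, Mt X.P.I (Db R h) p s (fun z => q (ψ z)) (fun z => s' (ψ z)) u O := by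
  choose! f f1 f2 f3 using hψ
  have o := op_B (R := R) h hO
  obtain ⟨u, k⟩ := (hp.mono inter_subset_left).mt o (hq.tm (f := f) (tm_nr e o (fun a k => f1 a k.1 k.2)
    (fun a k => (Classical.em _).imp_right fun b => let ⟨_, _, c, c'⟩ := ha a k.1 k.2 b; (ag_wz hw hw' h h' c' c).1)
    fun a k b => let ⟨_, _, c, c'⟩ := ha a k.1 k.2 b; (ag_wz hw hw' h h' c' c).2) fun a k => f2 a k.1 k.2)
  exact ⟨_, mt_T (R.B h) ((k.congr_p (fun _ _ => rfl) fun a b => congrArg q (f3 a b.1 b.2).symm).congr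
    fun a b _ => ⟨rfl, congrArg s' (f3 a b.1 b.2).symm⟩) hs fun a b c => ⟨⟨b, c⟩, (mem_imT _ b).1⟩⟩

variable {L}

/-- matching over a junction -/
theorem mt_jn {J : Γ.J} {i i' : ℤ} (hJ : Λ.ok J i i') {A : Set ℝ} {p : _ → Matrix κ κ ℂ} {s m}
    {q : _ → Matrix lam lam ℂ} {s' m'} (h : (L.S (Γ.src J) i).Mk (𝓡 3) p s m (Prod.snd ⁻¹' A))
    (h' : (L.S (Γ.tgt J) i').Mk (𝓡 3) q s' m' (Prod.snd ⁻¹' A))
    (hs : ∀ z, z.2 ∈ A → z.1 ∈ (L.S _ i').D → PIso (s' z) 1 (q z)) :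
    Mt ((𝓡 3).prod 𝓘(ℝ, ℝ)) (Prod.fst ⁻¹' ((L.S _ i).D ∩ C.g J ⁻¹' (L.S _ i').D)) p s
      (fun z => q (C.g J z.1, z.2)) (fun z => (L.γ J i i' z.1 : ℂ) • s' (C.g J z.1, z.2))
      (fun z => (m' (C.g J z.1, z.2))ᴴ * (L.u J i i' z.1 * m z)) (Prod.snd ⁻¹' A) :=
  ((h.mono subset_rfl fun _ k => k.2.1).trans (((L.hu J i i' hJ).comp (f := Prod.fst)
    ⟨fun _ _ => contMDiffAt_fst, mapsTo_univ _ _⟩).mt (fun _ _ k => (L.sf _ _).ok.fr.iso _ k.1)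
      fun _ _ k => (L.sf _ _).ok.fr.iso _ k.2)).trans ((((h'.symm hs).comp (f := fun z => (C.g J z.1, z.2))
    ⟨fun z _ => (((C.g J).contMDiff _).comp z contMDiffAt_fst).prodMk contMDiffAt_snd, fun _ k => k⟩).mono
      subset_rfl fun _ k => k.2.2).smul fun z => L.γ J i i' z.1)

/-- matching over the neck of a cap -/
theorem mt_cap (m : ℤ) (j : ℤ) : ∃ u, Mt (M := (mF C.kd Γ.cap).M × ℝ) ((𝓡 3).prod 𝓘(ℝ, ℝ))
    (C.pC j ⁻¹' L.S0.D ∩ Prod.fst ⁻¹' (L.S Γ.cap Λ.x).D)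
    (fun z => L.S0.L.p (C.pC j z)) (fun z => L.S0.s (C.pC j z)) (fun z => (L.S Γ.cap Λ.x).L.p z.1)
    (fun z => (L.μ m (C.pC j z) : ℂ) • (L.S Γ.cap Λ.x).s z.1) u (Prod.snd ⁻¹' II j j) := by
  have k := ((L.hm0.mt (D := C.S.n ⁻¹' L.S0.D ∩ Prod.fst ⁻¹' (L.S Γ.cap Λ.x).D) (s := fun z => L.S0.s (C.S.n z))
    (s' := fun z => (L.S Γ.cap Λ.x).s z.1) (fun _ _ k => L.ok0.fr.iso _ k.1)
    fun _ _ k => (L.sf _ _).ok.fr.iso _ k.2).comp (J := (𝓡 3).prod 𝓘(ℝ, ℝ)) (V := Prod.snd ⁻¹' II j j)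
    (f := fun z : (mF C.kd Γ.cap).M × ℝ => (z.1, z.2 + -((j : ℝ) + 1 / 2)))
    ⟨fun _ _ => contMDiffAt_fst.prodMk (contMDiffAt_snd.add contMDiffAt_const),
      fun z k => And.intro (by linarith [k.1]) (by linarith [k.2])⟩)
  refine ⟨_, k.toUni.phase (g := fun z => L.θ z.1 ^ m) fun z _ => cm_zpow ((L.hθ _).comp z contMDiffAt_fst) m,
    fun z a b => ?_⟩
  rw [Matrix.smul_mul, C.pC_apply, k.eq z a b, csmul_smul, LCx.μ, C.S.oe.inj.extend_apply]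

variable (L R) in
/-- the section of the charts that begin at `x` -/
def sg (n : Wt) (g : X.P.M → Matrix lam Unit ℂ) (x : ℤ) (z : X.P.M) : Matrix lam Unit ℂ :=
  (((L.nu R n x z)⁻¹ : Circle) : ℂ) • g z

theorem sg_one {g : X.P.M → Matrix lam Unit ℂ} {z : X.P.M} (h : L.nu R n x z = 1) : sg L R n g x z = g z := by
  rw [sg, h, inv_one, Circle.coe_one, one_smul]

variable (L R) in
/-- the condition in the chart of a range -/
abbrev CB (n : Wt) (p : X.P.M → Matrix lam lam ℂ) (g : X.P.M → Matrix lam Unit ℂ) (h : w.Rg x y) : Prop :=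
  TL _ _ (wz w n x y) (fun a => p (R.B h a)) (fun a => sg L R n g x (R.B h a)) (C.tm ⁻¹' II x y)

variable (L) in
/-- the condition in a cap -/
abbrev CC (m : ℤ) (p : X.P.M → Matrix lam lam ℂ) (g : X.P.M → Matrix lam Unit ℂ) {J : Set ℝ}
    (k : TIso (C.cap j) X J) : Prop :=
  ∃ u, Mt C.X0.I L.S0.D L.S0.L.p L.S0.s (fun a => p (k a)) (fun a => (L.μ m a : ℂ) • g (k a)) u ((C.cap j).τ ⁻¹' J)

variable {p : X.P.M → Matrix κ κ ℂ} {g : X.P.M → Matrix κ Unit ℂ} {q : X.P.M → Matrix lam lam ℂ}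
  {g' : X.P.M → Matrix lam Unit ℂ}

theorem CB.unit {h : w.Rg x y} (H : CB L R n p g h) {z : X.P.M} (hz : X.τ z ∈ II x y) (k : z ∈ Db R h) :
    PIso (g z) 1 (p z) := by
  obtain ⟨a, b, rfl⟩ := (R.B h).surj hz
  have t : C.tm a ∈ II x y := (show C.tm a = _ from b) ▸ hz
  exact csmul_inv _ (g _) ▸ piso_smul (H.fr.iso a ⟨t, (mem_imT _ t).1 k⟩) _

theorem CC.unit {m : ℤ} {J : Set ℝ} {k : TIso (C.cap j) X J} (H : CC L m p g k) {z : X.P.M} (hz : X.τ z ∈ J)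
    (o : z ∈ im k.φ L.S0.D) : PIso (g z) 1 (p z) := by
  obtain ⟨a, b, rfl⟩ := k.surj hz
  obtain ⟨u, H⟩ := H
  have c : (C.cap j).τ a ∈ J := b ▸ hz
  have t := (mem_imT k c).1 o
  exact inv_csmul _ (g _) ▸ piso_smul (H.piso c t (L.ok0.fr.iso a t)) _

theorem key_ov (hn : n.OK w Λ) {h : w.Rg x y} {h' : w.Rg x' y'} (o : w.Ov x y x' y') (H : CB L R n p g h)
    (H' : CB L R n q g' h') : ∃ u, Mt X.P.I (Db R h) p g q g' u (X.τ ⁻¹' II x y ∩ X.τ ⁻¹' II x' y') := by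
  rcases (X.τ ⁻¹' II x y ∩ X.τ ⁻¹' II x' y').eq_empty_or_nonempty with e | ⟨z, hz⟩
  · exact ⟨0, mt_empty (by simp [e])⟩
  have v := o.hull h h' hz.1 hz.2
  obtain ⟨u, k⟩ := mt_B (d := 0) (ψ := id) h h' ((C.T_eq hw v (min_le_left _ _) (lt_max_of_lt_left h.lt)).trans
    (C.T_eq hw v (min_le_right _ _) (lt_max_of_lt_right h'.lt)).symm)
    (((isOpen_II x y).preimage X.cont).inter ((isOpen_II x' y').preimage X.cont)) inter_subset_left
    (fun a b c => ⟨_, (R.nr_of_eq h h' o b ((R.B h').symm.mem c.2) ((R.B h').apply_symm c.2).symm).cast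
      Int.cast_zero.symm, (R.B h').symm.mem c.2, (R.B h').apply_symm c.2⟩)
    (fun a b c _ => ⟨max x x', min y y', by
      have c' : C.tm a ∈ II x' y' := (show _ = C.tm a from (R.B h).tm a b) ▸ c.2
      push_cast
      exact ⟨max_lt (II_sub _ _ b).1 (II_sub _ _ c').1, by
        rw [← min_add_add_right]; exact lt_min (II_sub _ _ b).2 (II_sub _ _ c').2⟩,
      fun j e e' => by rw [add_zero]; exact ov_bw hn h h' o (by omega) (by omega) (by omega) (by omega)⟩) H H'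
  exact ⟨u, (k.smul (L.nu R n x)).congr fun z a _ => ⟨(csmul_inv _ _).symm, by
    rw [LCx.nu_ov h h' o a.1 a.2]; exact (csmul_inv _ _).symm⟩⟩

theorem nu_jn (h' : w.Rg j y) {J : Γ.J} (e : w.s j = .jn J) (a : (mF C.kd (Γ.src J)).M) (ht : t ∈ II j j) :
    L.nu R n j (R.B h' (C.pR (τ := Γ.tgt J) hw h' (congrArg Sl.r e) (C.g J a, t))) = L.γ J (n.nl j) (n.nr j) a :=
  LCx.Nu.eq ⟨J, e, h'.lo, h'.lt.trans_le h'.hi, a, t, ht, R.P_eq h' le_rfl h'.lt _ _ _ _ ht, rfl⟩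

theorem key_jn (hn : n.OK w Λ) {h : w.Rg x j} {h' : w.Rg j y} {J : Γ.J} (e : w.s j = .jn J) (H : CB L R n p g h)
    (H' : CB L R n q g' h') : ∃ u, Mt X.P.I (Db R h ∩ Db R h') p g q g' u (X.τ ⁻¹' II j j) := by
  have i1 := II_mono (x' := j) (y' := j) h.lt.le le_rfl
  have i2 := II_mono (x' := j) (y' := j) le_rfl h'.lt.le
  obtain ⟨m, k⟩ := mark_pt (τ := Γ.src J) hw h h.lt.le le_rfl
    ((congrArg (·.l.1) e).symm.trans (h.kn_l hw h.lt le_rfl))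
    ((Shp.bw_ge h.lt le_rfl).trans (congrArg (·.l.2) e)) (bn_ge h.lt le_rfl) (L.sf _ _) H
  obtain ⟨m', k'⟩ := mark_pt (τ := Γ.tgt J) hw h' le_rfl h'.lt.le (congrArg (·.r.1) e).symm
    ((Shp.bw_le le_rfl).trans (congrArg (·.r.2) e)) (bn_le le_rfl) (L.sf _ _) H'
  have t := fun z (b : z.2 ∈ II j j) => (C.pL (τ := Γ.src J) hw h (congrArg Sl.l e)).mem (x := z) b
  have t' := fun z (b : z.2 ∈ II j j) => (C.pR (τ := Γ.tgt J) hw h' (congrArg Sl.r e)).mem (x := z) b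
  refine ⟨_, mt_T ((C.pL (τ := Γ.src J) hw h (congrArg Sl.l e)).trans ((R.B h).restr (isOpen_II j j) i1))
    (((mt_jn (hn.jn j J (h.lo.trans_lt h.lt) (h'.lt.trans_le h'.hi) e) k k' fun z b c =>
      H'.fr.iso _ ⟨i2 (t' z b), (pt_off L hw h' _ _ _ b).2 c⟩).congr_p (fun _ _ => rfl)
      fun z b => congrArg q (R.jn h h' e z.1 z.2 b).symm).congr fun z b _ => ⟨(sg_one
        (LCx.nu_lt h.lt ((R.B h).tm _ (i1 (t z b)) ▸ t z b))).symm, ?_⟩) subset_rfl fun z b _ => ⟨b, fun c =>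
      ⟨(pt_off L hw h _ _ _ b).1 ((mem_imT _ (i1 (t z b))).1 c.1), (pt_off L hw h' _ _ _ (q := (_, _)) b).1
        ((mem_imT _ (i2 (t' (_, _) b))).1 (R.jn h h' e z.1 z.2 b ▸ c.2))⟩⟩⟩
  rw [← nu_jn (R := R) h' e z.1 b]
  exact (congrArg g' (R.jn h h' e z.1 z.2 b).symm).trans (csmul_inv _ _).symm

theorem key_cap {m : ℤ} {J : Set ℝ} {k : TIso (C.cap j) X J} (hJ : II j j ⊆ J) {h : w.Rg x y} (h1 : x ≤ j)
    (h2 : j ≤ y) (e : Γ.cap.1 = w.kn x) (e' : w.bw x y j = Γ.cap.2) (hi : n.bn x y j = Λ.x)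
    (hk : ∀ a, ∀ t ∈ II j j, R.B h (C.pt hw h j Γ.cap e e' (a, t)) = k (C.pC j (a, t)))
    (hν : ∀ z, X.τ z ∈ II j j → L.nu R n x z = 1) (H : CC L m p g k) (H' : CB L R n q g' h) :
    ∃ u, Mt X.P.I (im k.φ L.S0.D ∩ Db R h) p g q g' u (X.τ ⁻¹' II j j) := by
  obtain ⟨u, H⟩ := H
  obtain ⟨v, k1⟩ := mt_cap (L := L) m j
  obtain ⟨m', k'⟩ := mark_pt hw h h1 h2 e e' hi (L.sf _ _) H'
  have t := fun z (b : z.2 ∈ II j j) => (C.pt hw h j Γ.cap e e').mem (x := z) b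
  have t' := fun z (b : z.2 ∈ II j j) => (C.pC j).mem (x := z) b
  have i1 := II_mono h1 h2
  have k2 := ((((H.symm fun a _ c => L.ok0.fr.iso a c).comp (mp_T (C.pC j) fun z b => ⟨b, hJ (t' z b)⟩)).mono
    subset_rfl fun _ c => c.2.1).trans k1).trans (((k'.symm fun z b c => H'.fr.iso _
      ⟨i1 (t z b), (pt_off L hw h _ _ _ b).2 c⟩).mono subset_rfl fun _ c => c.2.2).smul fun z => L.μ m (C.pC j z))
  exact ⟨_, mt_T ((C.pC j).trans (k.restr (isOpen_II j j) hJ)) (((k2.smul fun z => (L.μ m (C.pC j z))⁻¹).congr_p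
    (fun _ _ => rfl) fun z b => congrArg q (hk z.1 z.2 b).symm).congr fun z b _ => ⟨(inv_csmul _ _).symm,
      ((inv_csmul _ _).trans ((sg_one (hν _ ((R.B h).tm _ (i1 (t z b)) ▸ t z b))).trans
        (congrArg g' (hk z.1 z.2 b)))).symm⟩) subset_rfl fun z b _ => ⟨b, fun c => ⟨(mem_imT _ (hJ (t' z b))).1 c.1,
      (pt_off L hw h _ _ _ b).1 ((mem_imT _ (i1 (t z b))).1 ((hk z.1 z.2 b).symm ▸ c.2))⟩⟩⟩

/-! ### lines with prescribed orders -/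

variable (L R) in
/-- a line with orders `n` : `g` is a unit section off the axis -/
structure WL (n : Wt) (lam : Type) [Fintype lam] where
  p : X.P.M → Matrix lam lam ℂ
  g : X.P.M → Matrix lam Unit ℂ
  ok : n.OK w Λ
  ln : (⟨p, 0⟩ : Ln X.P.E X.P.M lam).On X.P.I univ
  tl : ∀ {x y} (h : w.Rg x y), CB L R n p g h
  cL : CC L n.mL p g R.kL
  cR : CC L n.mR p g R.kR

/-- the charts of a word -/
inductive Ch (w : Shp Γ) : Type
  | B (x y : ℤ) (h : w.Rg x y)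
  | L
  | R

instance : Finite (Ch w) := by
  let f : Ch w → Option (Option (Icc w.l w.r × Icc w.l w.r)) := fun c => match c with
    | .B x y h => some (some (⟨x, h.lo, h.lt.le.trans h.hi⟩, ⟨y, h.lo.trans h.lt.le, h.hi⟩))
    | .L => none
    | .R => some none
  refine Finite.of_injective f ?_
  rintro (_ | _ | _) (_ | _ | _) e <;> simp_all [f, Subtype.ext_iff]

/-- the times of a chart -/
def Ch.J : Ch w → Set ℝ
  | .B x y _ => II x y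
  | .L => Iio (w.l + 3 / 4)
  | .R => Ioi (w.r + 1 / 4)

variable (L R) in
/-- where the section is defined -/
def Ch.D : Ch w → Set X.P.M
  | .B _ _ h => Db R h
  | .L => im R.kL.φ L.S0.D
  | .R => im R.kR.φ L.S0.D

variable (L R) in
/-- the condition in a chart -/
def Ch.Ck (n : Wt) (p : X.P.M → Matrix lam lam ℂ) (g : X.P.M → Matrix lam Unit ℂ) : Ch w → Prop
  | .B _ _ h => CB L R n p g h
  | .L => CC L n.mL p g R.kL
  | .R => CC L n.mR p g R.kR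

theorem Ch.isOpen_J : ∀ c : Ch w, IsOpen c.J
  | .B _ _ _ => isOpen_II _ _
  | .L => isOpen_Iio
  | .R => isOpen_Ioi

theorem Ch.isOpen_D : ∀ c : Ch w, IsOpen (c.D L R)
  | .B _ _ _ => isOpen_im isOpen_off
  | .L | .R => isOpen_im L.ok0.opn

theorem Ch.cl : ∀ c : Ch w, X.τ ⁻¹' c.J ⊆ closure (c.D L R)
  | .B _ _ h => imT_cl (R.B h) dense_off
  | .L => imT_cl R.kL L.ok0.dn
  | .R => imT_cl R.kR L.ok0.dn

theorem Ch.cover (hw : w.OK) (t : ℝ) : ∃ c : Ch w, t ∈ c.J := by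
  rcases Rz.cover hw t with h | h | ⟨j, h1, h2, h⟩
  exacts [⟨.L, h⟩, ⟨.R, h⟩, ⟨.B _ _ (Shp.rg_one h1 h2), h⟩]

theorem Ch.unit : ∀ {c : Ch w}, c.Ck L R n p g → ∀ z, X.τ z ∈ c.J → z ∈ c.D L R → PIso (g z) 1 (p z)
  | .B _ _ _, H, _ => CB.unit H
  | .L, H, _ | .R, H, _ => CC.unit H

theorem CB.congr {h : w.Rg x y} (H : CB L R n p g h) {u : X.P.M → Matrix lam κ ℂ}
    (hu : Uni X.P.I p q u (X.τ ⁻¹' II x y)) (e : ∀ z, X.τ z ∈ II x y → z ∈ Db R h → g' z = u z * g z) :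
    CB L R n q g' h :=
  have o := op_tm C w x y
  (H.trans o (hu.comp (mp_T (R.B h) fun _ k => ⟨k, (R.B h).mem k⟩))).congr_s o fun a k => by
    simp only [sg, e _ ((R.B h).mem k.1) ((mem_imT _ k.1).2 k.2), Matrix.mul_smul]

theorem CC.congr {m : ℤ} {J : Set ℝ} {k : TIso (C.cap j) X J} (H : CC L m p g k) {u : X.P.M → Matrix lam κ ℂ}
    (hu : Uni X.P.I p q u (X.τ ⁻¹' J)) (e : ∀ z, X.τ z ∈ J → z ∈ im k.φ L.S0.D → g' z = u z * g z) :
    CC L m q g' k :=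
  let ⟨_, H⟩ := H
  ⟨_, H.trans ⟨hu.comp (mp_T k fun _ b => ⟨b, k.mem b⟩), fun a b c => by
    rw [e _ (k.mem b) ((mem_imT _ b).2 c), Matrix.mul_smul]⟩⟩

theorem Ch.congr : ∀ {c : Ch w}, c.Ck L R n p g → ∀ {u : X.P.M → Matrix lam κ ℂ}, Uni X.P.I p q u (X.τ ⁻¹' c.J) →
    (∀ z, X.τ z ∈ c.J → z ∈ c.D L R → g' z = u z * g z) → c.Ck L R n q g'
  | .B _ _ _, H, _ => CB.congr H
  | .L, H, _ | .R, H, _ => CC.congr H

theorem exists_cc (m : ℤ) {J : Set ℝ} (k : TIso (C.cap j) X J) : ∃ (p : X.P.M → Matrix K3 K3 ℂ) (g : _),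
    CC L m p g k ∧ (⟨p, 0⟩ : Ln X.P.E X.P.M K3).On X.P.I (X.τ ⁻¹' J) :=
  have o : (⟨L.S0.L.p, 0⟩ : Ln _ _ K3).On C.X0.I univ :=
    ⟨L.ok0.ln.sm, L.ok0.ln.prj, L.ok0.ln.tr, fun _ _ => Dr59.cAt_zero, Dr59.Dg.zero⟩
  ⟨fun z => L.S0.L.p (k.symm z), fun z => (((L.μ m (k.symm z))⁻¹ : Circle) : ℂ) • L.S0.s (k.symm z),
    ⟨_, ((Mt.refl (o.mono (subset_univ _)) fun a _ c => L.ok0.fr.iso a c).congr_p (fun _ _ => rfl)
      fun a b => congrArg L.S0.L.p (k.symm_apply b)).congr fun a b _ => ⟨rfl, by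
        simp only [k.symm_apply b, csmul_inv]⟩⟩, on_comp o (mp_T k.symm fun _ b => ⟨b, trivial⟩)⟩

theorem Ch.ex (hn : n.OK w Λ) : ∀ c : Ch w, ∃ (p : X.P.M → Matrix K3 K3 ℂ) (g : _), c.Ck L R n p g ∧
    (⟨p, 0⟩ : Ln X.P.E X.P.M K3).On X.P.I (X.τ ⁻¹' c.J)
  | .B x y h => by
    have : SigmaCompactSpace (Rod53.X (C.T (w.kn x)) (wd (w.bz x y))) :=
      Orx52.sigmaCompact (C.tp w x y).P.I (C.tp w x y).P.M
    obtain ⟨p, s, k⟩ := exists_TL_wd (C.T (w.kn x)) (vch hw hn h)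
    have o := op_tm C w x y
    have k' := k.mono (subset_univ ((C.tm : C.XR w x y → ℝ) ⁻¹' II x y))
    refine ⟨fun z => p ((R.B h).symm z), fun z => (L.nu R n x z : ℂ) • s ((R.B h).symm z),
      (k'.trans o ((Mt.refl (D := ∅) (s := s) (k'.on o) (by simp)).toUni.congr_p (fun _ _ => rfl)
        fun a b => congrArg p ((R.B h).symm_apply b))).congr_s o fun a b => ?_,
      on_comp (k.on isOpen_univ) (mp_T (R.B h).symm fun _ b => ⟨b, trivial⟩)⟩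
    simp only [sg, inv_csmul, (R.B h).symm_apply b.1, (k.fr.iso a ⟨trivial, b.2⟩).left]
  | .L => exists_cc _ _
  | .R => exists_cc _ _

theorem key_L (hn : n.OK w Λ) {h : w.Rg x y} (H : CC L n.mL p g R.kL) (H' : CB L R n q g' h) :
    ∃ u, Mt X.P.I (im R.kL.φ L.S0.D ∩ Db R h) p g q g' u (X.τ ⁻¹' Iio (w.l + 3 / 4) ∩ X.τ ⁻¹' II x y) := by
  rcases h.lo.eq_or_lt with rfl | e
  · exact (key_cap Ioo_subset_Iio_self le_rfl h.lt.le (congrArg Prod.fst hw.lr).symm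
      ((Shp.bw_le le_rfl).trans (congrArg Prod.snd hw.lr)) ((bn_le le_rfl).trans hn.sl) (R.cL h)
      (fun _ _ => LCx.nu_one (.inl ⟨_, hw.sl⟩)) H H').imp fun _ k => k.mono (fun _ b => ⟨b.2.1, b.1⟩) fun _ b => b.2
  · exact ⟨0, mt_empty fun z k => (II_le k.2 (x' := x) ⟨k.2.1, k.1⟩).not_gt e⟩

theorem key_R (hn : n.OK w Λ) {h : w.Rg x y} (H : CC L n.mR p g R.kR) (H' : CB L R n q g' h) :
    ∃ u, Mt X.P.I (im R.kR.φ L.S0.D ∩ Db R h) p g q g' u (X.τ ⁻¹' Ioi (w.r + 1 / 4) ∩ X.τ ⁻¹' II x y) := by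
  rcases h.hi.eq_or_lt with rfl | e
  · exact (key_cap Ioo_subset_Ioi_self h.lt.le le_rfl
      ((congrArg Prod.fst hw.rl).symm.trans (h.kn_l hw h.lt le_rfl))
      ((Shp.bw_ge h.lt le_rfl).trans (congrArg Prod.snd hw.rl)) ((bn_ge h.lt le_rfl).trans hn.sr) (R.cR h)
      (fun _ => LCx.nu_lt h.lt) H H').imp fun _ k => k.mono (fun _ b => ⟨b.1, b.2.2⟩) fun _ b => b.2
  · exact ⟨0, mt_empty fun z k => (II_le (y := y) ⟨k.1, k.2.2⟩ k.2).not_gt e⟩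

theorem key_cc {m : ℤ} {J : Set ℝ} {k : TIso (C.cap j) X J} (H : CC L m p g k) (H' : CC L m q g' k) :
    ∃ u, Mt X.P.I (im k.φ L.S0.D) p g q g' u (X.τ ⁻¹' J) :=
  let ⟨_, H⟩ := H
  let ⟨_, H'⟩ := H'
  ⟨_, mt_T k ((((H.symm fun a _ c => L.ok0.fr.iso a c).trans H').smul fun a => (L.μ m a)⁻¹).congr
    fun _ _ _ => ⟨(inv_csmul _ _).symm, (inv_csmul _ _).symm⟩) subset_rfl fun _ b _ => ⟨b, (mem_imT _ b).1⟩⟩

theorem Ch.key (hn : n.OK w Λ) (c c' : Ch w) (H : c.Ck L R n p g) (H' : c'.Ck L R n q g') :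
    ∃ u, Mt X.P.I (c.D L R ∩ c'.D L R) p g q g' u (X.τ ⁻¹' c.J ∩ X.τ ⁻¹' c'.J) := by
  have lt : (w.l : ℝ) + 1 ≤ w.r := by exact_mod_cast hw.lt
  have dj : ∀ z, X.τ z < w.l + 3 / 4 → w.r + 1 / 4 < X.τ z → False := fun _ _ _ => by linarith
  have sy : (∃ u, Mt X.P.I (c'.D L R ∩ c.D L R) q g' p g u (X.τ ⁻¹' c'.J ∩ X.τ ⁻¹' c.J)) →
      ∃ u, Mt X.P.I (c.D L R ∩ c'.D L R) p g q g' u (X.τ ⁻¹' c.J ∩ X.τ ⁻¹' c'.J) := fun ⟨_, k⟩ =>
    ⟨_, (k.symm fun z a b => Ch.unit H' z a.1 b.1).mono (inter_comm _ _).le fun _ a => a.2.symm⟩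
  rcases c with ⟨x, y, h⟩ | _ | _ <;> rcases c' with ⟨x', y', h'⟩ | _ | _
  · by_cases o : w.Ov x y x' y'
    · exact (key_ov hn o H H').imp fun _ k => k.mono subset_rfl fun _ a => a.2.1
    · simp only [Shp.Ov, Shp.rod_iff, not_and_or, not_forall, not_not, exists_prop] at o
      rcases o with ⟨rfl, J, e⟩ | ⟨rfl, J, e⟩
      · exact (key_jn hn e H H').imp fun _ k => k.mono (fun _ a => ⟨a.2.1, a.1.2⟩) fun _ a => a.2
      · exact sy ((key_jn hn e H' H).imp fun _ k => k.mono (fun _ a => ⟨a.2.1, a.1.2⟩) fun _ a => a.2)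
  · exact sy (key_L hn H' H)
  · exact sy (key_R hn H' H)
  · exact key_L hn H H'
  · exact (key_cc H H').imp fun _ k => k.mono inter_subset_left fun _ a => a.2.1
  · exact ⟨0, mt_empty fun z k => dj z k.1 k.2⟩
  · exact key_R hn H H'
  · exact ⟨0, mt_empty fun z k => dj z k.2 k.1⟩
  · exact (key_cc H H').imp fun _ k => k.mono inter_subset_left fun _ a => a.2.1

variable (L R) in
/-- **existence of the line of a weighted word** -/
theorem exists_WL (hn : n.OK w Λ) : Nonempty (WL L R n K3) := by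
  classical
  choose q s h1 h2 using Ch.ex (L := L) (R := R) hn
  have o := fun c : Ch w => c.isOpen_J.preimage X.cont
  obtain ⟨p, u, k1, k2⟩ := exists_atl (X := X.mf) (Fintype.equivFinOfCardEq (by simp)).symm.toEmbedding o
    (Ch.isOpen_D (L := L) (R := R)) Ch.cl (fun z => Ch.cover hw _) (fun c => Ch.unit (h1 c)) h2
    fun c c' => (Ch.key hn c' c (h1 _) (h1 _)).imp fun _ k => k.mono (inter_comm _ _).le fun _ a => a.2.symm
  let g : X.P.M → Matrix K3 Unit ℂ := fun z =>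
    if h : ∃ c : Ch w, X.τ z ∈ c.J ∧ z ∈ c.D L R then u h.choose z * s h.choose z else 0
  have k : ∀ c : Ch w, c.Ck L R n p g := fun c => Ch.congr (h1 c) (k1 c) fun z a b => by
    have h : ∃ c : Ch w, X.τ z ∈ c.J ∧ z ∈ c.D L R := ⟨c, a, b⟩
    exact (dif_pos h).trans (k2 _ _ z h.choose_spec.1 a h.choose_spec.2 b)
  exact ⟨p, g, hn, on_of_loc fun z => let ⟨c, e⟩ := Ch.cover hw (X.τ z); ⟨_, e, (k1 c).on (o c) (h2 c)⟩,
    fun h => k (.B _ _ h), k .L, k .R⟩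

namespace WL

variable (W : WL L R n κ)

theorem ck : ∀ c : Ch w, c.Ck L R n W.p W.g
  | .B _ _ h => W.tl h
  | .L => W.cL
  | .R => W.cR

/-- transport along an isometry -/
def push {u : X.P.M → Matrix lam κ ℂ} (hu : Uni X.P.I W.p q u univ) : WL L R n lam where
  p := q
  g z := u z * W.g z
  ok := W.ok
  ln := hu.on isOpen_univ W.ln
  tl h := (W.tl h).congr (hu.mono (subset_univ _)) fun _ _ _ => rfl
  cL := W.cL.congr (hu.mono (subset_univ _)) fun _ _ _ => rfl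
  cR := W.cR.congr (hu.mono (subset_univ _)) fun _ _ _ => rfl

end WL

end Crest.Agent.X212.Line51
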