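import Crest.Agent.X212.Line51.Og
import Crest.Agent.X212.Rod53.Bnd
import Crest.Agent.X212.Rod53.Fill

/-!
# X212 / Line51, part Nek (helper51): framed lines on the cross-sections of necks, canonical markings

* `PL J f m p s O` : orders `m` along a map `f` to a rod manifold; `TL.pl`, `PL.mt`, `exists_PL`, `PL.exists_conn`;
* `Sec`, `Sec.OK`, `Sec.Mk` : framed lines on cross-sections and markings;
* `secS`, `secR`, `secL` (flat) and `mk_sb`, `mk_rb`, `mk_lb`; fillings: `SF`, `exists_SF`, `SF.exists_flat`,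
  `secK`, `SF.mark`.
-/

set_option autoImplicit false
set_option linter.unusedSectionVars false

open Set Filter Topology Function Matrix Metric
open scoped ContDiff Manifold Kronecker
open Crest.Agent.R208 Crest.Agent.R208.F Crest.Agent.R208.FI Crest.Agent.X212.Dr59
  Crest.Agent.X212.Pj41
open Crest.Agent.X212.Rod53 hiding Uni X
open Crest.Agent.X212.Glue52 (dir)
open Crest.Agent.X212.Cyl58 (IsOE)

noncomputable section

namespace Crest.Agent.X212.Line51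

variable {EN HN : Type} [NormedAddCommGroup EN] [NormedSpace ℝ EN] [FiniteDimensional ℝ EN]
  [TopologicalSpace HN] {IN : ModelWithCorners ℝ EN HN} [IN.Boundaryless]
  {N : Type} [TopologicalSpace N] [ChartedSpace HN N] [IsManifold IN ∞ N] [T2Space N]
  {EN' HN' : Type} [NormedAddCommGroup EN'] [NormedSpace ℝ EN'] [FiniteDimensional ℝ EN']
  [TopologicalSpace HN'] {IN' : ModelWithCorners ℝ EN' HN'} [IN'.Boundaryless]
  {N' : Type} [TopologicalSpace N'] [ChartedSpace HN' N'] [IsManifold IN' ∞ N'] [T2Space N']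
  {E H : Type*} [NormedAddCommGroup E] [NormedSpace ℝ E] [FiniteDimensional ℝ E] [TopologicalSpace H]
  {J : ModelWithCorners ℝ E H} [J.Boundaryless] {W : Type*} [TopologicalSpace W] [ChartedSpace H W]
  [IsManifold J ∞ W]
  {E' H' : Type*} [NormedAddCommGroup E'] [NormedSpace ℝ E'] [FiniteDimensional ℝ E'] [TopologicalSpace H']
  {J' : ModelWithCorners ℝ E' H'} {W' : Type*} [TopologicalSpace W'] [ChartedSpace H' W']
  {T : Tb IN N} {T' : Tb IN' N'} {v v' : ℝ → Z2} {m m' : ℝ → ℤ} {κ l : Type*} [Fintype κ] [Fintype l]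
  {a b η : Z2} {c t : ℝ} {i j : ℤ}

/-- the order along `a` is `i` near the time `t` -/
def Oa (v : ℝ → Z2) (m : ℝ → ℤ) (a : Z2) (i : ℤ) (t : ℝ) : Prop := ∀ η, dot η a = i → Rep v m η t

theorem oa_of (h : ∀ᶠ s in 𝓝 t, v s = a ∧ m s = i ∨ v s = -a ∧ m s = -i) : Oa v m a i t :=
  fun η e => h.mono fun s k => by
    rcases k with k | k <;> rw [k.1, k.2]
    exacts [e, by rw [dot_neg', e]]

theorem Oa.neg (h : Oa v m a i t) : Oa v m (-a) (-i) t :=
  fun η e => h η (by rwa [dot_neg', neg_inj] at e)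

theorem oa_wd {s : ℤ → Z2} {n : ℤ → ℤ} {k : ℤ} (ht : t ∈ Ioo (k : ℝ) (k + 1)) :
    Oa (wd s) (wm s n) (s k) (n k) t :=
  oa_of (eventually_of_mem (isOpen_Ioo.mem_nhds ht) fun _ h => Or.inl ⟨wd_of_mem h, wm_of_mem h⟩)

section PL

variable (J) in
/-- a line with a unit section off the axis of orders `m`, along a map to a rod manifold -/
structure PL (f : W → Rod53.X T v) (m : ℝ → ℤ) (p : W → Matrix κ κ ℂ) (s : W → Matrix κ Unit ℂ)
    (O : Set W) : Prop where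
  fr : Uni J (fun _ => 1) p s (O ∩ f ⁻¹' off T v)
  ax : ∀ y ∈ O, f y ∉ off T v → ∀ η, Rep v m η (T.time v (f y)) →
    Og J (f ⁻¹' off T v) p s (fun z => chi T v η (f z)) y

variable {f : W → Rod53.X T v} {f' : W → Rod53.X T' v'} {O : Set W} {p : W → Matrix κ κ ℂ}
  {s : W → Matrix κ Unit ℂ} {q : W → Matrix l l ℂ} {s' : W → Matrix l Unit ℂ} {y : W}

theorem Mp.ev {M : Type*} [TopologicalSpace M] [ChartedSpace H' M] {U : Set M} {g : W → M} (hO : IsOpen O)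
    (h : Mp J J' O U g) (hy : y ∈ O) : ∀ᶠ z in 𝓝 y, ContMDiffAt J J' ∞ g z :=
  eventually_of_mem (hO.mem_nhds hy) h.sm

theorem Mp.isOpen {M : Type*} [TopologicalSpace M] [ChartedSpace H' M] {U V : Set M} {g : W → M}
    (hO : IsOpen O) (h : Mp J J' O U g) (hV : IsOpen V) : IsOpen (O ∩ g ⁻¹' V) :=
  ContinuousOn.isOpen_inter_preimage (fun y hy => (h.sm y hy).continuousAt.continuousWithinAt) hO hV

theorem TL.pl {U : Set (Rod53.X T v)} {p : Rod53.X T v → Matrix κ κ ℂ} {s : Rod53.X T v → Matrix κ Unit ℂ}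
    (hU : IsOpen U) (h : TL T v m p s U) (hO : IsOpen O) (hf : Mp J (𝓡 4) O U f) :
    PL J f m (fun y => p (f y)) (fun y => s (f y)) O :=
  ⟨h.fr.comp ⟨fun y hy => hf.sm y hy.1, fun _ hy => ⟨hf.maps hy.1, hy.2⟩⟩, fun _ hy k _ e =>
    Og.comp (I := 𝓡 4) (h.ord hU (hf.maps hy) (Or.inl (tor_of_not_off k)) fun _ => e) (Mp.ev hO hf hy)⟩

theorem PL.comp {g : W' → W} {V : Set W'} (h : PL J f m p s O)
    (hg : ∀ y ∈ V, g y ∈ O ∧ ∀ᶠ z in 𝓝 y, ContMDiffAt J' J ∞ g z) :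
    Uni J' (fun _ => 1) (fun y => p (g y)) (fun y => s (g y)) (V ∩ (f ∘ g) ⁻¹' off T v) ∧
    ∀ y ∈ V, f (g y) ∉ off T v → ∀ η, Rep v m η (T.time v (f (g y))) → Og J' ((f ∘ g) ⁻¹' off T v)
      (fun y => p (g y)) (fun y => s (g y)) (fun z => chi T v η (f (g z))) y :=
  ⟨h.fr.comp ⟨fun y hy => (hg y hy.1).2.self_of_nhds, fun y hy => ⟨(hg y hy.1).1, hy.2⟩⟩,
    fun y hy k η e => (h.ax _ (hg y hy).1 k η e).comp (hg y hy).2⟩

theorem PL.og0 (hO : IsOpen O) (h : PL J f m p s O) (hf : Mp J (𝓡 4) O univ f) (hy : y ∈ O)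
    (k : f y ∈ off T v) {D : Set W} : Og J D p s 1 y := .of_fr (Mp.isOpen hO hf isOpen_off) h.fr ⟨hy, k⟩

/-- **comparison along two maps with the same characters** -/
theorem PL.mt (hO : IsOpen O) (h : PL J f m p s O) (h' : PL J f' m' q s' O) (hf : Mp J (𝓡 4) O univ f)
    (hf' : Mp J (𝓡 4) O univ f') (hD : O ⊆ closure (f ⁻¹' off T v))
    (e : ∀ y ∈ O, f' y ∈ off T' v' ↔ f y ∈ off T v)
    (e' : ∀ η, ∀ y ∈ O, f y ∈ off T v → chi T' v' η (f' y) = chi T v η (f y))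
    (hx : ∀ y ∈ O, f y ∉ off T v → ∃ η, Rep v m η (T.time v (f y)) ∧ Rep v' m' η (T'.time v' (f' y))) :
    ∃ u, Mt J (f ⁻¹' off T v) p s q s' u O := exists_mt hO hD fun y hy => by
  by_cases k : f y ∈ off T v
  · exact ⟨1, h.og0 hO hf hy k, h'.og0 hO hf' hy ((e y hy).2 k)⟩
  · obtain ⟨η, a, b⟩ := hx y hy k
    exact ⟨_, h.ax y hy k η a, (h'.ax y hy (fun o => k ((e y hy).1 o)) η b).congr EventuallyEq.rfl
      (eventually_of_mem (hO.mem_nhds hy) fun z hz o => ⟨(e z hz).2 o, rfl, (e' η z hz o).symm⟩)⟩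

theorem ev_csm_comp {η' : Z2} (hf : ∀ᶠ z in 𝓝 y, ContMDiffAt J (𝓡 4) ∞ f z) (ht : f y ∈ T.tor v)
    (h : f y ∉ off T v → ∀ᶠ t in 𝓝 (T.time v (f y)), dot (η - η') (v t) = 0) :
    ∀ᶠ z in 𝓝 y, CSm J (fun z => chi T v (η - η') (f z)) z ∧
      (z ∈ f ⁻¹' off T v → chi T v η (f z) = chi T v (η - η') (f z) * chi T v η' (f z)) := by
  filter_upwards [hf.self_of_nhds.continuousAt.eventually (ev_csm ht h), hf] with z k1 k2
  exact ⟨k1.comp z k2, fun o => by rw [← chi_add o, sub_add_cancel]⟩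

/-- **existence** -/
theorem exists_PL [T2Space W] [SigmaCompactSpace W] (hf : ContMDiff J (𝓡 4) ∞ f) (hD : Dense (f ⁻¹' off T v))
    {A : Bool → Set ℝ} (hA : ∀ c, IsOpen (A c)) (hc : ∀ y, f y ∉ off T v → ∃ c, T.time v (f y) ∈ A c)
    {e : Bool → Z2} (h : ∀ c, ∀ t ∈ A c, dot (e c) (v t) = m t) :
    ∃ (p : W → Matrix (Option Bool) (Option Bool) ℂ) (s : W → Matrix (Option Bool) Unit ℂ),
      PL J f m p s univ ∧ (⟨p, 0⟩ : Ln E W _).On J univ := by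
  let U : Option Bool → Set W := fun i => f ⁻¹' i.elim (off T v) fun c => T.tor v ∩ T.time v ⁻¹' A c
  let e' : Option Bool → Z2 := fun i => i.elim 0 e
  have hU : ∀ i, IsOpen (U i) := by
    rintro (_ | c)
    exacts [isOpen_off.preimage hf.continuous,
      (T.isOpen_tor.inter ((hA c).preimage T.continuous_time)).preimage hf.continuous]
  have h2 : ∀ i, ∀ x ∈ U i, f x ∉ off T v → Rep v m (e' i) (T.time v (f x)) := by
    rintro (_ | c) x hx k
    exacts [absurd hx k, eventually_of_mem ((hA c).mem_nhds hx.2) (h c)]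
  have h3 : ∀ x, ∃ i, x ∈ U i := fun x => (Classical.em _).elim (fun k => ⟨none, k⟩) fun k =>
    let ⟨c, a⟩ := hc x k; ⟨some c, tor_of_not_off k, a⟩
  have ev := fun y => Eventually.of_forall (f := 𝓝 y) fun z => hf z
  obtain ⟨p, s, k⟩ := exists_og (I := J) hU h3 hD (g := fun i z => chi T v (e' i) (f z))
    fun i j x hi hj => by
      by_cases o : f x ∈ T.tor v
      · have := ev_csm_comp (ev x) o fun k => (h2 j x hj k).sub_zero (h2 i x hi k)
        exact ⟨_, this.self_of_nhds.1, this.mono fun _ a => a.2⟩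
      · obtain rfl : i = none := by rcases i with _ | i; exacts [rfl, absurd hi.1 o]
        obtain rfl : j = none := by rcases j with _ | j; exacts [rfl, absurd hj.1 o]
        exact ⟨1, contMDiffAt_const, Eventually.of_forall fun _ _ => (one_mul _).symm⟩
  refine ⟨p, s, ⟨⟨fun x hx => (k none x hx.2).msm ((hU none).mem_nhds hx.2) ?_,
    fun x hx => (k none x hx.2).piso.self_of_nhds hx.2⟩, fun x _ o η r => ?_⟩,
    on_of_og fun x _ => let ⟨i, a⟩ := h3 x; ⟨_, k i x a⟩⟩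
  · simp only [e', Option.elim, chi_zero]
    exact contMDiffAt_const
  · obtain ⟨i, a⟩ := h3 x
    exact (k i x a).change (ev_csm_comp (ev x) (tor_of_not_off o) fun _ => (h2 i x a o).sub_zero r)

/-- **connections with a pulled back potential** -/
theorem PL.exists_conn (h : PL J f m p s univ) {U : Set (Rod53.X T v)} (hf : Mp J (𝓡 4) univ U f)
    (hD : Dense (f ⁻¹' off T v)) {α : Rod53.X T v → Ext E4} (hα : Pot T v m α U) :
    ∃ a, (⟨p, a⟩ : Ln E W κ).On J univ ∧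
      (⟨p, a⟩ : Ln E W κ).Fr J s (pm J (𝓡 4) f α) (univ ∩ f ⁻¹' off T v) := by
  have cf : Continuous f := continuous_iff_continuousAt.2 fun y => (hf.sm y trivial).continuousAt
  refine exists_conn_og isOpen_univ hD (isOpen_off.preimage cf) fun y _ => ?_
  have hy := hf.maps (mem_univ y)
  by_cases k : f y ∈ off T v
  · exact ⟨1, _, h.og0 isOpen_univ (hf.mono subset_rfl (subset_univ _)) trivial k,
      SmAt.pm (hf.sm y trivial) (hα.sm _ ⟨hy, k⟩), (hα.dg.pm (W := {y}) (by rintro _ rfl; exact ⟨hy, k⟩)) y rfl,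
      Eventually.of_forall fun _ _ => ⟨contMDiffAt_const, by simp⟩⟩
  · obtain ⟨η, β, a1, a2, a3, a4⟩ := hα.ax _ hy k
    refine ⟨_, pm J (𝓡 4) f β, h.ax y trivial k η a1, SmAt.pm (hf.sm y trivial) a2,
      (Dg.pm (U := {f y}) (W := {y}) (by rintro _ rfl; exact a3) (by rintro _ rfl; rfl)) y rfl, ?_⟩
    filter_upwards [cf.continuousAt.eventually a4,
      cf.continuousAt.eventually (T.isOpen_tor.mem_nhds (tor_of_not_off k))] with z b1 b2 o
    refine ⟨(csm_off b2 o).comp z (hf.sm z trivial), ?_⟩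
    rw [pm_congr_right (b := β + ang (𝓡 4) (chi T v η)) (b1 o), pm_add, Pi.add_apply,
      pm_ang (csm_off b2 o) ((hf.sm z trivial).mdifferentiableAt (by simp))]
    rfl

theorem TL.mk_const {U : Set (Rod53.X T v)} {p : Rod53.X T v → Matrix κ κ ℂ}
    {s : Rod53.X T v → Matrix κ Unit ℂ} (hU : IsOpen U) (h : TL T v m p s U) {g : Rod53.X T v → Circle}
    (hg : TL T v m (fun _ => 1) (sc g) U) {e : Matrix l Unit ℂ} {p₀ : Matrix l l ℂ} (he : PIso e 1 p₀)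
    (hf : Mp J (𝓡 4) O U f) : ∃ u, Mt J (f ⁻¹' off T v) (fun y => p (f y)) (fun y => s (f y))
      (fun _ => p₀) (fun y => e * sc g (f y)) u O := by
  obtain ⟨S, h1, h2⟩ : ∃ S : Rod53.X T v → Matrix κ Unit ℂ, Uni (𝓡 4) (fun _ => 1) p S U ∧
    ∀ x ∈ U, x ∈ off T v → S x * sc g x = s x := h.exists_fr hU hg
  have k := h1.comp hf
  exact ⟨fun y => e * (S (f y))ᴴ, ⟨fun y hy => (MSm.const _).mul (k.sm y hy).ct,
    fun y hy => (k.iso y hy).symm.trans he⟩, fun y hy o => by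
      rw [← h2 _ (hf.maps hy) o, Matrix.mul_assoc, ← Matrix.mul_assoc _ (S _), (k.iso y hy).src,
        Matrix.one_mul]⟩

end PL

/-! ### framed lines on cross-sections -/

/-- a line with a section over `D` -/
structure Sec (E : Type*) [AddCommGroup E] [Module ℝ E] (Y κ : Type*) where
  D : Set Y
  L : Ln E Y κ
  s : Y → Matrix κ Unit ℂ

namespace Sec

variable (J)
variable (S : Sec E W κ)

structure OK : Prop where
  opn : IsOpen S.D
  dn : Dense S.D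
  ln : S.L.On J univ
  fr : Uni J (fun _ => 1) S.L.p S.s S.D

/-- a marking that matches the sections -/
abbrev Mk (p : W × ℝ → Matrix l l ℂ) (s : W × ℝ → Matrix l Unit ℂ) (u : W × ℝ → Matrix κ l ℂ)
    (O : Set (W × ℝ)) : Prop :=
  Mt (J.prod 𝓘(ℝ, ℝ)) (Prod.fst ⁻¹' S.D) p s (fun q => S.L.p q.1) (fun q => S.s q.1) u O

/-- the trivial line -/
def cst (D : Set W) (e : Matrix κ Unit ℂ) (g : W → Circle) : Sec E W κ :=
  ⟨D, ⟨fun _ => e * eᴴ, 0⟩, fun y => e * sc g y⟩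

variable {J S}

theorem OK.dn' (h : S.OK J) : Dense (Prod.fst ⁻¹' S.D : Set (W × ℝ)) := h.dn.preimage isOpenMap_fst

theorem OK.op' (h : S.OK J) : IsOpen (Prod.fst ⁻¹' S.D : Set (W × ℝ)) := h.opn.preimage continuous_fst

theorem piso_unit {e : Matrix κ Unit ℂ} (he : eᴴ * e = 1) : PIso e 1 (e * eᴴ) := ⟨he, rfl, Matrix.mul_one _⟩

theorem ok_cst {D : Set W} (h : IsOpen D) (h' : Dense D) {e : Matrix κ Unit ℂ} (he : eᴴ * e = 1)
    {g : W → Circle} (hg : ∀ y ∈ D, CSm J g y) : (cst D e g : Sec E W κ).OK J :=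
  ⟨h, h', on_of_og fun _ _ => ⟨g, Og.const (D := D) (piso_unit he)⟩,
    fun y hy => (MSm.const _).mul (msm_sc (hg y hy)), fun _ _ => piso_mul_sc (piso_unit he) _ _⟩

end Sec

theorem dense_fst {D : Set W} (h : Dense (Prod.fst ⁻¹' D : Set (W × ℝ))) : Dense D := fun y =>
  map_mem_closure continuous_fst (h (y, 0)) fun _ k => k

theorem dense_oe {f : W → Rod53.X T v} (h : IsOE J (𝓡 4) f) : Dense (f ⁻¹' off T v) :=
  fun y => cl_of_ld (h.loc y) (dense_off _)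

variable {ρ : ℝ → ℝ} {O : Set (Rod53.X T v)} {p : Rod53.X T v → Matrix κ κ ℂ}
  {s : Rod53.X T v → Matrix κ Unit ℂ} {e : Matrix l Unit ℂ}

theorem mem_off_of_tor {x : Rod53.X T v} (h : x ∈ T.tor v) : x ∈ off T v ↔ T.yy v x ≠ 0 := by
  obtain ⟨h1, h2⟩ := T.eta_of_tor h
  rw [off, mem_ofPred_eq, h2, inv_lt_one₀ (by linarith), lt_add_iff_pos_right]
  exact ⟨fun k => k.ne', fun k => h1.lt_of_ne k.symm⟩

theorem vn_mem_off (h : LH a b) {z : ℂ × ℂ} (hz : z ∈ Uv v a b c) (h0 : z ≠ 0) :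
    T.vn v a b c z ∈ off T v ↔ z.1 ≠ 0 ∧ z.2 ≠ 0 := by
  rw [mem_off_of_tor (T.vn_spec h hz h0).1, (T.vn_spec h hz h0).2.2]
  simp

theorem chi_vn {z : ℂ × ℂ} (h1 : z.1 ≠ 0) (h2 : z.2 ≠ 0) :
    chi T v η (T.vn v a b c z) = dir z.1 ^ dot η a * dir z.2 ^ dot η b := by
  have h : 0 < 2 * ‖z.1‖ * ‖z.2‖ := by
    have := norm_pos_iff.2 h1
    have := norm_pos_iff.2 h2
    positivity
  rw [T.vn_eq_ext h1 h2, chi_ext (mul_ne_zero (Complex.ofReal_ne_zero.2 h.ne')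
    (Circle.coe_ne_zero _)), chT, Glue52.dir_mul h]
  exact chT_mon η a b _ _

theorem L4_smul (r : ℝ) (x : E4) : L4 (r • x) = ((r : ℂ) * (L4 x).1, (r : ℂ) * (L4 x).2) := by
  rw [map_smul]
  ext <;> simp

theorem L3_smul (r : ℝ) (x : E3) : (L3 (r • x)).1 = (r : ℂ) * (L3 x).1 := by
  rw [map_smul]
  simp

theorem tm_ax {z : ℂ × ℂ} {r : ℝ} (h : ‖z.1‖ ^ 2 + ‖z.2‖ ^ 2 = r) :
    (z.1 = 0 → tm c z = c - r) ∧ (z.2 = 0 → tm c z = c + r) :=
  ⟨fun k => by simp [tm, ← h, k, sub_eq_add_neg], fun k => by simp [tm, ← h, k]⟩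

/-- the complement of the axis in the three-sphere -/
def dS : Set S3' := {y | (L4 y).1 ≠ 0 ∧ (L4 y).2 ≠ 0}

/-- the characters of the three-sphere -/
def cS (i j : ℤ) (y : S3') : Circle := dir (L4 y).1 ^ i * dir (L4 y).2 ^ j

section lc

variable (h : LH a b) (A : Tb.Arc v a b c ρ) (q : S3' × ℝ)
include h A

theorem lc_mem_off : T.lc v a b c ρ q ∈ off T v ↔ q.1 ∈ dS := by
  have := (Real.sqrt_pos.2 (A.pos q.2)).ne'
  rw [Tb.lc, vn_mem_off h (A.mem_Uv q) (A.ne q), L4_smul]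
  simp [dS, this]

theorem chi_lc (k : q.1 ∈ dS) : chi T v η (T.lc v a b c ρ q) = cS (dot η a) (dot η b) q.1 := by
  have r := Real.sqrt_pos.2 (A.pos q.2)
  have k' := (vn_mem_off h (A.mem_Uv q) (A.ne q)).1 ((lc_mem_off (T := T) h A q).2 k)
  rw [Tb.lc, chi_vn k'.1 k'.2, L4_smul, dir_pos_mul r, dir_pos_mul r, cS]

theorem time_lc : ((L4 q.1).1 = 0 → T.time v (T.lc v a b c ρ q) = c - ρ q.2) ∧
    ((L4 q.1).2 = 0 → T.time v (T.lc v a b c ρ q) = c + ρ q.2) := by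
  rw [Tb.lc, (T.vn_spec h (A.mem_Uv q) (A.ne q)).2.1]
  exact ⟨fun k => (tm_ax (A.nsq q)).1 (by rw [L4_smul, k, mul_zero]),
    fun k => (tm_ax (A.nsq q)).2 (by rw [L4_smul, k, mul_zero])⟩

theorem rep_lc (hl : ∀ s, Oa v m a i (c - ρ s)) (hr : ∀ s, Oa v m b j (c + ρ s)) :
    ((L4 q.1).1 = 0 → dot η a = i → Rep v m η (T.time v (T.lc v a b c ρ q))) ∧
    ((L4 q.1).2 = 0 → dot η b = j → Rep v m η (T.time v (T.lc v a b c ρ q))) :=
  ⟨fun k e => (time_lc (T := T) h A q).1 k ▸ hl _ η e, fun k e => (time_lc (T := T) h A q).2 k ▸ hr _ η e⟩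

end lc

theorem not_dS {y : S3'} (h : y ∉ dS) : (L4 y).1 = 0 ∨ (L4 y).2 = 0 := by
  simpa [dS, or_iff_not_imp_left] using h

theorem sb_eq (hu : Rod53.Uni a b) (A : Tb.Arc v a b c ρ) : T.sb v hu c ρ = T.lc v a b c ρ :=
  funext fun q => (T.lc_eq_sb hu A q).symm

theorem mp_range {f : W → Rod53.X T v} (h : IsOE J (𝓡 4) f) : Mp J (𝓡 4) univ (range f) f :=
  ⟨fun y _ => h.contMDiff y, fun y _ => mem_range_self y⟩

/-- the framed trivial line of an `S³` arc -/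
def secS (e : Matrix l Unit ℂ) (i j : ℤ) : Sec E3 S3' l := .cst dS e (cS i j)

theorem cm_L4 (y : S3') : ContMDiffAt (𝓡 3) 𝓘(ℝ, ℂ × ℂ) ∞ (fun y : S3' => L4 y) y :=
  L4.contDiff.contDiffAt.comp_contMDiffAt (contMDiff_coe_sphere y)

theorem pre_lc (h : LH a b) (A : Tb.Arc v a b c ρ) : T.lc v a b c ρ ⁻¹' off T v = Prod.fst ⁻¹' dS :=
  Set.ext (lc_mem_off h A)

theorem ok_secS (he : eᴴ * e = 1) (i j : ℤ) : (secS e i j).OK (𝓡 3) := by
  have A := arc_vx (0, 1) (1, 0) 0 Cyl58.isOE_exp Real.exp_pos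
  have c1 : Continuous fun y : S3' => L4 y := by fun_prop
  refine Sec.ok_cst ((isOpen_ne_fun c1.fst continuous_const).inter (isOpen_ne_fun c1.snd continuous_const))
    (dense_fst (D := dS) ?_) he fun y hy => (cm_zpow (cm_dir (contDiff_fst.contDiffAt.comp_contMDiffAt (cm_L4 y)) hy.1) i).mul
      (cm_zpow (cm_dir (contDiff_snd.contDiffAt.comp_contMDiffAt (cm_L4 y)) hy.2) j)
  rw [← pre_lc (T := torT) uni_std.lh A, ← sb_eq uni_std A]
  exact dense_oe (torT.isOE_sb uni_std A)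

/-- **the marking of an `S³` arc** -/
theorem mk_sb (hu : Rod53.Uni a b) (A : Tb.Arc v a b c ρ) (h : TL T v m p s O)
    (hO : range (T.sb v hu c ρ) ⊆ O) (hl : ∀ s, Oa v m a i (c - ρ s)) (hr : ∀ s, Oa v m b j (c + ρ s))
    (he : eᴴ * e = 1) : ∃ u, (secS e i j).Mk (𝓡 3) (fun q => p (T.sb v hu c ρ q))
      (fun q => s (T.sb v hu c ρ q)) u univ := by
  have oe := T.isOE_sb hu A
  obtain ⟨u, k⟩ := (h.mono hO).mk_const oe.isOpen_range (tl_chi (η := dual a b i j)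
    (by rintro _ ⟨q, rfl⟩; exact T.vtx_mem_tor hu (A.mem_Uv q)) (by
      rintro _ ⟨q, rfl⟩ o
      rw [sb_eq hu A] at o ⊢
      exact (not_dS (mt (lc_mem_off hu.lh A q).2 o)).elim
        (fun z => (rep_lc hu.lh A q hl hr).1 z (dual_left hu _ _))
        fun z => (rep_lc hu.lh A q hl hr).2 z (dual_right hu _ _))) (Sec.piso_unit he) (mp_range oe)
  rw [sb_eq hu A, pre_lc hu.lh A] at k
  rw [sb_eq hu A]
  exact ⟨u, k.congr fun q _ o => ⟨rfl, congrArg (e * ·) (by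
    simp only [sc, chi_lc hu.lh A q o, dual_left hu, dual_right hu])⟩⟩

/-- the complement of the axis in `S¹ × S²` -/
def dR : Set (Circle × sphere (0 : E3) 1) := {y | (L3 y.2).1 ≠ 0}

/-- the framed trivial line of an `S¹ × S²` arc -/
def secR (e : Matrix l Unit ℂ) (i : ℤ) :
    Sec (EuclideanSpace ℝ (Fin 1) × EuclideanSpace ℝ (Fin 2)) (Circle × sphere (0 : E3) 1) l :=
  .cst dR e fun y => dir (L3 y.2).1 ^ i

theorem pre_rb (hu : Rod53.Uni a b) (A : Tb.Arc v a a c ρ) : T.rb v hu c ρ ⁻¹' off T v = Prod.fst ⁻¹' dR := by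
  ext q
  rw [mem_preimage, Tb.rb, rod_mem_off hu (A.mem_Ur q), rc, L3_smul]
  simp [dR, (A.pos q.2).ne']

theorem arc_const (a : Z2) (c : ℝ) {ρ : ℝ → ℝ} (h : IsOE 𝓘(ℝ, ℝ) 𝓘(ℝ, ℝ) ρ) (h0 : ∀ s, 0 < ρ s) :
    Tb.Arc (fun _ => a) a a c ρ := ⟨h, h0, fun _ => Fl.Jr_const _ _, fun _ => Fl.Jr_const _ _⟩

theorem ok_secR (he : eᴴ * e = 1) (i : ℤ) : (secR e i).OK ((𝓡 1).prod (𝓡 2)) := by
  have A := arc_const (0, 1) 0 Cyl58.isOE_exp Real.exp_pos
  refine Sec.ok_cst (isOpen_ne_fun (L3.continuous.comp (continuous_subtype_val.comp continuous_snd)).fst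
    continuous_const) (dense_fst (D := dR) ?_) he fun y hy =>
    cm_zpow (cm_dir ((contDiff_fst.comp L3.contDiff).contDiffAt.comp_contMDiffAt
      ((contMDiff_coe_sphere y.2).comp y contMDiffAt_snd)) hy) i
  rw [← pre_rb (T := torT) uni_std A]
  exact dense_oe (torT.isOE_rb uni_std A)

/-- **the marking of an `S¹ × S²` arc** -/
theorem mk_rb (hu : Rod53.Uni a b) (A : Tb.Arc v a a c ρ) (h : TL T v m p s O)
    (hO : range (T.rb v hu c ρ) ⊆ O) (hl : ∀ s, Oa v m a i (c - ρ s)) (hr : ∀ s, Oa v m a i (c + ρ s))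
    (he : eᴴ * e = 1) : ∃ u, (secR e i).Mk ((𝓡 1).prod (𝓡 2)) (fun q => p (T.rb v hu c ρ q))
      (fun q => s (T.rb v hu c ρ q)) u univ := by
  have oe := T.isOE_rb hu A
  obtain ⟨u, k⟩ := (h.mono hO).mk_const oe.isOpen_range (tl_chi (η := dual a b i 0)
    (by rintro _ ⟨q, rfl⟩; exact T.rod_mem_tor hu (A.mem_Ur q)) (by
      rintro _ ⟨q, rfl⟩ o
      rcases T.time_of_rr (c := c) (not_not.1 (mt (mem_off_of_tor (T.rod_mem_tor hu (A.mem_Ur q))).2 o))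
        with z | z <;> rw [Tb.rb, z, ← Tb.rb, T.rr_rb hu A]
      exacts [hl _ _ (dual_left hu _ _), hr _ _ (dual_left hu _ _)])) (Sec.piso_unit he) (mp_range oe)
  rw [pre_rb hu A] at k
  refine ⟨u, k.congr fun q _ o => ⟨rfl, congrArg (e * ·) ?_⟩⟩
  have o' := (rod_mem_off (T := T) hu (A.mem_Ur q)).1 ((Set.ext_iff.1 (pre_rb (T := T) hu A) q).2 o)
  have : chi T v (dual a b i 0) (T.rb v hu c ρ q) = dir (L3 q.1.2).1 ^ i := by
    rw [Tb.rb, chi_rod hu o', dual_left hu, dual_right hu, zpow_zero, mul_one, rc, L3_smul,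
      dir_pos_mul (A.pos q.2)]
  simp only [sc, this]

/-! ### lens spaces -/

section lens

variable (h : LH a b)

/-- the model of the lens space -/
def l0 (y : Lens h) : Rod53.X torT (vx a b 0) := torT.lb _ h 0 Real.exp (y, 0)

/-- the orders of the model -/
def m2 (i j : ℤ) (t : ℝ) : ℤ := if t < 0 then i else j

theorem arc0 (a b : Z2) : Tb.Arc (vx a b 0) a b 0 Real.exp := arc_vx a b 0 Cyl58.isOE_exp Real.exp_pos

theorem cm_l0 : ContMDiff (𝓡 3) (𝓡 4) ∞ (l0 h) :=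
  (torT.isOE_lb h (arc0 a b)).contMDiff.comp (contMDiff_id.prodMk contMDiff_const)

theorem pre_lb (A : Tb.Arc v a b c ρ) :
    T.lb v h c ρ ⁻¹' off T v = Prod.fst ⁻¹' (l0 h ⁻¹' off _ _) :=
  Set.ext fun _ => (lc_mem_off h A _).trans (lc_mem_off h (arc0 a b) (_, 0)).symm

theorem chi_lb (A : Tb.Arc v a b c ρ) {q : Lens h × ℝ} (k : T.lb v h c ρ q ∈ off T v) :
    chi torT _ η (l0 h q.1) = chi T v η (T.lb v h c ρ q) :=
  have k' := (lc_mem_off h A _).1 k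
  (chi_lc h (arc0 a b) (_, 0) k').trans (chi_lc h A _ k').symm

theorem dense_l0 : Dense (l0 h ⁻¹' off _ _) :=
  dense_fst (pre_lb (T := torT) h (arc0 a b) ▸ dense_oe (torT.isOE_lb h (arc0 a b)))

theorem oa_vx (i j : ℤ) : (∀ t < 0, Oa (vx a b 0) (m2 i j) a i t) ∧ ∀ t > 0, Oa (vx a b 0) (m2 i j) b j t :=
  ⟨fun _ k => oa_of (eventually_of_mem (Iio_mem_nhds k) fun _ z => Or.inl ⟨if_pos z, if_pos z⟩),
    fun _ k => oa_of (eventually_of_mem (Ioi_mem_nhds k) fun _ z => Or.inl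
      ⟨(if_neg (not_lt_of_gt z)).trans (if_neg (ne_of_gt z)), if_neg (not_lt_of_gt z)⟩)⟩

theorem exists_dot (h : ∃ b, Rod53.Uni a b) (i : ℤ) : ∃ η, dot η a = i :=
  let ⟨b, k⟩ := h; ⟨dual a b i 0, dual_left k _ _⟩

/-- the rational character with prescribed values -/
def wQ (a b : Z2) (i j : ℤ) : ℝ × ℝ := ((i * b.2 - j * a.2) / dt a b, (j * a.1 - i * b.1) / dt a b)

include h in
theorem wQ_spec (i j : ℤ) : (wQ a b i j).1 * a.1 + (wQ a b i j).2 * a.2 = i ∧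
    (wQ a b i j).1 * b.1 + (wQ a b i j).2 * b.2 = j := by
  have k : (dt a b : ℝ) ≠ 0 := by exact_mod_cast h.ne
  constructor <;> simp only [wQ] <;> field_simp <;> simp only [dt] <;> push_cast <;> ring

theorem pot_const {w : ℝ × ℝ} (hO : O ⊆ T.tor v)
    (hw : ∀ x ∈ O, x ∉ off T v → ∀ᶠ t in 𝓝 (T.time v x), w.1 * (v t).1 + w.2 * (v t).2 = m t) :
    Pot T v m (tp T v fun _ => w) O :=
  pot_tp (fun _ k => smAt_tp (hO k.1) k.2 contMDiffAt_const contMDiffAt_const) dg_tp fun x hx k =>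
    ⟨fun _ => w, contMDiffAt_const, contMDiffAt_const, (hw x hx k).prod_inr _,
      Eventually.of_forall fun _ _ => rfl⟩

theorem cl_tp (w : ℝ × ℝ) : Cl (𝓡 4) 1 (T.tor v ∩ off T v) (tp T v fun _ => w) :=
  ((cl_ang fun _ k => csm_off k.1 k.2).smul w.1).add ((cl_ang fun _ k => csm_off k.1 k.2).smul w.2)

theorem time_l0 {y : Lens h} (k : l0 h y ∉ off _ _) :
    torT.time _ (l0 h y) < 0 ∨ 0 < torT.time _ (l0 h y) :=
  (not_dS (mt (lc_mem_off h (arc0 a b) (_, 0)).2 k)).imp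
    (fun z => ((time_lc h (arc0 a b) (_, 0)).1 z).trans_lt (by simp))
    fun z => lt_of_lt_of_eq (by simp) ((time_lc h (arc0 a b) (_, 0)).2 z).symm

theorem exists_secL (i j : ℤ) : ∃ (L : Ln E3 (Lens h) (Option Bool)) (s : Lens h → Matrix (Option Bool) Unit ℂ),
    PL (𝓡 3) (l0 h) (m2 i j) L.p s univ ∧ L.On (𝓡 3) univ ∧
      L.Fr (𝓡 3) s (pm (𝓡 3) (𝓡 4) (l0 h) (tp torT _ fun _ => wQ a b i j)) (univ ∩ l0 h ⁻¹' off _ _) := by
  obtain ⟨η, hη⟩ := exists_dot h.l i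
  obtain ⟨η', hη'⟩ := exists_dot h.r j
  obtain ⟨p, s, k, -⟩ := exists_PL (m := m2 i j) (cm_l0 h) (dense_l0 h) (A := fun c => cond c (Iio 0) (Ioi 0))
    (by rintro (_ | _); exacts [isOpen_Ioi, isOpen_Iio])
    (fun y o => (time_l0 h o).elim (fun z => ⟨true, z⟩) fun z => ⟨false, z⟩) (e := fun c => cond c η η')
    (by rintro (_ | _) t z
        exacts [((oa_vx i j).2 t z _ hη').self_of_nhds, ((oa_vx i j).1 t z _ hη).self_of_nhds])
  obtain ⟨c, k1, k2⟩ := k.exists_conn (U := range (l0 h)) ⟨fun y _ => cm_l0 h y, fun y _ => mem_range_self y⟩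
    (dense_l0 h) (pot_const (w := wQ a b i j) (fun x _ => tor_torT _ x) (by
      rintro _ ⟨y, rfl⟩ o
      rcases time_l0 h o with z | z
      · filter_upwards [Iio_mem_nhds z] with t r
        rw [vx, m2, if_pos (show t < 0 from r), if_pos (show t < 0 from r), (wQ_spec h i j).1]
      · filter_upwards [Ioi_mem_nhds z] with t r
        have r' : 0 < t := r
        rw [vx, m2, if_neg r'.not_gt, if_neg r'.ne', if_neg r'.not_gt, (wQ_spec h i j).2]))
  exact ⟨⟨p, c⟩, s, k, k1, k2⟩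

/-- the flat framed line of a lens arc -/
def secL (i j : ℤ) : Sec E3 (Lens h) (Option Bool) :=
  ⟨l0 h ⁻¹' off _ _, (exists_secL h i j).choose, (exists_secL h i j).choose_spec.choose⟩

theorem secL_spec (i j : ℤ) : PL (𝓡 3) (l0 h) (m2 i j) (secL h i j).L.p (secL h i j).s univ ∧
    (secL h i j).L.On (𝓡 3) univ ∧ (secL h i j).L.Fr (𝓡 3) (secL h i j).s
      (pm (𝓡 3) (𝓡 4) (l0 h) (tp torT _ fun _ => wQ a b i j)) (univ ∩ (secL h i j).D) :=
  (exists_secL h i j).choose_spec.choose_spec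

theorem ok_secL (i j : ℤ) : (secL h i j).OK (𝓡 3) :=
  ⟨isOpen_off.preimage (cm_l0 h).continuous, dense_l0 h, (secL_spec h i j).2.1,
    (secL_spec h i j).1.fr.mono fun _ k => ⟨trivial, k⟩⟩

theorem flat_secL (i j : ℤ) (y : Lens h) : (secL h i j).L.F (𝓡 3) y = 0 :=
  F_zero_of_fr isOpen_univ (ok_secL h i j).dn (ok_secL h i j).opn (ok_secL h i j).ln (secL_spec h i j).2.2
    (fun x _ k => ((cl_tp _).pm (S := {x}) ⟨fun y _ => cm_l0 h y,
      by rintro _ rfl; exact ⟨tor_torT _ _, k⟩⟩).cl x rfl) trivial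

/-- **the marking of a lens arc** -/
theorem mk_lb (A : Tb.Arc v a b c ρ) (hO : IsOpen O) (hp : TL T v m p s O) (hj : range (T.lb v h c ρ) ⊆ O)
    (hl : ∀ s, Oa v m a i (c - ρ s)) (hr : ∀ s, Oa v m b j (c + ρ s)) :
    ∃ u, (secL h i j).Mk (𝓡 3) (fun q => p (T.lb v h c ρ q)) (fun q => s (T.lb v h c ρ q)) u univ := by
  have oe := T.isOE_lb h A
  obtain ⟨k1, k2⟩ := (secL_spec h i j).1.comp (J' := (𝓡 3).prod 𝓘(ℝ, ℝ)) (g := (Prod.fst : Lens h × ℝ → _))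
    (V := univ) fun _ _ => ⟨trivial, Eventually.of_forall fun _ => contMDiffAt_fst⟩
  obtain ⟨u, k⟩ := (hp.pl hO isOpen_univ ((mp_range oe).mono subset_rfl hj)).mt isOpen_univ
    (f' := l0 h ∘ Prod.fst) ⟨k1, k2⟩ ((mp_range oe).mono subset_rfl (subset_univ _))
    ⟨fun y _ => ((cm_l0 h).comp contMDiff_fst) y, mapsTo_univ _ _⟩ (fun y _ => dense_oe oe y)
    (fun y _ => (Set.ext_iff.1 (pre_lb h A) y).symm) (fun η y _ => chi_lb h A) fun y _ o => by
      have r := fun η => rep_lc (T := T) (η := η) h A (surjInv (cov_surj h) y.1, y.2) hl hr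
      have r' := fun η => rep_lc (T := torT) (η := η) h (arc0 a b) (surjInv (cov_surj h) y.1, 0)
        (fun s => (oa_vx i j).1 _ (by simpa using Real.exp_pos s))
        fun s => (oa_vx i j).2 _ (by simpa using Real.exp_pos s)
      rcases not_dS (mt (lc_mem_off h A (_, y.2)).2 o) with z | z
      · exact (exists_dot h.l i).imp fun η k => ⟨(r η).1 z k, (r' η).1 z k⟩
      · exact (exists_dot h.r j).imp fun η k => ⟨(r η).2 z k, (r' η).2 z k⟩
  rw [pre_lb h A] at k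
  exact ⟨u, k⟩

end lens

/-! ### fillings -/

section fil

variable {EY HY : Type} [NormedAddCommGroup EY] [NormedSpace ℝ EY] [FiniteDimensional ℝ EY]
  [TopologicalSpace HY] {IY : ModelWithCorners ℝ EY HY} [IY.Boundaryless] {Y : Type} [TopologicalSpace Y]
  [ChartedSpace HY Y] [IsManifold IY ∞ Y] (F : Fl T a b IY Y) (hu : Rod53.Uni a b) {S : Sec EY Y l}
  {θ : N → Circle} {δ : Z2}

/-- the model of a filling -/
def f0 (y : Y) : Rod53.X T fun _ => a := F.cyf _ hu (y, 0)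

theorem cm_f0 : ContMDiff IY (𝓡 4) ∞ (f0 F hu) :=
  (F.oe_cyf hu).contMDiff.comp (contMDiff_id.prodMk contMDiff_const)

theorem cyf_mem_off {q : Y × ℝ} (h : q.2 ∈ Jr v a) : F.cyf v hu q ∈ off T v ↔ q.1 ∈ range F.ie := by
  obtain ⟨y, t⟩ := q
  rcases F.surj y with ⟨z, rfl⟩ | ⟨w, rfl⟩
  · rw [F.cyf_ie]
    exact iff_of_true (ext_mem_off ((F.hW _).1 z.2)) (mem_range_self _)
  · rw [F.cyf_it, rod_mem_off hu (Or.inr h)]
    exact ⟨fun k => ⟨⟨_, (F.hW _).2 (T.τ_mem.2 (gl_ne.2 k))⟩, (F.eq _ _).2 ⟨k, rfl⟩⟩,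
      fun ⟨_, k⟩ => ((F.eq _ _).1 k).1⟩

theorem pre_f0 : f0 F hu ⁻¹' off _ _ = range F.ie := Set.ext fun y =>
  cyf_mem_off F hu (q := (y, 0)) (Fl.Jr_const _ _)

include hu in
theorem dense_ie : Dense (range F.ie) := pre_f0 F hu ▸ dense_fst (by
  convert dense_oe (F.oe_cyf hu)
  rw [pre_f0]
  exact Set.ext fun q => (cyf_mem_off F hu (Fl.Jr_const _ _)).symm)

theorem chi_cyf {q : Y × ℝ} (h : q.1 ∈ range F.ie) :
    chi T _ η (f0 F hu q.1) = chi T v η (F.cyf v hu q) := by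
  obtain ⟨y, t⟩ := q
  obtain ⟨z, rfl⟩ := h
  have := (F.hW _).1 z.2
  rw [f0, F.cyf_ie, F.cyf_ie, chi_ext' this, chi_ext' this]

/-- `S` is a framed line of order `i` along the core of the filling -/
structure SF (i : ℤ) (S : Sec EY Y l) : Prop where
  ok : S.OK IY
  D : S.D = range F.ie
  pl : PL IY (f0 F hu) (fun _ => i) S.L.p S.s univ

variable {F hu}

theorem SF.of_pl {L : Ln EY Y l} {s : Y → Matrix l Unit ℂ} (h : PL IY (f0 F hu) (fun _ => i) L.p s univ)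
    (hL : L.On IY univ) : SF F hu i ⟨range F.ie, L, s⟩ :=
  ⟨⟨F.oeE.isOpen_range, dense_ie F hu, hL, h.fr.mono fun _ k => ⟨trivial, (pre_f0 F hu).ge k⟩⟩, rfl, h⟩

theorem SF.conn (h : SF F hu i S) {α : Y → Ext EY} (hα : Sm IY univ α) (hα' : Dg 1 univ α) :
    SF F hu i ⟨S.D, ⟨S.L.p, α⟩, S.s⟩ :=
  ⟨⟨h.ok.opn, h.ok.dn, ⟨h.ok.ln.sm, h.ok.ln.prj, h.ok.ln.tr, hα, hα'⟩, h.ok.fr⟩, h.D, h.pl⟩

theorem rep_const (e : dot η a = i) (t : ℝ) : Rep (fun _ => a) (fun _ => i) η t :=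
  Eventually.of_forall fun _ => e

variable (F hu) in
theorem exists_SF [CompactSpace N] (i : ℤ) : ∃ S : Sec EY Y (Option Bool), SF F hu i S := by
  have := F.t2 hu
  have := F.compact hu
  obtain ⟨p, s, k, k'⟩ := exists_PL (m := fun _ => i) (cm_f0 F hu) (pre_f0 F hu ▸ dense_ie F hu)
    (A := fun _ => univ) (fun _ => isOpen_univ) (fun _ _ => ⟨true, trivial⟩) (e := fun _ => dual a b i 0)
    fun _ _ _ => dual_left hu _ _
  exact ⟨_, .of_pl (L := ⟨p, 0⟩) k k'⟩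

/-- the flat connection on a filling with a slope of positive order -/
theorem SF.exists_flat (h : SF F hu i S) (hθ : Ang T θ (0, 1)) (ha : a.2 ≠ 0) :
    ∃ α, SF F hu i ⟨S.D, ⟨S.L.p, α⟩, S.s⟩ ∧ (∀ y, (⟨S.L.p, α⟩ : Ln EY Y l).F IY y = 0) ∧
      (⟨S.L.p, α⟩ : Ln EY Y l).Fr IY S.s (pm IY (𝓡 4) (f0 F hu)
        (((i : ℝ) / a.2) • ang (𝓡 4) (thx T _ θ (0, 1)))) (univ ∩ f0 F hu ⁻¹' off _ _) := by
  have c := (cl_ang (I := 𝓡 4) fun x => hθ.csm_off (v := fun _ => a) (x := x)).smul ((i : ℝ) / a.2)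
  have d := pre_f0 F hu ▸ dense_ie F hu
  obtain ⟨α, k1, k2⟩ := h.pl.exists_conn (U := univ) ⟨fun y _ => cm_f0 F hu y, mapsTo_univ _ _⟩ d
    (pot_tp (c.sm.mono inter_subset_right) (c.dg.mono inter_subset_right) fun x _ o =>
      ⟨fun _ => (0, (i : ℝ) / a.2), contMDiffAt_const, contMDiffAt_const, Eventually.of_forall fun _ => by
        have : (a.2 : ℝ) ≠ 0 := by exact_mod_cast ha
        simp [this], by
        filter_upwards [T.isOpen_tor.mem_nhds (tor_of_not_off o)] with y hy _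
        rw [tp, zero_smul, zero_add, Pi.smul_apply,
          ang_congr (eventually_of_mem (T.isOpen_tor.mem_nhds hy) fun _ => hθ.thx_eq)]⟩)
  exact ⟨α, h.conn k1.sa k1.dg, fun y => F_zero_of_fr isOpen_univ d (isOpen_off.preimage
    (cm_f0 F hu).continuous) k1 k2 (fun x _ k => (c.pm (S := {x}) ⟨fun y _ => cm_f0 F hu y,
      by rintro _ rfl; exact k⟩).cl x rfl) trivial, k2⟩

theorem TL.pl_f0 {p : Rod53.X T (fun _ => a) → Matrix κ κ ℂ} {s : Rod53.X T (fun _ => a) → Matrix κ Unit ℂ}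
    (h : TL T _ (fun _ => i) p s univ) :
    PL IY (f0 F hu) (fun _ => i) (fun y => p (f0 F hu y)) (fun y => s (f0 F hu y)) univ :=
  h.pl isOpen_univ isOpen_univ ⟨fun y _ => cm_f0 F hu y, mapsTo_univ _ _⟩

variable (F hu) in
/-- the framed trivial line of a filling -/
def secK (e : Matrix l Unit ℂ) (θ : N → Circle) (δ : Z2) (k : ℤ) : Sec EY Y l :=
  .cst (range F.ie) e fun y => thx T _ θ δ (f0 F hu y) ^ k

theorem sf_secK (he : eᴴ * e = 1) (hθ : Ang T θ δ) {k : ℤ} (h : dot (k • δ) a = i) :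
    SF F hu i (secK F hu e θ δ k) :=
  have k1 := ((hθ.tl (O := univ) k fun _ _ _ => rep_const h _).trans isOpen_univ (u := fun _ => e)
    (p' := fun _ => e * eᴴ) ⟨fun _ _ => MSm.const _, fun _ _ => Sec.piso_unit he⟩).pl_f0 (F := F) (hu := hu)
  .of_pl (L := ⟨fun _ => e * eᴴ, 0⟩) k1 (on_of_og fun _ _ => ⟨1, Og.const (D := univ) (Sec.piso_unit he)⟩)

/-- **the marking of a product region** -/
theorem SF.mark (h : SF F hu i S) (hO : IsOpen O) (hp : TL T v m p s O) {A : Set ℝ} (hA : IsOpen A)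
    (hJ : A ⊆ Jr v a) (ho : ∀ t ∈ A, Oa v m a i t) (hj : T.time v ⁻¹' A ⊆ O) :
    ∃ u, S.Mk IY (fun q => p (F.cyf v hu q)) (fun q => s (F.cyf v hu q)) u (Prod.snd ⁻¹' A) := by
  have oA := hA.preimage (continuous_snd : Continuous (Prod.snd : Y × ℝ → ℝ))
  have tm : ∀ q : Y × ℝ, q.2 ∈ A → T.time v (F.cyf v hu q) = q.2 := fun q k => F.time_cyf hu q.1 (hJ k)
  have mp : Mp (IY.prod 𝓘(ℝ, ℝ)) (𝓡 4) (Prod.snd ⁻¹' A) O (F.cyf v hu) :=
    ⟨fun q k => (F.ld_cyf hu q.1 (hJ k)).contMDiffAt, fun q k => hj (show _ ∈ A by rwa [tm q k])⟩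
  obtain ⟨k1, k2⟩ := h.pl.comp (J' := IY.prod 𝓘(ℝ, ℝ)) (g := (Prod.fst : Y × ℝ → _))
    (V := Prod.snd ⁻¹' A) fun _ _ => ⟨trivial, Eventually.of_forall fun _ => contMDiffAt_fst⟩
  obtain ⟨u, k⟩ := (hp.pl hO oA mp).mt oA (f' := f0 F hu ∘ Prod.fst) ⟨k1, k2⟩ (mp.mono subset_rfl (subset_univ _))
    ⟨fun y _ => ((cm_f0 F hu).comp contMDiff_fst) y, mapsTo_univ _ _⟩
    (fun q k => cl_of_ld (F.ld_cyf hu q.1 (hJ k)) (dense_off _))
    (fun q k => (Set.ext_iff.1 (pre_f0 F hu) q.1).trans (cyf_mem_off F hu (hJ k)).symm)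
    (fun η q k o => chi_cyf F hu ((cyf_mem_off F hu (hJ k)).1 o)) fun q k _ =>
      ⟨_, (tm q k).symm ▸ ho _ k _ (dual_left hu i 0), rep_const (dual_left hu i 0) _⟩
  exact ⟨u, k.mono subset_rfl fun q o => (cyf_mem_off F hu (hJ o.1)).2 (h.D.le o.2)⟩

/-- reparametrisation of the time -/
theorem Sec.Mk.time {S : Sec E W κ} {p : W × ℝ → Matrix l l ℂ} {s : W × ℝ → Matrix l Unit ℂ}
    {u : W × ℝ → Matrix κ l ℂ} {A B : Set ℝ} (h : S.Mk J p s u (Prod.snd ⁻¹' A)) {σ : ℝ → ℝ}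
    (hσ : Mp 𝓘(ℝ, ℝ) 𝓘(ℝ, ℝ) B A σ) : S.Mk J (fun q => p (q.1, σ q.2)) (fun q => s (q.1, σ q.2))
      (fun q => u (q.1, σ q.2)) (Prod.snd ⁻¹' B) :=
  h.comp (f := fun q : W × ℝ => (q.1, σ q.2))
    ⟨fun q k => contMDiffAt_fst.prodMk ((hσ.sm _ k).comp q contMDiffAt_snd), fun _ k => hσ.maps k⟩

end fil

end Crest.Agent.X212.Line51
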