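import Crest.Agent.X212.Line51.Lit
import Crest.Agent.X212.Rod53.Word

/-!
# X212 / Line51, part Chi (helper51): characters on the rod manifold, extension over the axis

* `eq_of_dense`, `exists_ext`, `exists_ext_form`, `exists_ext_uni`, `Uni.iso_of_dense` : density arguments;
* `off T v` : the complement of the axis; `chi T v η` : the character `u^η₁ (dir ζ)^η₂`, extended over the
  part of the axis where `η ⬝ v = 0`.
-/

set_option autoImplicit false
set_option linter.unusedSectionVars false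

open Set Filter Topology Function Matrix
open scoped ContDiff Manifold Kronecker
open Crest.Agent.R208 Crest.Agent.R208.F Crest.Agent.R208.FI Crest.Agent.X212.Dr59
  Crest.Agent.X212.Pj41
open Crest.Agent.X212.Rod53 hiding Uni X
open Crest.Agent.X212.Glue52 (dir)

noncomputable section

namespace Crest.Agent.X212.Line51

section dense

variable {E : Type*} [NormedAddCommGroup E] [NormedSpace ℝ E] [FiniteDimensional ℝ E]
  {H : Type*} [TopologicalSpace H] {I : ModelWithCorners ℝ E H}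
  {M : Type*} [TopologicalSpace M] [ChartedSpace H M]
  {κ l : Type*} [Fintype κ] [Fintype l] {D U : Set M} {x : M}

theorem eq_of_dense {Z : Type*} [TopologicalSpace Z] [T2Space Z] (hD : Dense D) {f g : M → Z}
    (hf : ContinuousAt f x) (hg : ContinuousAt g x) (h : ∀ᶠ y in 𝓝 x, y ∈ D → f y = g y) :
    f x = g x :=
  tendsto_nhds_unique_of_frequently_eq hf hg
    (((mem_closure_iff_frequently.1 (hD x)).and_eventually h).mono fun _ k => k.2 k.1)

/-- extension from a dense set -/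
theorem exists_ext {Z : Type*} (hU : IsOpen U) {Q R : (M → Z) → M → Prop}
    (hQ : ∀ f g x, Q f x → Q g x → (∀ᶠ y in 𝓝 x, y ∈ D → f y = g y) → f x = g x)
    (hR : ∀ f x, R f x → ∀ᶠ y in 𝓝 x, Q f y) {α : M → Z}
    (h : ∀ p ∈ U, ∃ β, R β p ∧ ∀ᶠ q in 𝓝 p, q ∈ D → α q = β q) :
    ∃ α' : M → Z, (∀ p ∈ U, ∃ β, R β p ∧ α' =ᶠ[𝓝 p] β) ∧ ∀ p ∈ U, p ∈ D → α' p = α p := by
  have : Nonempty (M → Z) := ⟨α⟩
  choose! β h1 h2 using h
  refine ⟨fun p => β p p, fun p hp => ⟨β p, h1 p hp, ?_⟩,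
    fun p hp hd => ((h2 p hp).self_of_nhds hd).symm⟩
  filter_upwards [hU.mem_nhds hp, hR _ _ (h1 p hp), (h2 p hp).eventually_nhds] with q k1 k2 k3
  refine hQ _ _ q (hR _ _ (h1 q k1)).self_of_nhds k2 ?_
  filter_upwards [h2 q k1, k3] with y a b hy using (a hy).symm.trans (b hy)

variable [I.Boundaryless] [IsManifold I ∞ M]

theorem form_eq_of_dense (hD : Dense D) {a b : M → Ext E} (ha : CAt I 0 a x) (hb : CAt I 0 b x)
    (h : ∀ᶠ y in 𝓝 x, y ∈ D → a y = b y) : a x = b x := by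
  rw [← rp_self (I := I) x a, ← rp_self (I := I) x b]
  have hc := continuousAt_extChartAt (I := I) x
  refine eq_of_dense hD (f := fun y => rp I x a (extChartAt I x y))
    (g := fun y => rp I x b (extChartAt I x y)) (ha.continuousAt.comp hc) (hb.continuousAt.comp hc) ?_
  filter_upwards [h, (isOpen_extChartAt_source (I := I) x).mem_nhds (mem_extChartAt_source x)]
    with y h1 h2 hy
  exact pm_congr_right (by rw [(extChartAt I x).left_inv h2, h1 hy])

theorem exists_ext_form (hD : Dense D) (hU : IsOpen U) {k : ℕ} {α : M → Ext E}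
    (h : ∀ p ∈ U, ∃ β, (SmAt I β p ∧ IsDeg k (β p)) ∧ ∀ᶠ q in 𝓝 p, q ∈ D → α q = β q) :
    ∃ α', Sm I U α' ∧ Dg k U α' ∧ ∀ p ∈ U, p ∈ D → α' p = α p := by
  obtain ⟨α', h1, h2⟩ := exists_ext hU (Q := fun f x => CAt I 0 f x)
    (fun _ _ _ => form_eq_of_dense hD)
    (fun _ _ k => (k.1.of_le (by simp)).eventually (by simp)) h
  refine ⟨α', fun p hp => ?_, fun p hp => ?_, h2⟩ <;> obtain ⟨β, a, b⟩ := h1 p hp
  · exact a.1.congr b
  · exact b.self_of_nhds ▸ a.2

theorem msm_cont {u : M → Matrix l κ ℂ} (h : MSm I u x) : ∀ᶠ y in 𝓝 x, ContinuousAt u y :=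
  (md_eventually (MSm.iff_pi.1 h)).mono fun _ k => k.continuousAt

theorem exists_ext_uni (hD : Dense D) (hU : IsOpen U) {p : M → Matrix κ κ ℂ} {q : M → Matrix l l ℂ}
    {u : M → Matrix l κ ℂ} (h : ∀ x ∈ U, ∃ w, (MSm I w x ∧ PIso (w x) (p x) (q x)) ∧
      ∀ᶠ y in 𝓝 x, y ∈ D → u y = w y) :
    ∃ u', Uni I p q u' U ∧ ∀ x ∈ U, x ∈ D → u' x = u x := by
  obtain ⟨u', h1, h2⟩ := exists_ext hU (Q := fun f x => ContinuousAt f x)
    (fun _ _ _ => eq_of_dense hD) (fun _ _ k => msm_cont k.1) h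
  refine ⟨u', ⟨fun p hp => ?_, fun p hp => ?_⟩, h2⟩ <;> obtain ⟨β, a, b⟩ := h1 p hp
  · exact a.1.congr b
  · exact b.self_of_nhds ▸ a.2

/-- an isometry which is parallel on a dense set is parallel -/
theorem Uni.iso_of_dense (hD : Dense D) (hU : IsOpen U) {L : Ln E M κ} {K : Ln E M l}
    {u : M → Matrix l κ ℂ} (h : Uni I L.p K.p u U) (hL : Sm I U L.a) (hK : Sm I U K.a)
    (e : ∀ x ∈ U, x ∈ D → th I u x + K.a x = L.a x) : Iso I L K u U :=
  ⟨h, fun x hx => form_eq_of_dense hD (a := th I u + K.a)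
    (((h.sm_th.add hK) x hx).of_le (by simp)) ((hL x hx).of_le (by simp))
    (eventually_of_mem (hU.mem_nhds hx) e)⟩

/-- an isometry which matches two frames with the same potential is parallel -/
theorem Uni.par_of_fr (hU : IsOpen U) {L : Ln E M κ} {K : Ln E M l} {u : M → Matrix l κ ℂ}
    (h : Uni I L.p K.p u U) {s : M → Matrix κ Unit ℂ} {s' : M → Matrix l Unit ℂ} {α : M → Ext E}
    (hs : L.Fr I s α U) (hs' : K.Fr I s' α U) (e : ∀ x ∈ U, u x * s x = s' x) : Iso I L K u U :=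
  (hs.symm.trans hs').congr hU fun x hx => by
    rw [← e x hx, Matrix.mul_assoc, (hs.iso x hx).tgt, (h.iso x hx).idem]

end dense

/-- the pairing of characters and slopes -/
def dot (η a : Z2) : ℤ := η.1 * a.1 + η.2 * a.2

theorem dot_add (η η' a : Z2) : dot (η + η') a = dot η a + dot η' a := by simp [dot]; ring
theorem dot_sub (η η' a : Z2) : dot (η - η') a = dot η a - dot η' a := by simp [dot]; ring
theorem dot_neg (η a : Z2) : dot (-η) a = -dot η a := by simp [dot]; ring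
theorem dot_neg' (η a : Z2) : dot η (-a) = -dot η a := by simp [dot]; ring
@[simp] theorem zero_dot (a : Z2) : dot 0 a = 0 := by simp [dot]
@[simp] theorem dot_zero (a : Z2) : dot a 0 = 0 := by simp [dot]

theorem dot_pm {η a b : Z2} (h : PM a b) : dot η a = 0 ↔ dot η b = 0 := by
  rcases h with rfl | rfl
  · rfl
  · rw [dot_neg', neg_eq_zero]

theorem eq_zero_of_dot {η a b : Z2} (hu : Rod53.Uni a b) (h : dot η a = 0) (h' : dot η b = 0) :
    η = 0 := by
  have := hu.sq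
  simp only [dot, dt] at *
  ext
  · show η.1 = 0
    linear_combination (-η.1) * this + (a.1 * b.2 - a.2 * b.1) * (b.2 * h - a.2 * h')
  · show η.2 = 0
    linear_combination (-η.2) * this + (a.1 * b.2 - a.2 * b.1) * (a.1 * h' - b.1 * h)

theorem exp_ax {η a b : Z2} (hu : Rod53.Uni a b) (h : dot η a = 0) :
    dt a b * (dt a η / dot a a) = dot η b := by
  have h1 := hu.sq
  have h2 : dot a a ≠ 0 := fun e => hu.ne_zero (by
    simp only [dot] at e
    exact Prod.ext (by show a.1 = 0; nlinarith [sq_nonneg a.1, sq_nonneg a.2])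
      (by show a.2 = 0; nlinarith [sq_nonneg a.1, sq_nonneg a.2]))
  have h3 : dt a η = dt a b * dot η b * dot a a := by
    simp only [dot, dt] at *
    linear_combination (a.2 * η.1 - a.1 * η.2) * h1 -
      (a.1 * b.2 - a.2 * b.1) * (a.1 * b.1 + a.2 * b.2) * h
  rw [h3, Int.mul_ediv_cancel _ h2, ← mul_assoc, h1, one_mul]

/-- the character with prescribed values on a basis -/
def dual (a b : Z2) (i j : ℤ) : Z2 := (dt a b * (i * b.2 - j * a.2), dt a b * (j * a.1 - i * b.1))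

theorem dual_left {a b : Z2} (hu : Rod53.Uni a b) (i j : ℤ) : dot (dual a b i j) a = i := by
  have h1 := hu.sq
  simp only [dot, dt, dual] at *
  linear_combination i * h1

theorem dual_right {a b : Z2} (hu : Rod53.Uni a b) (i j : ℤ) : dot (dual a b i j) b = j := by
  have h1 := hu.sq
  simp only [dot, dt, dual] at *
  linear_combination j * h1

/-- a character of the punctured tube -/
def chT (η : Z2) (w : Circle × ℂ) : Circle := w.1 ^ η.1 * dir w.2 ^ η.2

theorem chT_mon (η a b : Z2) (d u : Circle) :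
    (d ^ a.1 * u ^ b.1) ^ η.1 * (d ^ a.2 * u ^ b.2) ^ η.2 = d ^ dot η a * u ^ dot η b := by
  simp only [mul_zpow, ← _root_.zpow_mul, dot, _root_.zpow_add, mul_comm η.1, mul_comm η.2]
  exact mul_mul_mul_comm _ _ _ _

theorem chT_gl (η a b : Z2) {w : Circle × ℂ} (h : w.2 ≠ 0) :
    chT η (gl a b w) = dir w.2 ^ dot η a * w.1 ^ dot η b := by
  rw [chT, dir_gl a b h]
  exact chT_mon η a b _ _

theorem chT_add (η η' : Z2) (w : Circle × ℂ) : chT (η + η') w = chT η w * chT η' w := by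
  simp only [chT, Prod.fst_add, Prod.snd_add, _root_.zpow_add]
  exact mul_mul_mul_comm _ _ _ _

variable {EN HN : Type} [NormedAddCommGroup EN] [NormedSpace ℝ EN] [FiniteDimensional ℝ EN]
  [TopologicalSpace HN] {IN : ModelWithCorners ℝ EN HN} [IN.Boundaryless]
  {N : Type} [TopologicalSpace N] [ChartedSpace HN N] [IsManifold IN ∞ N] [T2Space N]
  (T : Tb IN N) (v : ℝ → Z2)

/-- the complement of the axis -/
def off : Set (Rod53.X T v) := {p | T.eta v p < 1}

/-- the characters -/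
def chi (η : Z2) (p : Rod53.X T v) : Circle :=
  Sum.elim (fun q => extend T.τ (chT η) (fun _ => 1) q.1)
    (fun z => z.2 ^ (dt (v z.1) η / dot (v z.1) (v z.1))) (T.nf v p)

variable {T v} {a b η η' : Z2} {c : ℝ} {p : Rod53.X T v}

theorem isOpen_off : IsOpen (off T v) := isOpen_lt T.continuous_eta continuous_const

theorem ext_mem_off {q : N × ℝ} (h : q.1 ∈ T.Ex) : T.ext v q ∈ off T v := T.eta_ext_lt h

theorem exists_ext_of_off (h : p ∈ off T v) : ∃ q : N × ℝ, q.1 ∈ T.Ex ∧ T.ext v q = p :=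
  (T.ext_or_axis p).resolve_right fun k => (show T.eta v p < 1 from h).ne k.2.2.1

theorem dense_off : Dense (off T v) :=
  T.dense_ext.mono (by rintro _ ⟨q, hq, rfl⟩; exact ext_mem_off hq.1)

theorem tor_of_not_off (h : p ∉ off T v) : p ∈ T.tor v := (T.rr_axis (c := 0) h).1

theorem rod_mem_off (hu : Rod53.Uni a b) {w : (Circle × ℂ) × ℝ} (h : w ∈ Ur v a) :
    T.rod v hu w ∈ off T v ↔ w.1.2 ≠ 0 := T.eta_rod hu h

theorem vtx_mem_off (hu : Rod53.Uni a b) {z : ℂ × ℂ} (h : z ∈ Uv v a b c) :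
    T.vtx v hu c z ∈ off T v ↔ z.1 ≠ 0 ∧ z.2 ≠ 0 := T.eta_vtx hu h

theorem chi_ext' {q : N × ℝ} (h : q.1 ∈ T.Ex) :
    chi T v η (T.ext v q) = extend T.τ (chT η) (fun _ => 1) q.1 := by
  rw [chi, T.nf_ext h]
  rfl

theorem chi_ext {w : Circle × ℂ} (h : w.2 ≠ 0) (x : ℝ) : chi T v η (T.ext v (T.τ w, x)) = chT η w :=
  (chi_ext' (T.τ_mem.2 h)).trans (T.inj.extend_apply _ _ _)

theorem chi_rod (hu : Rod53.Uni a b) {w : (Circle × ℂ) × ℝ} (h : w.1.2 ≠ 0) :
    chi T v η (T.rod v hu w) = dir w.1.2 ^ dot η a * w.1.1 ^ dot η b := by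
  rw [T.rod_eq_ext hu h, chi_ext (gl_ne.2 h), chT_gl _ _ _ h]

theorem chi_rod0 (hu : Rod53.Uni a b) {w : (Circle × ℂ) × ℝ} (hw : w ∈ Ur v a) (h : dot η a = 0) :
    chi T v η (T.rod v hu w) = w.1.1 ^ dot η b := by
  by_cases e : w.1.2 = 0
  · have k := Jr.pm (hw.resolve_left fun k => k e)
    rw [chi, T.nf_rod hu hw, T.Φr_zero e, Sum.elim_inr, ← _root_.zpow_mul,
      exp_ax (k.uni hu) ((dot_pm k).2 h)]
  · rw [chi_rod hu e, h, zpow_zero, one_mul]

theorem chi_vtx (hu : Rod53.Uni a b) {z : ℂ × ℂ} (h1 : z.1 ≠ 0) (h2 : z.2 ≠ 0) :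
    chi T v η (T.vtx v hu c z) = dir z.1 ^ dot η a * dir z.2 ^ dot η b := by
  have h : 0 < 2 * ‖z.1‖ * ‖z.2‖ := by
    have := norm_pos_iff.2 h1
    have := norm_pos_iff.2 h2
    positivity
  rw [T.vtx_eq_ext hu h1 h2, chi_ext (mul_ne_zero (Complex.ofReal_ne_zero.2 h.ne')
    (Circle.coe_ne_zero _)), chT, Glue52.dir_mul h]
  exact chT_mon η a b _ _

@[simp] theorem chi_zero : chi T v 0 = 1 := by
  funext p
  rw [chi]
  rcases T.nf v p with q | z
  · have : chT 0 = fun _ => 1 := funext fun w => by simp [chT]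
    simp [this, Function.extend_const]
  · simp [dt]

theorem chi_add (h : p ∈ off T v) : chi T v (η + η') p = chi T v η p * chi T v η' p := by
  obtain ⟨⟨q, x⟩, hq, rfl⟩ := exists_ext_of_off h
  by_cases k : q ∈ range T.τ
  · obtain ⟨w, rfl⟩ := k
    have := T.τ_mem.1 hq
    rw [chi_ext this, chi_ext this, chi_ext this, chT_add]
  · simp only [chi_ext' hq, extend_apply' _ _ _ k, mul_one]

theorem chi_neg (h : p ∈ off T v) : chi T v (-η) p = (chi T v η p)⁻¹ :=
  eq_inv_of_mul_eq_one_left (by rw [← chi_add h, neg_add_cancel, chi_zero]; rfl)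

theorem chi_smul (h : p ∈ off T v) (k : ℤ) : chi T v (k • η) p = chi T v η p ^ k := by
  induction k with
  | zero => simp
  | succ k ih => rw [add_smul, one_smul, chi_add h, ih, _root_.zpow_add_one]
  | pred k ih => rw [sub_smul, one_smul, sub_eq_add_neg, chi_add h, ih, chi_neg h, _root_.zpow_sub_one]

theorem csm_rod (hu : Rod53.Uni a b) {w : (Circle × ℂ) × ℝ} (hw : w ∈ Ur v a)
    (h : w.1.2 ≠ 0 ∨ dot η a = 0) : CSm (𝓡 4) (chi T v η) (T.rod v hu w) := by
  refine Glue52.contMDiffAt_of_comp (ld_pd (T.rod v hu) hw) ?_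
  have h1 : ContMDiffAt IR (𝓡 1) ∞ (fun w : (Circle × ℂ) × ℝ => w.1.1 ^ dot η b) w :=
    cm_zpow contMDiffAt_fst.fst _
  rcases h with h | h
  · refine ((cm_zpow (cm_dir contMDiffAt_fst.snd h) (dot η a)).mul h1).congr_of_eventuallyEq ?_
    filter_upwards [(isOpen_ne.preimage (continuous_snd.comp continuous_fst)).mem_nhds h] with y hy
    exact chi_rod hu hy
  · exact h1.congr_of_eventuallyEq
      (eventually_of_mem (isOpen_Ur.mem_nhds hw) fun y hy => chi_rod0 hu hy h)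

theorem csm_off (h : p ∈ T.tor v) (h' : p ∈ off T v) : CSm (𝓡 4) (chi T v η) p := by
  obtain ⟨⟨q, x⟩, hq, rfl⟩ := exists_ext_of_off h'
  obtain ⟨w, rfl⟩ := (T.ext_mem_tor (p := (q, x)) hq).1 h
  have hw := T.τ_mem.1 hq
  have := csm_rod (T := T) (v := v) (η := η) uni_std (w := (w, x)) (Or.inl hw) (Or.inl hw)
  rwa [T.rod_eq_ext _ hw, gl_id] at this

theorem vtx_ev (h : c ∈ Jv v a b c) {P : Z2 → Prop} (hP : ∀ᶠ t in 𝓝 c, P (v t)) :
    (∃ a', PM a' a ∧ P a') ∧ ∃ b', PM b' b ∧ P b' := by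
  have k := (mem_Jv.1 h).and hP
  obtain ⟨y, y1, y2⟩ := ((k.filter_mono nhdsWithin_le_nhds).and
    (self_mem_nhdsWithin (s := Iio c))).exists
  obtain ⟨w, w1, w2⟩ := ((k.filter_mono nhdsWithin_le_nhds).and
    (self_mem_nhdsWithin (s := Ioi c))).exists
  exact ⟨⟨_, y1.1.1 y2, y1.2⟩, _, w1.1.2.2 w2, w1.2⟩

theorem time_vtx0 (hu : Rod53.Uni a b) (h : c ∈ Jv v a b c) : T.time v (T.vtx v hu c 0) = c := by
  simp [T.time_vtx hu (Tb.zero_mem_Uv h), tm]

theorem csm_ax (h : p ∉ off T v) (h' : ∀ᶠ t in 𝓝 (T.time v p), dot η (v t) = 0) :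
    CSm (𝓡 4) (chi T v η) p := by
  induction p using T.ind with
  | h1 q x hq => exact absurd (ext_mem_off hq) h
  | h2 a b hu u x hx =>
    rw [T.time_rod hu (Or.inr hx)] at h'
    exact csm_rod hu (Or.inr hx) (Or.inr ((dot_pm (Jr.pm hx)).1 h'.self_of_nhds))
  | h3 a b hu c hc =>
    rw [time_vtx0 hu hc] at h'
    obtain ⟨⟨_, a1, a2⟩, _, b1, b2⟩ := vtx_ev hc (P := fun a => dot η a = 0) h'
    rw [eq_zero_of_dot hu ((dot_pm a1).1 a2) ((dot_pm b1).1 b2), chi_zero]
    exact contMDiffAt_const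

theorem csm_chi (h : p ∈ T.tor v)
    (h' : p ∉ off T v → ∀ᶠ t in 𝓝 (T.time v p), dot η (v t) = 0) : CSm (𝓡 4) (chi T v η) p :=
  (Classical.em _).elim (csm_off h) fun k => csm_ax k (h' k)

end Crest.Agent.X212.Line51
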