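import Crest.Agent.X212.Line51.Pot

/-!
# X212 / Line51, part Og (helper51): lines with sections over a dense set

* `Og I D p s g x` : near `x` the section `s` is `S g` on `D`, `S` a smooth unit section;
* `Mt I D p s q s' u O` : the isometry `u` matches the sections; `exists_mt`, `Uni.ext_sec`, `exists_uni_glue`;
* `exists_og` : the line of a divisor; `exists_conn_og` : connections with a prescribed potential.
-/

set_option autoImplicit false
set_option linter.unusedSectionVars false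

open Set Filter Topology Function Matrix
open scoped ContDiff Manifold Kronecker
open Crest.Agent.R208 Crest.Agent.R208.F Crest.Agent.R208.FI Crest.Agent.X212.Dr59
  Crest.Agent.X212.Pj41

noncomputable section

namespace Crest.Agent.X212.Line51

section top

variable {M W : Type*} [TopologicalSpace M] [TopologicalSpace W] {D D' O : Set M}

theorem dense_union_compl (h : O ⊆ closure D) : Dense (D ∪ Oᶜ) := fun x =>
  (Classical.em (x ∈ O)).elim (fun k => closure_mono subset_union_left (h k))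
    fun k => subset_closure (Or.inr k)

theorem cl_inter (hO : IsOpen O) (hD : IsOpen D) (h : O ⊆ closure D) (h' : O ⊆ closure D') :
    O ⊆ closure (D ∩ D') := fun _ hx =>
  closure_closure (s := D ∩ D') ▸ closure_mono
    (fun _ k => hD.inter_closure ⟨k.2, h' k.1⟩) (hO.inter_closure ⟨hx, h hx⟩)

theorem cl_of_loc {x : M} (h : x ∈ closure D) (e : ∀ᶠ y in 𝓝 x, y ∈ D → y ∈ D') : x ∈ closure D' :=
  mem_closure_iff_frequently.2 (((mem_closure_iff_frequently.1 h).and_eventually e).mono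
    fun _ k => k.2 k.1)

theorem eq_of_cl {Z : Type*} [TopologicalSpace Z] [T2Space Z] {x : M} (hD : x ∈ closure D) {f g : M → Z}
    (hf : ContinuousAt f x) (hg : ContinuousAt g x) (h : ∀ᶠ y in 𝓝 x, y ∈ D → f y = g y) :
    f x = g x :=
  tendsto_nhds_unique_of_frequently_eq hf hg
    (((mem_closure_iff_frequently.1 hD).and_eventually h).mono fun _ k => k.2 k.1)

end top

variable {E : Type*} [NormedAddCommGroup E] [NormedSpace ℝ E] [FiniteDimensional ℝ E]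
  {H : Type*} [TopologicalSpace H] {I : ModelWithCorners ℝ E H}
  {M : Type*} [TopologicalSpace M] [ChartedSpace H M]
  {E' : Type*} [NormedAddCommGroup E'] [NormedSpace ℝ E'] [FiniteDimensional ℝ E']
  {H' : Type*} [TopologicalSpace H'] {J : ModelWithCorners ℝ E' H'}
  {W : Type*} [TopologicalSpace W] [ChartedSpace H' W]
  {κ l r : Type*} [Fintype κ] [Fintype l] [Fintype r] {D D' O O' : Set M} {x : M}
  {p : M → Matrix κ κ ℂ} {q q' : M → Matrix l l ℂ} {o : M → Matrix r r ℂ} {s s₁ : M → Matrix κ Unit ℂ}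
  {s' s₁' : M → Matrix l Unit ℂ} {s'' : M → Matrix r Unit ℂ} {u u' : M → Matrix l κ ℂ}
  {w : M → Matrix r l ℂ} {g g' k : M → Circle}

theorem cl_of_ld {f : W → M} {y : W} (hf : IsLocalDiffeomorphAt J I ∞ f y) (h : f y ∈ closure D) :
    y ∈ closure (f ⁻¹' D) := by
  obtain ⟨φ, h1, h2⟩ := hf
  have e : f =ᶠ[𝓝 y] φ := eventually_of_mem (φ.open_source.mem_nhds h1) h2
  rw [mem_closure_iff_frequently, e.self_of_nhds] at h
  have k := φ.toOpenPartialHomeomorph.map_nhds_eq h1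
  rw [show φ y = φ.toOpenPartialHomeomorph y from rfl, ← k, frequently_map] at h
  exact mem_closure_iff_frequently.2 ((h.and_eventually e).mono fun z a => by
    rw [mem_preimage, a.2]; exact a.1)

theorem sc_comm (g h : M → Circle) (x : M) : sc g x * sc h x = sc h x * sc g x := by
  rw [← sc_mul, ← sc_mul, mul_comm]

theorem sc_mul_inv (g : M → Circle) (x : M) : sc g x * sc g⁻¹ x = 1 := by
  rw [sc_inv, (piso_sc g x).tgt]

variable (I) in
/-- `s = S g` on `D` near `x`, with a smooth unit section `S` -/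
def Og (D : Set M) (p : M → Matrix κ κ ℂ) (s : M → Matrix κ Unit ℂ) (g : M → Circle) (x : M) : Prop :=
  ∃ S : M → Matrix κ Unit ℂ, ∀ᶠ y in 𝓝 x, MSm I S y ∧ PIso (S y) 1 (p y) ∧ (y ∈ D → s y = S y * sc g y)

variable (I) in
/-- `u` is an isometry on `O` that matches the sections on `D` -/
structure Mt (D : Set M) (p : M → Matrix κ κ ℂ) (s : M → Matrix κ Unit ℂ) (q : M → Matrix l l ℂ)
    (s' : M → Matrix l Unit ℂ) (u : M → Matrix l κ ℂ) (O : Set M) : Prop extends Uni I p q u O where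
  eq : ∀ x ∈ O, x ∈ D → u x * s x = s' x

namespace Og

theorem piso (h : Og I D p s g x) : ∀ᶠ y in 𝓝 x, y ∈ D → PIso (s y) 1 (p y) :=
  let ⟨_, a⟩ := h; a.mono fun _ b c => b.2.2 c ▸ piso_mul_sc b.2.1 _ _

theorem ev (h : Og I D p s g x) : ∀ᶠ y in 𝓝 x, Og I D p s g y :=
  let ⟨S, a⟩ := h; a.eventually_nhds.mono fun _ b => ⟨S, b⟩

theorem congr {p₁ : M → Matrix κ κ ℂ} (h : Og I D p s g x) (e : p₁ =ᶠ[𝓝 x] p)
    (e' : ∀ᶠ y in 𝓝 x, y ∈ D' → y ∈ D ∧ s₁ y = s y ∧ g' y = g y) : Og I D' p₁ s₁ g' x := by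
  obtain ⟨S, a⟩ := h
  refine ⟨S, ?_⟩
  filter_upwards [a, e, e'] with y b c d
  exact ⟨b.1, c ▸ b.2.1, fun k => by rw [(d k).2.1, sc_eq (d k).2.2, b.2.2 (d k).1]⟩

theorem change (h : Og I D p s g x) (hk : ∀ᶠ y in 𝓝 x, CSm I k y ∧ (y ∈ D → g y = k y * g' y)) :
    Og I D p s g' x := by
  obtain ⟨S, a⟩ := h
  refine ⟨fun y => S y * sc k y, ?_⟩
  filter_upwards [a, hk] with y b c
  exact ⟨b.1.mul (msm_sc c.1), piso_mul_sc b.2.1 _ _, fun d => by
    rw [Matrix.mul_assoc, ← sc_mul, b.2.2 d, sc_eq (h := k * g') (c.2 d)]⟩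

theorem comp {f : W → M} {y : W} (h : Og I D p s g (f y)) (hf : ∀ᶠ z in 𝓝 y, ContMDiffAt J I ∞ f z) :
    Og J (f ⁻¹' D) (fun z => p (f z)) (fun z => s (f z)) (fun z => g (f z)) y := by
  obtain ⟨S, a⟩ := h
  refine ⟨fun z => S (f z), ?_⟩
  filter_upwards [hf.self_of_nhds.continuousAt.eventually a, hf] with z b c
  exact ⟨b.1.comp c, b.2.1, b.2.2⟩

theorem trans (h : Og I D p s g x) (hu : ∀ᶠ y in 𝓝 x, MSm I u y ∧ PIso (u y) (p y) (q y)) :
    Og I D q (fun y => u y * s y) g x := by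
  obtain ⟨S, a⟩ := h
  refine ⟨fun y => u y * S y, ?_⟩
  filter_upwards [a, hu] with y b c
  exact ⟨c.1.mul b.1, b.2.1.trans c.2, fun d => by rw [b.2.2 d, Matrix.mul_assoc]⟩

theorem mul (h : Og I D p s g x) (k : M → Circle) : Og I D p (fun y => s y * sc k y) (g * k) x :=
  let ⟨S, a⟩ := h
  ⟨S, a.mono fun y b => ⟨b.1, b.2.1, fun d => by
    beta_reduce; rw [b.2.2 d, sc_mul, Matrix.mul_assoc]⟩⟩

theorem const {e : Matrix κ Unit ℂ} {p₀ : Matrix κ κ ℂ} (h : PIso e 1 p₀) :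
    Og I D (fun _ => p₀) (fun y => e * sc g y) g x :=
  ⟨fun _ => e, Eventually.of_forall fun _ => ⟨MSm.const _, h, fun _ => rfl⟩⟩

theorem of_fr (hO : IsOpen O) (h : Uni I (fun _ => 1) p s O) (hx : x ∈ O) : Og I D p s 1 x :=
  ⟨s, eventually_of_mem (hO.mem_nhds hx) fun y hy => ⟨h.sm y hy, h.iso y hy, fun _ => by simp⟩⟩

theorem sm (h : Og I D p s g x) : MSm I p x ∧ Prj (p x) ∧ (p x).trace = 1 :=
  let ⟨_, b⟩ := h
  ⟨(b.self_of_nhds.1.mul b.self_of_nhds.1.ct).congr (b.mono fun _ k => k.2.1.tgt.symm),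
    b.self_of_nhds.2.1.prj_tgt, b.self_of_nhds.2.1.trace_eq.symm.trans (by simp)⟩

theorem msm (h : Og I D p s g x) (hD : D ∈ 𝓝 x) (hg : CSm I g x) : MSm I s x :=
  let ⟨_, b⟩ := h
  (b.self_of_nhds.1.mul (msm_sc hg)).congr ((b.and hD).mono fun _ k => k.1.2.2 k.2)

end Og

theorem mul_unit {a : Matrix κ Unit ℂ} {p₀ : Matrix κ κ ℂ} {q₀ q₁ : Matrix l l ℂ} {b c : Matrix l κ ℂ}
    (ha : PIso a 1 p₀) (hb : PIso b p₀ q₀) (hc : PIso c p₀ q₁) (e : b * a = c * a) : b = c := by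
  rw [← hb.idem, ← hc.idem, ← ha.tgt, ← Matrix.mul_assoc, e, Matrix.mul_assoc]

namespace Mt

theorem mono (h : Mt I D p s q s' u O) (hO : O' ⊆ O) (hD : O' ∩ D' ⊆ D) : Mt I D' p s q s' u O' :=
  ⟨h.toUni.mono hO, fun x a b => h.eq x (hO a) (hD ⟨a, b⟩)⟩

theorem symm (h : Mt I D p s q s' u O) (hs : ∀ x ∈ O, x ∈ D → PIso (s x) 1 (p x)) :
    Mt I D q s' p s (fun x => (u x)ᴴ) O :=
  ⟨h.toUni.symm, fun x a b => by
    rw [← h.eq x a b, ← Matrix.mul_assoc, (h.iso x a).src, (hs x a b).left]⟩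

theorem trans (h : Mt I D p s q s' u O) (h' : Mt I D q s' o s'' w O) :
    Mt I D p s o s'' (fun x => w x * u x) O :=
  ⟨h.toUni.trans h'.toUni, fun x a b => by rw [Matrix.mul_assoc, h.eq x a b, h'.eq x a b]⟩

theorem comp {f : W → M} {V : Set W} (h : Mt I D p s q s' u O) (hf : Mp J I V O f) :
    Mt J (f ⁻¹' D) (fun y => p (f y)) (fun y => s (f y)) (fun y => q (f y)) (fun y => s' (f y))
      (fun y => u (f y)) V :=
  ⟨h.toUni.comp hf, fun _ a b => h.eq _ (hf.maps a) b⟩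

theorem mul (h : Mt I D p s q s' u O) (k : M → Matrix Unit Unit ℂ) :
    Mt I D p (fun y => s y * k y) q (fun y => s' y * k y) u O :=
  ⟨h.toUni, fun x a b => by rw [← Matrix.mul_assoc, h.eq x a b]⟩

theorem congr (h : Mt I D p s q s' u O) (e : ∀ x ∈ O, x ∈ D → s₁ x = s x ∧ s₁' x = s' x) :
    Mt I D p s₁ q s₁' u O :=
  ⟨h.toUni, fun x a b => by rw [(e x a b).1, (e x a b).2, h.eq x a b]⟩

theorem piso (h : Mt I D p s q s' u O) (hx : x ∈ O) (hD : x ∈ D) (hs : PIso (s x) 1 (p x)) :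
    PIso (s' x) 1 (q x) := h.eq x hx hD ▸ hs.trans (h.iso x hx)

theorem og (hO : IsOpen O) (h : Mt I D p s q s' u O) (hx : x ∈ O) (hg : Og I D p s g x) :
    Og I D q s' g x :=
  (hg.trans (eventually_of_mem (hO.mem_nhds hx) fun y a => ⟨h.sm y a, h.iso y a⟩)).congr
    EventuallyEq.rfl (eventually_of_mem (hO.mem_nhds hx) fun y a b => ⟨b, (h.eq y a b).symm, rfl⟩)

end Mt

theorem Uni.congr_p {p₁ : M → Matrix κ κ ℂ} (h : Uni I p q u O) (e : EqOn p₁ p O) (e' : EqOn q' q O) :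
    Uni I p₁ q' u O := ⟨h.sm, fun x hx => by rw [e hx, e' hx]; exact h.iso x hx⟩

theorem Uni.congr (hO : IsOpen O) (h : Uni I p q u O) (e : EqOn u' u O) : Uni I p q u' O :=
  ⟨fun x hx => (h.sm x hx).congr (eventually_of_mem (hO.mem_nhds hx) e),
    fun x hx => (e hx).symm ▸ h.iso x hx⟩

/-- gluing of isometries -/
theorem exists_uni_glue {ι : Type*} {U : ι → Set M} (hU : ∀ i, IsOpen (U i)) {a : ι → M → Matrix l κ ℂ}
    (ha : ∀ i, Uni I p q (a i) (U i)) (h : ∀ i j, ∀ x ∈ U i, x ∈ U j → a i x = a j x) :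
    ∃ u, Uni I p q u (⋃ i, U i) ∧ ∀ i, EqOn u (a i) (U i) := by
  classical
  let u : M → Matrix l κ ℂ := fun x => if k : ∃ i, x ∈ U i then a k.choose x else 0
  have e : ∀ i, EqOn u (a i) (U i) := fun i x hx => by
    have k : ∃ i, x ∈ U i := ⟨i, hx⟩
    exact (dif_pos k).trans (h _ _ x k.choose_spec hx)
  refine ⟨u, ⟨fun x hx => ?_, fun x hx => ?_⟩, e⟩ <;> obtain ⟨i, hi⟩ := mem_iUnion.1 hx
  exacts [((ha i).congr (hU i) (e i)).sm x hi, ((ha i).congr (hU i) (e i)).iso x hi]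

variable [I.Boundaryless] [IsManifold I ∞ M]

theorem on_of_og (h : ∀ x ∈ O, ∃ g, Og I D p s g x) : (⟨p, 0⟩ : Ln E M κ).On I O :=
  ⟨fun x hx => let ⟨_, a⟩ := h x hx; a.sm.1, fun x hx => let ⟨_, a⟩ := h x hx; a.sm.2.1,
    fun x hx => let ⟨_, a⟩ := h x hx; a.sm.2.2, fun _ _ => cAt_zero, fun _ _ => IsDeg.zero⟩

/-- isometries are determined by their values on unit vectors over a dense set -/
theorem Uni.ext_sec (hO : IsOpen O) (hD : O ⊆ closure D) (h : Uni I p q u O) (h' : Uni I p q' u' O)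
    (e : ∀ x ∈ O, x ∈ D → ∃ a : Matrix κ Unit ℂ, PIso a 1 (p x) ∧ u x * a = u' x * a) : EqOn u u' O := fun x hx =>
  eq_of_cl (hD hx) (h.sm x hx).continuousAt (h'.sm x hx).continuousAt
    (eventually_of_mem (hO.mem_nhds hx) fun y a b =>
      let ⟨_, c, d⟩ := e y a b; mul_unit c (h.iso y a) (h'.iso y a) d)

theorem Mt.unique (hO : IsOpen O) (hD : O ⊆ closure D) (h : Mt I D p s q s' u O)
    (h' : Mt I D p s q' s' u' O) (hs : ∀ x ∈ O, x ∈ D → PIso (s x) 1 (p x)) : EqOn u u' O :=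
  h.toUni.ext_sec hO hD h'.toUni fun x a b => ⟨_, hs x a b, (h.eq x a b).trans (h'.eq x a b).symm⟩

/-- **sections with the same orders are matched** -/
theorem exists_mt (hO : IsOpen O) (hD : O ⊆ closure D)
    (h : ∀ x ∈ O, ∃ g, Og I D p s g x ∧ Og I D q s' g x) : ∃ u, Mt I D p s q s' u O := by
  obtain ⟨u, h1, h2⟩ := exists_ext_uni (I := I) (dense_union_compl hD) hO (p := p) (q := q)
    (u := fun x => s' x * (s x)ᴴ) fun x hx => by
      obtain ⟨g, ⟨S, b⟩, S', b'⟩ := h x hx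
      refine ⟨fun y => S' y * (S y)ᴴ, ⟨b'.self_of_nhds.1.mul b.self_of_nhds.1.ct,
        b.self_of_nhds.2.1.symm.trans b'.self_of_nhds.2.1⟩, ?_⟩
      filter_upwards [b, b', hO.mem_nhds hx] with y c d k e
      have e := e.resolve_right (not_not_intro k)
      rw [c.2.2 e, d.2.2 e, conjTranspose_mul, Matrix.mul_assoc, ← Matrix.mul_assoc (sc _ y),
        (piso_sc _ y).tgt, Matrix.one_mul]
  refine ⟨u, h1, fun x hx k => ?_⟩
  obtain ⟨g, a, -⟩ := h x hx
  rw [h2 x hx (Or.inl k), Matrix.mul_assoc, (a.piso.self_of_nhds k).src, Matrix.mul_one]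

/-- gluing of matching isometries -/
theorem exists_mt_glue {ι : Type*} {U D : ι → Set M} (hU : ∀ i, IsOpen (U i)) (hD : ∀ i, IsOpen (D i))
    (hc : ∀ i, U i ⊆ closure (D i)) {s : ι → M → Matrix κ Unit ℂ} {s' : ι → M → Matrix l Unit ℂ}
    (hs : ∀ i, ∀ x ∈ U i, x ∈ D i → PIso (s i x) 1 (p x))
    (h : ∀ i, ∃ u, Mt I (D i) p (s i) q (s' i) u (U i))
    (e : ∀ i j, ∀ x ∈ U i ∩ U j, x ∈ D i ∩ D j →
      ∃ γ : Matrix Unit Unit ℂ, s j x = s i x * γ ∧ s' j x = s' i x * γ) :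
    ∃ u, Uni I p q u (⋃ i, U i) ∧ ∀ i, Mt I (D i) p (s i) q (s' i) u (U i) := by
  choose a ha using h
  obtain ⟨u, h1, h2⟩ := exists_uni_glue hU (fun i => (ha i).toUni) fun i j x hi hj =>
    ((ha i).toUni.mono inter_subset_left).ext_sec ((hU i).inter (hU j))
      (cl_inter ((hU i).inter (hU j)) (hD i) (inter_subset_left.trans (hc i))
        (inter_subset_right.trans (hc j))) ((ha j).toUni.mono inter_subset_right)
      (fun y b c => let ⟨γ, d, d'⟩ := e i j y b c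
        ⟨_, hs j y b.2 c.2, by
          rw [(ha j).eq y b.2 c.2, d, d', ← Matrix.mul_assoc, (ha i).eq y b.1 c.1]⟩) ⟨hi, hj⟩
  exact ⟨u, h1, fun i => ⟨h1.mono (subset_iUnion U i), fun x b c => h2 i b ▸ (ha i).eq x b c⟩⟩

theorem csm_ev (h : CSm I g x) : ∀ᶠ y in 𝓝 x, ContinuousAt g y :=
  ((contMDiffAt_iff_contMDiffAt_nhds (n := 1) (by simp)).1 (ContMDiffAt.of_le h (by simp))).mono
    fun _ k => k.continuousAt

/-- **the line of a divisor** -/
theorem exists_og [T2Space M] [SigmaCompactSpace M] {C : Type} [Fintype C] {U : C → Set M}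
    (hU : ∀ c, IsOpen (U c)) (hc : ∀ x, ∃ c, x ∈ U c) (hD : Dense D) {g : C → M → Circle}
    (h : ∀ c c', ∀ x ∈ U c, x ∈ U c' → ∃ k, CSm I k x ∧ ∀ᶠ y in 𝓝 x, y ∈ D → g c' y = k y * g c y) :
    ∃ (p : M → Matrix C C ℂ) (s : M → Matrix C Unit ℂ), ∀ c, ∀ x ∈ U c, Og I D p s (g c) x := by
  classical
  have key := fun c c' => exists_ext (D := D) ((hU c).inter (hU c')) (Q := fun f x => ContinuousAt f x)
    (R := fun f x => CSm I f x) (fun _ _ _ => eq_of_dense hD) (fun _ _ => csm_ev)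
    (α := fun y => g c' y * (g c y)⁻¹) fun x hx =>
      let ⟨k, a, b⟩ := h c c' x hx.1 hx.2
      ⟨k, a, b.mono fun y d e => by rw [d e, mul_inv_cancel_right]⟩
  choose k k1 k2 using key
  have sm : ∀ c c', ∀ x ∈ U c, x ∈ U c' → CSm I (k c' c) x := fun c c' x a b =>
    let ⟨_, d, e⟩ := k1 c' c x ⟨b, a⟩; d.congr_of_eventuallyEq e
  have h5 : ∀ i j n, ∀ x ∈ U i, x ∈ U j → x ∈ U n → k j i x * k n j x = k n i x := fun i j n x hi hj hn =>
    eq_of_dense hD (f := fun y => k j i y * k n j y)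
      ((sm i j x hi hj).continuousAt.mul (sm j n x hj hn).continuousAt) (sm i n x hi hn).continuousAt (by
        filter_upwards [(hU i).mem_nhds hi, (hU j).mem_nhds hj, (hU n).mem_nhds hn] with y a b c d
        rw [k2 j i y ⟨b, a⟩ d, k2 n j y ⟨c, b⟩ d, k2 n i y ⟨c, a⟩ d, mul_assoc, inv_mul_cancel_left])
  have h6 : ∀ i, ∀ x ∈ U i, sc (k i i) x = 1 := fun i x hx => by
    have : k i i x = 1 := by simpa using h5 i i i x hx hx hx
    simp [sc, this, ← Matrix.ext_iff]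
  have h7 : ∀ i j n, ∀ x ∈ U i, x ∈ U j → x ∈ U n → sc (k j i) x * sc (k n j) x = sc (k n i) x :=
    fun i j n x hi hj hn => (sc_mul _ _ _).symm.trans (sc_eq (h5 i j n x hi hj hn))
  obtain ⟨Q, a, -, a2, a3, -⟩ := Pj41.exists_glue (I := I) (κ := fun _ => Unit) (U := U)
    (u := fun i j => sc (k j i)) ⟨hU, fun i j x hi hj => msm_sc (sm i j x hi hj), fun i j x hi hj => by
      rw [← Matrix.mul_one (sc _ x)ᴴ, ← h6 i x hi, ← h7 i j i x hi hj hi, ← Matrix.mul_assoc,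
        (piso_sc _ x).src, Matrix.one_mul], h7⟩ hc
  choose c₀ hc₀ using hc
  have hV := em_iso (e := (Sigma.fst : (Σ _ : C, Unit) → C)) fun _ _ e => Sigma.ext e (by simp)
  set V : Matrix C (Σ _ : C, Unit) ℂ := em Sigma.fst
  refine ⟨fun x => V * Q x * Vᴴ, fun x => V * Q x * (a (c₀ x) x * sc (g (c₀ x)) x),
    fun c x hx => Og.trans (p := Q) (u := fun x => V * Q x) ⟨a c, ?_⟩ ?_⟩
  · filter_upwards [(hU c).mem_nhds hx] with y hy
    refine ⟨(a2 c y hy).1, h6 c y hy ▸ (a2 c y hy).2, fun d => ?_⟩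
    rw [← (a3 c _ y hy (hc₀ y)).2, Matrix.mul_assoc, ← sc_mul]
    exact congrArg _ (sc_eq (by rw [Pi.mul_apply, k2 _ _ y ⟨hc₀ y, hy⟩ d, inv_mul_cancel_right]))
  · filter_upwards [(hU c).mem_nhds hx] with y hy
    exact ⟨(MSm.const _).mul (((a2 c y hy).1.mul (a2 c y hy).1.ct).congr (eventually_of_mem
      ((hU c).mem_nhds hy) fun z hz => (a2 c z hz).2.tgt.symm)), piso_cj hV (a2 c y hy).2.prj_tgt⟩

theorem Og.th (h : Og I D p s g x) (hD : IsOpen D) (hg : ∀ᶠ y in 𝓝 x, y ∈ D → CSm I g y) :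
    ∃ S : M → Matrix κ Unit ℂ, MSm I S x ∧ ∀ᶠ y in 𝓝 x, y ∈ D → th I s y = th I S y + ang I g y := by
  obtain ⟨S, b⟩ := h
  refine ⟨S, b.self_of_nhds.1, ?_⟩
  filter_upwards [b.eventually_nhds, hg] with y c d e
  rw [th_congr (u' := fun z => S z * sc g z) ((c.and (hD.mem_nhds e)).mono fun z k => k.1.2.2 k.2)]
  exact th_trans (msm_sc (d e)) c.self_of_nhds.1 (piso_sc _ _) c.self_of_nhds.2.1

/-- **connections with a prescribed potential** -/
theorem exists_conn_og (hO : IsOpen O) (hD : Dense D) (oD : IsOpen D) {α : M → Ext E}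
    (h : ∀ x ∈ O, ∃ g β, Og I D p s g x ∧ SmAt I β x ∧ IsDeg 1 (β x) ∧
      ∀ᶠ y in 𝓝 x, y ∈ D → CSm I g y ∧ α y = β y + ang I g y) :
    ∃ a, (⟨p, a⟩ : Ln E M κ).On I O ∧ (⟨p, a⟩ : Ln E M κ).Fr I s α (O ∩ D) := by
  obtain ⟨a, h1, h2, h3⟩ := exists_ext_form (I := I) hD hO (k := 1) (α := α - th I s) fun x hx => by
    obtain ⟨g, β, a1, a2, a3, a4⟩ := h x hx
    obtain ⟨S, b1, b2⟩ := a1.th oD (a4.mono fun _ c d => (c d).1)
    refine ⟨β - th I S, ⟨a2.sub (smAt_th b1),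
      Dg.sub (U := {x}) (by rintro _ rfl; exact a3) (dg_th S) x rfl⟩, ?_⟩
    filter_upwards [a4, b2] with y c d e
    rw [Pi.sub_apply, Pi.sub_apply, (c e).2, d e, add_sub_add_right_eq_sub]
  have o := on_of_og (I := I) (D := D) (p := p) (s := s) fun x hx =>
    let ⟨g, _, a, _⟩ := h x hx; ⟨g, a⟩
  refine ⟨a, ⟨o.sm, o.prj, o.tr, h1, h2⟩, ⟨fun x hx => ?_, fun x hx => ?_⟩, fun x hx => ?_⟩
  · obtain ⟨g, β, a1, -, -, a4⟩ := h x hx.1
    exact a1.msm (oD.mem_nhds hx.2) (a4.self_of_nhds hx.2).1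
  · obtain ⟨g, β, a1, -⟩ := h x hx.1
    exact a1.piso.self_of_nhds hx.2
  · show _ + a x = α x
    rw [h3 x hx.1 hx.2, Pi.sub_apply, add_sub_cancel]

/-- a matching isometry is parallel if the potentials agree -/
theorem Mt.par (hO : IsOpen O) (hD : Dense D) (oD : IsOpen D) {L : Ln E M κ} {K : Ln E M l}
    (h : Mt I D L.p s K.p s' u O) (hL : Sm I O L.a) (hK : Sm I O K.a) {α : M → Ext E}
    (hs : L.Fr I s α (O ∩ D)) (hs' : K.Fr I s' α (O ∩ D)) : Iso I L K u O :=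
  h.toUni.iso_of_dense hD hO hL hK fun x a b =>
    ((h.toUni.mono inter_subset_left).par_of_fr (hO.inter oD) hs hs' fun y c => h.eq y c.1 c.2).par x ⟨a, b⟩

theorem F_zero_of_fr (hO : IsOpen O) (hD : Dense D) (oD : IsOpen D) {L : Ln E M κ} (h : L.On I O)
    {α : M → Ext E} (hs : L.Fr I s α (O ∩ D)) (hα : ∀ x ∈ O, x ∈ D → dM I α x = 0) (hx : x ∈ O) :
    L.F I x = 0 :=
  form_eq_of_dense hD (b := 0) (((h.cl_F hO).sm x hx).of_le (by simp)) cAt_zero
    (eventually_of_mem (hO.mem_nhds hx) fun y hy k =>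
      (hs.F_fr (hO.inter oD) (h.sa.mono inter_subset_left) ⟨hy, k⟩).trans (hα y hy k))

end Crest.Agent.X212.Line51
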