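import Crest.Agent.X212.Line51.Chi

/-!
# X212 / Line51, part Rod (helper51): toric lines `O(∑ m_j D_j)` on the rod manifold

* `Rep v m η t` : the character `η` has the orders `m` near the time `t`;
* `TL T v m p s O` : `s` is a unit section of `p` off the axis that has the orders `m` along the rods;
* `TL.uni` (uniqueness), `exists_TL`, `exists_TL_wd` (existence, three ambient dimensions), `TL.tens`, `TL.dual`,
  `TL.mul`, `TL.fn`, `TL.exists_fr`;
* `Ang T θ δ`, `thx` : circle valued functions of the exterior.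
-/

set_option autoImplicit false
set_option linter.unusedSectionVars false

open Set Filter Topology Function Matrix
open scoped ContDiff Manifold Kronecker
open Crest.Agent.R208 Crest.Agent.R208.F Crest.Agent.R208.FI Crest.Agent.X212.Dr59
  Crest.Agent.X212.Pj41
open Crest.Agent.X212.Rod53 hiding Uni X
open Crest.Agent.X212.Glue52 (dir)

noncomputable section

namespace Crest.Agent.X212.Line51

/-- the character `η` has the orders `m` near `t` -/
def Rep (v : ℝ → Z2) (m : ℝ → ℤ) (η : Z2) (t : ℝ) : Prop := ∀ᶠ t' in 𝓝 t, dot η (v t') = m t'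

section Rep

variable {v v' : ℝ → Z2} {m m' : ℝ → ℤ} {η η' : Z2} {t : ℝ}

theorem Rep.ev (h : Rep v m η t) : ∀ᶠ t' in 𝓝 t, Rep v m η t' := h.eventually_nhds

theorem Rep.add (h : Rep v m η t) (h' : Rep v m' η' t) : Rep v (m + m') (η + η') t :=
  (h.and h').mono fun _ k => by rw [dot_add, k.1, k.2]; rfl

theorem Rep.neg (h : Rep v m η t) : Rep v (-m) (-η) t :=
  h.mono fun _ k => by rw [dot_neg, k]; rfl

theorem Rep.sub_zero (h : Rep v m η t) (h' : Rep v m η' t) : ∀ᶠ t' in 𝓝 t, dot (η - η') (v t') = 0 :=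
  (h.and h').mono fun _ k => by rw [dot_sub, k.1, k.2, sub_self]

theorem Rep.congr (h : Rep v m η t) (e : v' =ᶠ[𝓝 t] v) (e' : m' =ᶠ[𝓝 t] m) : Rep v' m' η t := by
  filter_upwards [h, e, e'] with _ a b c using by rw [b, c, a]

theorem rep_dot (η : Z2) (t : ℝ) : Rep v (fun t => dot η (v t)) η t := Eventually.of_forall fun _ => rfl

theorem rep_zero (t : ℝ) : Rep v 0 0 t := Eventually.of_forall fun _ => zero_dot _

end Rep

variable {EN HN : Type} [NormedAddCommGroup EN] [NormedSpace ℝ EN] [FiniteDimensional ℝ EN]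
  [TopologicalSpace HN] {IN : ModelWithCorners ℝ EN HN} [IN.Boundaryless]
  {N : Type} [TopologicalSpace N] [ChartedSpace HN N] [IsManifold IN ∞ N] [T2Space N]
  (T : Tb IN N) (v : ℝ → Z2) {κ l : Type*} [Fintype κ] [Fintype l]

/-- `s = S χ_η` near `x` with a smooth unit section `S` -/
def Ord (p : Rod53.X T v → Matrix κ κ ℂ) (s : Rod53.X T v → Matrix κ Unit ℂ) (η : Z2)
    (x : Rod53.X T v) : Prop :=
  ∃ S : Rod53.X T v → Matrix κ Unit ℂ, ∀ᶠ y in 𝓝 x, MSm (𝓡 4) S y ∧ PIso (S y) 1 (p y) ∧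
    (y ∈ off T v → s y = S y * sc (chi T v η) y)

/-- a line with a unit section off the axis of orders `m` along the rods -/
structure TL (m : ℝ → ℤ) (p : Rod53.X T v → Matrix κ κ ℂ) (s : Rod53.X T v → Matrix κ Unit ℂ)
    (O : Set (Rod53.X T v)) : Prop where
  fr : Uni (𝓡 4) (fun _ => 1) p s (O ∩ off T v)
  ax : ∀ x ∈ O, x ∉ off T v → ∃ η, Rep v m η (T.time v x) ∧ Ord T v p s η x

variable {T v} {m m' : ℝ → ℤ} {η η' : Z2} {O O' : Set (Rod53.X T v)} {x : Rod53.X T v}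
  {p : Rod53.X T v → Matrix κ κ ℂ} {s s₁ : Rod53.X T v → Matrix κ Unit ℂ}
  {p' : Rod53.X T v → Matrix l l ℂ} {s' : Rod53.X T v → Matrix l Unit ℂ}

theorem ev_time {P : ℝ → Prop} (h : ∀ᶠ t in 𝓝 (T.time v x), P t) :
    ∀ᶠ y in 𝓝 x, ∀ᶠ t in 𝓝 (T.time v y), P t :=
  T.continuous_time.continuousAt.eventually h.eventually_nhds

theorem ev_csm (hx : x ∈ T.tor v) (h : x ∉ off T v → ∀ᶠ t in 𝓝 (T.time v x), dot η (v t) = 0) :
    ∀ᶠ y in 𝓝 x, CSm (𝓡 4) (chi T v η) y := by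
  by_cases k : x ∈ off T v
  · filter_upwards [T.isOpen_tor.mem_nhds hx, isOpen_off.mem_nhds k] with y a b using csm_off a b
  · filter_upwards [T.isOpen_tor.mem_nhds hx, ev_time (h k)] with y a b using csm_chi a fun _ => b

theorem chi_add_ax (hx : x ∈ T.tor v) (h : x ∉ off T v → ∀ᶠ t in 𝓝 (T.time v x), dot η (v t) = 0)
    (h' : x ∉ off T v → ∀ᶠ t in 𝓝 (T.time v x), dot η' (v t) = 0) :
    chi T v (η + η') x = chi T v η x * chi T v η' x :=
  eq_of_dense dense_off (g := fun y => chi T v η y * chi T v η' y)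
    (csm_chi hx fun k => ((h k).and (h' k)).mono fun _ e => by
      rw [dot_add, e.1, e.2, add_zero]).continuousAt
    ((csm_chi hx h).continuousAt.mul (csm_chi hx h').continuousAt)
    (Eventually.of_forall fun _ => chi_add)

theorem sc_eq {M : Type*} {g h : M → Circle} {x : M} (e : g x = h x) : sc g x = sc h x := by
  simp only [sc, e]

theorem sc_chi_add (h : x ∈ off T v) :
    sc (chi T v (η + η')) x = sc (chi T v η) x * sc (chi T v η') x :=
  (sc_eq (chi_add h)).trans (sc_mul _ _ _)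

theorem piso_mul_sc {M : Type*} [TopologicalSpace M] {a : Matrix κ Unit ℂ} {q : Matrix κ κ ℂ} (h : PIso a 1 q)
    (g : M → Circle) (x : M) : PIso (a * sc g x) 1 q := (piso_sc g x).trans h

theorem Ord.change (h : Ord T v p s η x) (hx : ∀ᶠ y in 𝓝 x, CSm (𝓡 4) (chi T v (η - η')) y) :
    Ord T v p s η' x := by
  obtain ⟨S, hS⟩ := h
  refine ⟨fun y => S y * sc (chi T v (η - η')) y, ?_⟩
  filter_upwards [hS, hx] with y a b
  exact ⟨a.1.mul (msm_sc b), piso_mul_sc a.2.1 _ _, fun k => by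
    rw [Matrix.mul_assoc, ← sc_chi_add k, sub_add_cancel, a.2.2 k]⟩

theorem TL.mono (h : TL T v m p s O) (hO : O' ⊆ O) : TL T v m p s O' :=
  ⟨h.fr.mono (inter_subset_inter_left _ hO), fun x hx => h.ax x (hO hx)⟩

theorem tl_of_loc (h : ∀ x ∈ O, ∃ V, x ∈ V ∧ TL T v m p s V) : TL T v m p s O :=
  ⟨⟨fun x hx => let ⟨_, a, b⟩ := h x hx.1; b.fr.sm x ⟨a, hx.2⟩,
    fun x hx => let ⟨_, a, b⟩ := h x hx.1; b.fr.iso x ⟨a, hx.2⟩⟩,
    fun x hx => let ⟨_, a, b⟩ := h x hx; b.ax x a⟩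

theorem TL.congr_m (h : TL T v m p s O)
    (e : ∀ x ∈ O, x ∉ off T v → m' =ᶠ[𝓝 (T.time v x)] m) : TL T v m' p s O :=
  ⟨h.fr, fun x hx k => let ⟨η, a, b⟩ := h.ax x hx k; ⟨η, a.congr EventuallyEq.rfl (e x hx k), b⟩⟩

theorem TL.congr_s (hO : IsOpen O) (h : TL T v m p s O) (e : EqOn s₁ s (O ∩ off T v)) :
    TL T v m p s₁ O := by
  refine ⟨⟨fun x hx => (h.fr.sm x hx).congr (eventually_of_mem ((hO.inter isOpen_off).mem_nhds hx) e),
    fun x hx => (e hx).symm ▸ h.fr.iso x hx⟩, fun x hx k => ?_⟩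
  obtain ⟨η, a, S, b⟩ := h.ax x hx k
  refine ⟨η, a, S, ?_⟩
  filter_upwards [b, hO.mem_nhds hx] with y c d
  exact ⟨c.1, c.2.1, fun k => (e ⟨d, k⟩).trans (c.2.2 k)⟩

theorem TL.ord0 (hO : IsOpen O) (h : TL T v m p s O) (hx : x ∈ O) (k : x ∈ off T v) :
    Ord T v p s 0 x :=
  ⟨s, eventually_of_mem ((hO.inter isOpen_off).mem_nhds ⟨hx, k⟩) fun y hy =>
    ⟨h.fr.sm y hy, h.fr.iso y hy, fun _ => by simp⟩⟩

/-- every representing character is an order -/
theorem TL.ord (hO : IsOpen O) (h : TL T v m p s O) (hx : x ∈ O) (ht : x ∈ T.tor v ∨ η = 0)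
    (hη : x ∉ off T v → Rep v m η (T.time v x)) : Ord T v p s η x := by
  by_cases k : x ∈ off T v
  · rcases ht with ht | rfl
    · exact (h.ord0 hO hx k).change (ev_csm ht fun k' => absurd k k')
    · exact h.ord0 hO hx k
  · obtain ⟨η', a, b⟩ := h.ax x hx k
    exact b.change (ev_csm (tor_of_not_off k) fun _ => a.sub_zero (hη k))

theorem TL.loc (hO : IsOpen O) (h : TL T v m p s O) (hx : x ∈ O) : ∃ η, Ord T v p s η x :=
  (Classical.em _).elim (fun k => ⟨0, h.ord0 hO hx k⟩) fun k =>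
    let ⟨η, _, b⟩ := h.ax x hx k; ⟨η, b⟩

theorem TL.on (hO : IsOpen O) (h : TL T v m p s O) : (⟨p, 0⟩ : Ln E4 _ κ).On (𝓡 4) O := by
  refine ⟨fun x hx => ?_, fun x hx => ?_, fun x hx => ?_, fun _ _ => cAt_zero,
    fun _ _ => IsDeg.zero⟩ <;> obtain ⟨η, S, b⟩ := h.loc hO hx
  · exact (b.self_of_nhds.1.mul b.self_of_nhds.1.ct).congr (b.mono fun y k => k.2.1.tgt.symm)
  · exact b.self_of_nhds.2.1.prj_tgt
  · exact b.self_of_nhds.2.1.trace_eq.symm.trans (by simp)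

/-- **uniqueness of toric lines** -/
theorem TL.uni (hO : IsOpen O) (h : TL T v m p s O) (h' : TL T v m p' s' O) :
    ∃ u, Uni (𝓡 4) p p' u O ∧ ∀ x ∈ O, x ∈ off T v → u x * s x = s' x := by
  obtain ⟨u, h1, h2⟩ := exists_ext_uni (I := 𝓡 4) dense_off hO (p := p) (q := p')
    (u := fun x => s' x * (s x)ᴴ) fun x hx => by
      by_cases k : x ∈ off T v
      · exact ⟨_, ⟨(h.fr.symm.trans h'.fr).sm x ⟨hx, k⟩, (h.fr.symm.trans h'.fr).iso x ⟨hx, k⟩⟩,
          Eventually.of_forall fun _ _ => rfl⟩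
      · obtain ⟨η, a, S, b⟩ := h.ax x hx k
        obtain ⟨S', b'⟩ := h'.ord hO hx (Or.inl (tor_of_not_off k)) fun _ => a
        refine ⟨fun y => S' y * (S y)ᴴ, ⟨b'.self_of_nhds.1.mul b.self_of_nhds.1.ct,
          b.self_of_nhds.2.1.symm.trans b'.self_of_nhds.2.1⟩, ?_⟩
        filter_upwards [b, b'] with y c d e
        rw [c.2.2 e, d.2.2 e, conjTranspose_mul, Matrix.mul_assoc, ← Matrix.mul_assoc (sc _ y),
          (piso_sc _ y).tgt, Matrix.one_mul]
  refine ⟨u, h1, fun x hx k => ?_⟩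
  rw [h2 x hx k, Matrix.mul_assoc, (h.fr.iso x ⟨hx, k⟩).src, Matrix.mul_one]

/-- transport along an isometry -/
theorem TL.trans (hO : IsOpen O) (h : TL T v m p s O) {u : Rod53.X T v → Matrix l κ ℂ}
    (hu : Uni (𝓡 4) p p' u O) : TL T v m p' (fun x => u x * s x) O := by
  refine ⟨h.fr.trans (hu.mono inter_subset_left), fun x hx k => ?_⟩
  obtain ⟨η, a, S, b⟩ := h.ax x hx k
  refine ⟨η, a, fun y => u y * S y, ?_⟩
  filter_upwards [b, hO.mem_nhds hx] with y c d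
  exact ⟨(hu.sm y d).mul c.1, c.2.1.trans (hu.iso y d), fun k => by rw [c.2.2 k, Matrix.mul_assoc]⟩

theorem TL.cj [DecidableEq κ] (hO : IsOpen O) (h : TL T v m p s O) {V : Matrix l κ ℂ}
    (hV : Vᴴ * V = 1) : TL T v m (fun x => V * p x * Vᴴ) (fun x => V * s x) O :=
  (h.trans hO ((h.on hO).iso_cj hO hV).toUni).congr_s hO fun x hx => by
    show V * s x = V * p x * s x
    rw [Matrix.mul_assoc, (h.fr.iso x hx).left]

theorem tl_of_fr (hO : IsOpen O) (h : Uni (𝓡 4) (fun _ => 1) p s O) : TL T v 0 p s O :=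
  ⟨h.mono inter_subset_left, fun x hx _ => ⟨0, rep_zero _, s,
    eventually_of_mem (hO.mem_nhds hx) fun y hy => ⟨h.sm y hy, h.iso y hy, fun _ => by simp⟩⟩⟩

/-- a circle valued function as a section of the trivial line -/
theorem tl_sc {g : Rod53.X T v → Circle} (hg : ∀ x ∈ O, x ∈ off T v → CSm (𝓡 4) g x)
    (h : ∀ x ∈ O, x ∉ off T v → ∃ η, Rep v m η (T.time v x) ∧
      ∀ᶠ y in 𝓝 x, y ∈ off T v → g y = chi T v η y) : TL T v m (fun _ => 1) (sc g) O :=
  ⟨⟨fun x hx => msm_sc (hg x hx.1 hx.2), fun x _ => piso_sc g x⟩, fun x hx k =>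
    let ⟨η, a, b⟩ := h x hx k
    ⟨η, a, fun _ => 1, b.mono fun _ e =>
      ⟨MSm.const _, Prj.one.refl, fun k => by rw [Matrix.one_mul, sc_eq (e k)]⟩⟩⟩

theorem tl_chi (hO : O ⊆ T.tor v) (h : ∀ x ∈ O, x ∉ off T v → Rep v m η (T.time v x)) :
    TL T v m (fun _ => 1) (sc (chi T v η)) O :=
  tl_sc (fun _ hx => csm_off (hO hx)) fun x hx k =>
    ⟨η, h x hx k, Eventually.of_forall fun _ _ => rfl⟩

/-- a line with the orders of a function is trivial -/
theorem TL.exists_fr (hO : IsOpen O) (h : TL T v m p s O) {g : Rod53.X T v → Circle}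
    (hg : TL T v m (fun _ => 1) (sc g) O) :
    ∃ S, Uni (𝓡 4) (fun _ => 1) p S O ∧ ∀ x ∈ O, x ∈ off T v → S x * sc g x = s x := hg.uni hO h

theorem TL.exists_fr0 (hO : IsOpen O) (h : TL T v 0 p s O) :
    ∃ S, Uni (𝓡 4) (fun _ => 1) p S O ∧ ∀ x ∈ O, x ∈ off T v → S x = s x := by
  obtain ⟨S, a, b⟩ := (tl_of_fr hO (p := fun _ => 1) (s := fun _ => 1)
    ⟨fun _ _ => MSm.const _, fun _ _ => Prj.one.refl⟩).uni hO h
  exact ⟨S, a, fun x hx k => (Matrix.mul_one _).symm.trans (b x hx k)⟩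

theorem TL.mul (h : TL T v m p s O) {g : Rod53.X T v → Matrix Unit Unit ℂ}
    (hg : TL T v m' (fun _ => 1) g O) : TL T v (m + m') p (fun x => s x * g x) O := by
  refine ⟨hg.fr.trans h.fr, fun x hx k => ?_⟩
  obtain ⟨η, a, S, b⟩ := h.ax x hx k
  obtain ⟨η', a', S', b'⟩ := hg.ax x hx k
  refine ⟨η + η', a.add a', fun y => S y * S' y, ?_⟩
  filter_upwards [b, b'] with y c d
  refine ⟨c.1.mul d.1, d.2.1.trans c.2.1, fun e => ?_⟩
  rw [c.2.2 e, d.2.2 e, sc_chi_add e]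
  ext i j
  simp [Matrix.mul_apply, sc, mul_mul_mul_comm]

theorem piso_tfr {a : Matrix κ Unit ℂ} {b : Matrix l Unit ℂ} {q : Matrix κ κ ℂ} {r : Matrix l l ℂ}
    (h : PIso a 1 q) (h' : PIso b 1 r) :
    PIso ((a ⊗ₖ b).submatrix id (Equiv.prodUnique Unit Unit).symm) 1 (q ⊗ₖ r) := by
  refine PIso.of_prj (by simp) ?_ ?_
  · rw [conjTranspose_submatrix, ← Equiv.coe_refl, submatrix_mul_equiv, (h.kron h').src]
    simp
  · rw [conjTranspose_submatrix, submatrix_mul_equiv, (h.kron h').tgt, submatrix_id_id]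

theorem TL.tens (h : TL T v m p s O) (h' : TL T v m' p' s' O) :
    TL T v (m + m') (fun x => p x ⊗ₖ p' x) (tfr s s') O := by
  refine ⟨⟨fun x hx => ((h.fr.sm x hx).kron (h'.fr.sm x hx)).submatrix _ _,
    fun x hx => piso_tfr (h.fr.iso x hx) (h'.fr.iso x hx)⟩, fun x hx k => ?_⟩
  obtain ⟨η, a, S, b⟩ := h.ax x hx k
  obtain ⟨η', a', S', b'⟩ := h'.ax x hx k
  refine ⟨η + η', a.add a', tfr S S', ?_⟩
  filter_upwards [b, b'] with y c d
  refine ⟨(c.1.kron d.1).submatrix _ _, piso_tfr c.2.1 d.2.1, fun e => ?_⟩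
  rw [tfr, c.2.2 e, d.2.2 e, sc_chi_add e]
  ext i j
  simp [Matrix.mul_apply, sc, tfr, mul_mul_mul_comm]

theorem TL.dual (h : TL T v m p s O) : TL T v (-m) (fun x => (p x)ᵀ) (fun x => (s x)ᴴᵀ) O := by
  have e : ∀ {a : Matrix κ Unit ℂ} {q : Matrix κ κ ℂ}, PIso a 1 q → PIso aᴴᵀ 1 qᵀ :=
    fun k => by simpa using k.bar
  refine ⟨⟨fun x hx => (h.fr.sm x hx).ct.transpose, fun x hx => e (h.fr.iso x hx)⟩, fun x hx k => ?_⟩
  obtain ⟨η, a, S, b⟩ := h.ax x hx k
  refine ⟨-η, a.neg, fun y => (S y)ᴴᵀ, b.mono fun y c => ⟨c.1.ct.transpose, e c.2.1, fun k => ?_⟩⟩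
  beta_reduce
  rw [c.2.2 k]
  ext i j
  simp [Matrix.mul_apply, sc, chi_neg k, -Circle.coe_inv, Circle.coe_inv_eq_conj, mul_comm]

/-! ### existence -/

section ex

variable [SigmaCompactSpace (Rod53.X T v)]

theorem exists_TL' {C : Type} [Fintype C] {A : C → Set ℝ} (hA : ∀ c, IsOpen (A c))
    (hc : ∀ t, ∃ c, t ∈ A c) {e : C → ℝ → Z2} (he : ∀ c, ∀ t ∈ A c, ∀ᶠ t' in 𝓝 t, e c t' = e c t)
    (h : ∀ c, ∀ t ∈ A c, dot (e c t) (v t) = m t) :
    ∃ (p : Rod53.X T v → Matrix (Option C) (Option C) ℂ) (s : Rod53.X T v → Matrix (Option C) Unit ℂ),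
      TL T v m p s univ := by
  classical
  let U : Option C → Set (Rod53.X T v) := fun i =>
    i.elim (off T v) fun c => T.tor v ∩ T.time v ⁻¹' A c
  let e' : Option C → ℝ → Z2 := fun i => i.elim 0 e
  let g : Option C → Option C → Rod53.X T v → Circle := fun i j x =>
    chi T v (e' i (T.time v x) - e' j (T.time v x)) x
  have hU : ∀ i, IsOpen (U i) := by
    rintro (_ | c)
    exacts [isOpen_off, T.isOpen_tor.inter ((hA c).preimage T.continuous_time)]
  have h1 : ∀ i, ∀ x ∈ U i, ∀ᶠ y in 𝓝 x, e' i (T.time v y) = e' i (T.time v x) := by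
    rintro (_ | c) x hx
    exacts [Eventually.of_forall fun _ => rfl, T.continuous_time.continuousAt.eventually (he c _ hx.2)]
  have h2 : ∀ i, ∀ x ∈ U i, x ∉ off T v → Rep v m (e' i (T.time v x)) (T.time v x) := by
    rintro (_ | c) x hx k
    · exact absurd hx k
    · filter_upwards [he c _ hx.2, (hA c).mem_nhds hx.2] with t a b using (congrArg (dot · (v t)) a.symm).trans (h c t b)
  have h3 : ∀ i j, ∀ x ∈ U i, x ∈ U j → x ∉ off T v → ∀ᶠ t in 𝓝 (T.time v x),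
      dot (e' i (T.time v x) - e' j (T.time v x)) (v t) = 0 :=
    fun i j x hi hj k => (h2 i x hi k).sub_zero (h2 j x hj k)
  have h4 : ∀ i j, ∀ x ∈ U i, x ∈ U j → CSm (𝓡 4) (g i j) x := fun i j x hi hj => by
    refine ContMDiffAt.congr_of_eventuallyEq (f := chi T v (e' i (T.time v x) - e' j (T.time v x))) ?_
      (((h1 i x hi).and (h1 j x hj)).mono fun y k => by simp only [g, k.1, k.2])
    rcases i with _ | i
    · rcases j with _ | j
      · rw [sub_self, chi_zero]; exact contMDiffAt_const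
      · exact csm_chi hj.1 (h3 _ _ x hi hj)
    · exact csm_chi hi.1 (h3 _ _ x hi hj)
  have h5 : ∀ i j k, ∀ x ∈ U i, x ∈ U j → x ∈ U k → g i j x * g j k x = g i k x :=
    fun i j k x hi hj hk => by
      simp only [g]
      rw [← sub_add_sub_cancel (e' i (T.time v x)) (e' j (T.time v x)) (e' k (T.time v x))]
      by_cases o : x ∈ off T v
      · exact (chi_add o).symm
      · exact (chi_add_ax (tor_of_not_off o) (h3 i j x hi hj) (h3 j k x hj hk)).symm
  have h6 : ∀ i x, sc (g i i) x = 1 := fun i x => by simp [g, sc, ← Matrix.ext_iff]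
  have h7 : ∀ i j k, ∀ x ∈ U i, x ∈ U j → x ∈ U k → sc (g i j) x * sc (g j k) x = sc (g i k) x :=
    fun i j k x hi hj hk => (sc_mul _ _ _).symm.trans (sc_eq (h5 i j k x hi hj hk))
  obtain ⟨Q, a, -, k2, k3, -⟩ := Pj41.exists_glue (I := 𝓡 4) (κ := fun _ => Unit) (U := U)
    (u := fun i j => sc (g i j)) ⟨hU, fun i j x hi hj => msm_sc (h4 i j x hi hj), fun i j x hi hj => by
      rw [← Matrix.mul_one (sc _ x)ᴴ, ← h6 i x, ← h7 i j i x hi hj hi, ← Matrix.mul_assoc,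
        (piso_sc _ x).src, Matrix.one_mul], h7⟩ fun x => by
      by_cases o : x ∈ off T v
      · exact ⟨none, o⟩
      · obtain ⟨c, k⟩ := hc (T.time v x)
        exact ⟨some c, tor_of_not_off o, k⟩
  simp only [h6] at k2
  have k : TL T v m Q (a none) univ := by
    refine ⟨⟨fun x hx => (k2 none x hx.2).1, fun x hx => (k2 none x hx.2).2⟩, fun x _ o => ?_⟩
    obtain ⟨c, k⟩ := hc (T.time v x)
    have hx : x ∈ U (some c) := ⟨tor_of_not_off o, k⟩
    refine ⟨_, h2 _ x hx o, a (some c), ?_⟩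
    filter_upwards [(hU _).mem_nhds hx, h1 _ x hx] with y b1 b2
    refine ⟨(k2 _ y b1).1, (k2 _ y b1).2, fun o' => ((k3 _ none y b1 o').2.symm.trans ?_)⟩
    rw [sc_eq (h := chi T v (e' (some c) (T.time v x))) (by simp only [g, b2]; simp [e'])]
  exact ⟨_, _, k.cj isOpen_univ (em_iso (e := Sigma.fst) fun _ _ e => Sigma.ext e (by simp))⟩

/-- **existence of toric lines** from a coloured cover of the time axis -/
theorem exists_TL {ι C : Type} [Fintype C] (col : ι → C) {A : ι → Set ℝ} (hA : ∀ i, IsOpen (A i))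
    (hc : ∀ t, ∃ i, t ∈ A i) (hd : ∀ i j t, col i = col j → t ∈ A i → t ∈ A j → i = j) {e : ι → Z2}
    (h : ∀ i, ∀ t ∈ A i, dot (e i) (v t) = m t) :
    ∃ (p : Rod53.X T v → Matrix (Option C) (Option C) ℂ) (s : Rod53.X T v → Matrix (Option C) Unit ℂ),
      TL T v m p s univ := by
  classical
  let e' : C → ℝ → Z2 := fun c t => if k : ∃ i, col i = c ∧ t ∈ A i then e k.choose else 0
  have he : ∀ i, ∀ t ∈ A i, e' (col i) t = e i := fun i t ht => by
    have k : ∃ j, col j = col i ∧ t ∈ A j := ⟨i, rfl, ht⟩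
    simp only [e', dif_pos k, hd _ _ t k.choose_spec.1 k.choose_spec.2 ht]
  refine exists_TL' (A := fun c => ⋃ i ∈ {i | col i = c}, A i) (e := e')
    (fun c => isOpen_biUnion fun i _ => hA i)
    (fun t => let ⟨i, k⟩ := hc t; ⟨col i, mem_biUnion (show col i = col i from rfl) k⟩) ?_ ?_ <;>
    intro c t ht <;> obtain ⟨i, rfl, k⟩ := mem_iUnion₂.1 ht
  · filter_upwards [(hA i).mem_nhds k] with t' k' using (he i t' k').trans (he i t k).symm
  · rw [he i t k, h i t k]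

end ex

open Classical in
/-- the orders of a sequence of weights -/
def wm (a : ℤ → Z2) (n : ℤ → ℤ) (x : ℝ) : ℤ :=
  if x = ⌊x⌋ ∧ ¬PM (a (⌊x⌋ - 1)) (a ⌊x⌋) then 0 else n ⌊x⌋

section wd

variable {a : ℤ → Z2} {n : ℤ → ℤ} {i : ℤ} {t : ℝ}

theorem wm_of_mem (h : t ∈ Ioo (i : ℝ) (i + 1)) : wm a n t = n i := by
  have e : ⌊t⌋ = i := Int.floor_eq_iff.2 ⟨h.1.le, h.2⟩
  rw [wm, e, if_neg fun k => h.1.ne' k.1]

theorem wm_dot (η : Z2) : wm a (fun i => dot η (a i)) = fun t => dot η (wd a t) := by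
  funext t
  rw [wm, Rod53.wd]
  split_ifs <;> simp

theorem wm_add (n n' : ℤ → ℤ) : wm a (n + n') = wm a n + wm a n' := by
  funext t
  simp only [wm, Pi.add_apply]
  split_ifs <;> simp

theorem wm_neg (n : ℤ → ℤ) : wm a (-n) = -wm a n := by
  funext t
  simp only [wm, Pi.neg_apply]
  split_ifs <;> simp

theorem wm_zero : wm a 0 = 0 := by
  funext t
  simp [wm]

/-- a character that fits a range of weights -/
theorem dot_wd {j : ℤ} (h : ∀ k, i ≤ k → k ≤ j → dot η (a k) = n k) (ht : t ∈ Ioo (i : ℝ) (j + 1)) :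
    dot η (wd a t) = wm a n t := by
  rw [wm, Rod53.wd]
  split_ifs
  · simp
  · exact h _ (Int.le_floor.2 ht.1.le) (Int.lt_add_one_iff.1 (Int.floor_lt.2 (by exact_mod_cast ht.2)))

theorem rep_wd {j : ℤ} (h : ∀ k, i ≤ k → k ≤ j → dot η (a k) = n k) (ht : t ∈ Ioo (i : ℝ) (j + 1)) :
    Rep (wd a) (wm a n) η t := eventually_of_mem (isOpen_Ioo.mem_nhds ht) fun _ => dot_wd h

theorem wm_congr {a' : ℤ → Z2} {n' : ℤ → ℤ} {j : ℤ} (h : ∀ k, i ≤ k → k ≤ j → a k = a' k)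
    (h' : ∀ k, i ≤ k → k ≤ j → n k = n' k) (hx : t ∈ Ioo (i : ℝ) (j + 1)) : wm a n t = wm a' n' t := by
  have h1 : i ≤ ⌊t⌋ := Int.le_floor.2 hx.1.le
  have h2 : ⌊t⌋ < j + 1 := Int.floor_lt.2 (by exact_mod_cast hx.2)
  by_cases e : t = ⌊t⌋
  · have h3 : i < ⌊t⌋ := by exact_mod_cast e ▸ hx.1
    rw [wm, wm, h _ h1 (by omega), h (⌊t⌋ - 1) (by omega) (by omega), h' _ h1 (by omega)]
  · rw [wm, wm, if_neg fun k => e k.1, if_neg fun k => e k.1, h' _ h1 (by omega)]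

/-- the characters at the integers -/
theorem exists_vch (ha : IsWd a) (h1 : ∀ i, a (i - 1) = a i → n (i - 1) = n i)
    (h2 : ∀ i, a (i - 1) = -a i → n (i - 1) = -n i) (i : ℤ) :
    ∃ η, dot η (a (i - 1)) = n (i - 1) ∧ dot η (a i) = n i := by
  obtain ⟨b, hb⟩ := ha.prim i
  rcases ha.step i with (k | k) | k
  · exact ⟨dual _ b _ 0, by rw [k, h1 i k, dual_left hb], dual_left hb _ _⟩
  · exact ⟨dual _ b _ 0, by rw [k, h2 i k, dot_neg', dual_left hb], dual_left hb _ _⟩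
  · exact ⟨_, dual_left k _ _, dual_right k _ _⟩

/-- **toric lines on words** -/
theorem exists_TL_wd (T : Tb IN N) [SigmaCompactSpace (Rod53.X T (wd a))]
    (h : ∀ i, ∃ η, dot η (a (i - 1)) = n (i - 1) ∧ dot η (a i) = n i) :
    ∃ (p : Rod53.X T (wd a) → Matrix (Option Bool) (Option Bool) ℂ)
      (s : Rod53.X T (wd a) → Matrix (Option Bool) Unit ℂ), TL T (wd a) (wm a n) p s univ := by
  choose e h1 h2 using h
  refine exists_TL (fun i : ℤ => decide (i % 2 = 0)) (A := fun i => Ioo ((i : ℝ) - 1) (i + 1))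
    (fun _ => isOpen_Ioo) (fun t => ⟨⌊t⌋, by linarith [Int.floor_le t], Int.lt_floor_add_one t⟩)
    (fun i j t c hi hj => ?_) (e := e) fun i t ht => dot_wd (i := i - 1) (j := i) (fun k a b => ?_)
      (by simpa using ht)
  · have a : i < j + 2 := by exact_mod_cast (by linarith [hi.1, hj.2] : (i : ℝ) < j + 2)
    have b : j < i + 2 := by exact_mod_cast (by linarith [hi.2, hj.1] : (j : ℝ) < i + 2)
    rw [decide_eq_decide] at c
    omega
  · obtain rfl | rfl : k = i - 1 ∨ k = i := by omega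
    exacts [h1 i, h2 k]

end wd

/-! ### functions of the exterior -/

variable (T) in
/-- `θ` is smooth on the exterior and is the character `δ` on the punctured tube -/
structure Ang (θ : N → Circle) (δ : Z2) : Prop where
  sm : ∀ q ∈ T.Ex, CSm IN θ q
  eq : ∀ w : Circle × ℂ, w.2 ≠ 0 → θ (T.τ w) = chT δ w

variable (T v) in
/-- the function of the rod manifold given by a function of the exterior -/
def thx (θ : N → Circle) (δ : Z2) (p : Rod53.X T v) : Circle :=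
  Sum.elim (fun q => θ q.1) (fun z => z.2 ^ (dt (v z.1) δ / dot (v z.1) (v z.1))) (T.nf v p)

section Ang

variable {θ : N → Circle} {δ : Z2}

theorem thx_ext {q : N × ℝ} (h : q.1 ∈ T.Ex) : thx T v θ δ (T.ext v q) = θ q.1 := by
  rw [thx, T.nf_ext h]
  rfl

theorem Ang.thx_eq (h : Ang T θ δ) (hx : x ∈ T.tor v) : thx T v θ δ x = chi T v δ x := by
  by_cases k : x ∈ off T v
  · obtain ⟨⟨q, t⟩, hq, rfl⟩ := exists_ext_of_off k
    obtain ⟨w, rfl⟩ := (T.ext_mem_tor (p := (q, t)) hq).1 hx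
    rw [thx_ext hq, chi_ext (T.τ_mem.1 hq), h.eq w (T.τ_mem.1 hq)]
  · have e : ∃ z, T.nf v x = .inr z := by
      induction x using T.ind with
      | h1 q t hq => exact absurd (ext_mem_off hq) k
      | h2 a b hu u t ht => exact ⟨_, (T.nf_rod hu (Or.inr ht)).trans (T.Φr_zero rfl)⟩
      | h3 a b hu c hc => exact ⟨_, (T.nf_vtx hu (Tb.zero_mem_Uv hc)).trans T.Φv_zero⟩
    obtain ⟨z, e⟩ := e
    rw [thx, chi, e]
    rfl

theorem Ang.csm_off (h : Ang T θ δ) (hx : x ∈ off T v) : CSm (𝓡 4) (thx T v θ δ) x := by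
  obtain ⟨q, hq, rfl⟩ := exists_ext_of_off hx
  refine Glue52.contMDiffAt_of_comp (ld_pd (T.ext v) (mk_mem_prod hq (mem_univ _)))
    (((h.sm _ hq).comp q contMDiffAt_fst).congr_of_eventuallyEq ?_)
  filter_upwards [(T.isOpen_Ex.preimage continuous_fst).mem_nhds hq] with y hy using thx_ext hy

theorem Ang.csm (h : Ang T θ δ) (h' : x ∉ off T v → ∀ᶠ t in 𝓝 (T.time v x), dot δ (v t) = 0) :
    CSm (𝓡 4) (thx T v θ δ) x :=
  (Classical.em _).elim h.csm_off fun k => (csm_ax k (h' k)).congr_of_eventuallyEq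
    (eventually_of_mem (T.isOpen_tor.mem_nhds (tor_of_not_off k)) fun _ => h.thx_eq)

theorem Ang.tl (h : Ang T θ δ) (k : ℤ) (hO : ∀ x ∈ O, x ∉ off T v → Rep v m (k • δ) (T.time v x)) :
    TL T v m (fun _ => 1) (sc (thx T v θ δ ^ k)) O :=
  tl_sc (fun _ _ o => (h.csm_off o).zpow k) fun x hx o => ⟨_, hO x hx o,
    eventually_of_mem (T.isOpen_tor.mem_nhds (tor_of_not_off o)) fun y hy o' => by
      rw [Pi.pow_apply, h.thx_eq hy, chi_smul o']⟩

end Ang

open Crest.Agent.X212.Ext52 in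
/-- the Seifert angle of a knot -/
theorem ang_KD (k : KD) : Ang (ofTube k.toTube) (extend Subtype.val k.θ fun _ => 1) (0, 1) := by
  have m : ∀ q, q ∈ (ofTube k.toTube).Ex → q ∈ k.toTube.Ext := fun q => ((ofFill k.toTube ⟨1, 0, 0, -1, by
    simp⟩).hW q).2
  refine ⟨fun q hq => Glue52.contMDiffAt_of_comp (Glue52.ld_val k.toTube.Ext ⟨q, m q hq⟩)
    ((k.smθ _).congr_of_eventuallyEq (Eventually.of_forall fun y =>
      Subtype.val_injective.extend_apply _ _ y)), fun w hw => ?_⟩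
  exact (Subtype.val_injective.extend_apply _ _ (k.toTube.τE ⟨w, hw⟩)).trans
    ((k.θτ _).trans (by simp [chT]))

/-! ### naturality -/

section fn

variable {EN' HN' : Type} [NormedAddCommGroup EN'] [NormedSpace ℝ EN'] [FiniteDimensional ℝ EN']
  [TopologicalSpace HN'] {IN' : ModelWithCorners ℝ EN' HN'} [IN'.Boundaryless]
  {N' : Type} [TopologicalSpace N'] [ChartedSpace HN' N'] [IsManifold IN' ∞ N'] [T2Space N']
  {T' : Tb IN' N'} {g : N' → N} {v' : ℝ → Z2} {y : Rod53.X T' v'}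

theorem fn_mem_off (h : TE T' T g) (hy : y ∈ T'.ag v' v) : fn T' T g v' v y ∈ off T v ↔ y ∈ off T' v' := by
  simp only [off, mem_ofPred_eq, Tb.eta, h.hf_fn _ _ hy]

theorem chi_fn (h : TE T' T g) (hy : y ∈ off T' v') : chi T v η (fn T' T g v' v y) = chi T' v' η y := by
  obtain ⟨⟨q, t⟩, hq, rfl⟩ := exists_ext_of_off hy
  rw [h.fn_ext hq, chi_ext' hq, chi_ext' (h.mem_Ex.2 hq)]
  by_cases k : q ∈ range T'.τ
  · obtain ⟨w, rfl⟩ := k
    rw [h.eq, T.inj.extend_apply, T'.inj.extend_apply]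
  · rw [extend_apply' _ _ _ k, extend_apply' _ _ _ (mt h.mem_range.1 k)]

theorem TL.fn (hO : TL T v m p s O) (h : TE T' T g) :
    TL T' v' m (fun y => p (fn T' T g v' v y)) (fun y => s (fn T' T g v' v y))
      (T'.ag v' v ∩ fn T' T g v' v ⁻¹' O) := by
  refine ⟨hO.fr.comp ⟨fun y hy => (h.ld_fn hy.1.1).contMDiffAt,
    fun y hy => ⟨hy.1.2, (fn_mem_off h hy.1.1).2 hy.2⟩⟩, fun y hy k => ?_⟩
  obtain ⟨η, a, S, b⟩ := hO.ax _ hy.2 (mt (fn_mem_off h hy.1).1 k)
  rw [h.time_fn hy.1] at a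
  refine ⟨η, a.congr (mem_interior_iff_mem_nhds.1 (hy.1.resolve_left k)) EventuallyEq.rfl,
    fun y => S (Rod53.fn T' T g v' v y), ?_⟩
  filter_upwards [(h.ld_fn hy.1).contMDiffAt.continuousAt.eventually b, T'.isOpen_ag.mem_nhds hy.1]
    with z c d
  exact ⟨c.1.comp (h.ld_fn d).contMDiffAt, c.2.1, fun e =>
    (c.2.2 ((fn_mem_off h d).2 e)).trans (congrArg _ (by simp only [sc, chi_fn h e]))⟩

end fn

end Crest.Agent.X212.Line51
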