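import Crest.Agent.X212.Line51.Rod

/-!
# X212 / Line51, part Pot (helper51): connections on toric lines with prescribed potential

* `Pot T v m α O` : `α - d arg χ_η` extends smoothly over the axis;
* `TL.exists_conn` : every such `α` is the potential of a connection in the frame `s`; `TL.pot` (converse);
* `tp T v w = w₁ dθ₁ + w₂ dθ₂`, `pot_tp` : toric potentials.
-/

set_option autoImplicit false
set_option linter.unusedSectionVars false

open Set Filter Topology Function Matrix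
open scoped ContDiff Manifold Kronecker
open Crest.Agent.R208 Crest.Agent.R208.F Crest.Agent.R208.FI Crest.Agent.X212.Dr59
  Crest.Agent.X212.Pj41
open Crest.Agent.X212.Rod53 hiding Uni X
open Crest.Agent.X212.Glue52 (dir)

noncomputable section

namespace Crest.Agent.X212.Line51

variable {EN HN : Type} [NormedAddCommGroup EN] [NormedSpace ℝ EN] [FiniteDimensional ℝ EN]
  [TopologicalSpace HN] {IN : ModelWithCorners ℝ EN HN} [IN.Boundaryless]
  {N : Type} [TopologicalSpace N] [ChartedSpace HN N] [IsManifold IN ∞ N] [T2Space N]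
  (T : Tb IN N) (v : ℝ → Z2) {κ : Type*} [Fintype κ]

/-- admissible potentials -/
structure Pot (m : ℝ → ℤ) (α : Rod53.X T v → Ext E4) (O : Set (Rod53.X T v)) : Prop where
  sm : Sm (𝓡 4) (O ∩ off T v) α
  dg : Dg 1 (O ∩ off T v) α
  ax : ∀ x ∈ O, x ∉ off T v → ∃ η β, Rep v m η (T.time v x) ∧ SmAt (𝓡 4) β x ∧ IsDeg 1 (β x) ∧
    ∀ᶠ y in 𝓝 x, y ∈ off T v → α y = β y + ang (𝓡 4) (chi T v η) y

/-- the toric one-form `w₁ dθ₁ + w₂ dθ₂` -/
def tp (w : Rod53.X T v → ℝ × ℝ) (y : Rod53.X T v) : Ext E4 :=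
  (w y).1 • ang (𝓡 4) (chi T v (1, 0)) y + (w y).2 • ang (𝓡 4) (chi T v (0, 1)) y

variable {T v} {m m' : ℝ → ℤ} {η : Z2} {O : Set (Rod53.X T v)} {x : Rod53.X T v}
  {p : Rod53.X T v → Matrix κ κ ℂ} {s : Rod53.X T v → Matrix κ Unit ℂ}
  {α α' : Rod53.X T v → Ext E4} {w : Rod53.X T v → ℝ × ℝ}

theorem Ord.th (h : Ord T v p s η x) (hx : x ∈ T.tor v) :
    ∃ S : Rod53.X T v → Matrix κ Unit ℂ, MSm (𝓡 4) S x ∧ ∀ᶠ y in 𝓝 x, y ∈ off T v →
      th (𝓡 4) s y = th (𝓡 4) S y + ang (𝓡 4) (chi T v η) y := by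
  obtain ⟨S, b⟩ := h
  refine ⟨S, b.self_of_nhds.1, ?_⟩
  filter_upwards [b.eventually_nhds, T.isOpen_tor.mem_nhds hx] with y c d e
  rw [th_congr (u' := fun z => S z * sc (chi T v η) z) ((c.and (isOpen_off.mem_nhds e)).mono
    fun z k => k.1.2.2 k.2)]
  exact th_trans (msm_sc (csm_off d e)) c.self_of_nhds.1 (piso_sc _ _) c.self_of_nhds.2.1

/-- **connections with a prescribed potential** -/
theorem TL.exists_conn (hO : IsOpen O) (h : TL T v m p s O) (hα : Pot T v m α O) :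
    ∃ a, (⟨p, a⟩ : Ln E4 _ κ).On (𝓡 4) O ∧ (⟨p, a⟩ : Ln E4 _ κ).Fr (𝓡 4) s α (O ∩ off T v) := by
  obtain ⟨a, h1, h2, h3⟩ := exists_ext_form (I := 𝓡 4) dense_off hO (k := 1)
    (α := α - th (𝓡 4) s) fun x hx => by
      by_cases k : x ∈ off T v
      · exact ⟨_, ⟨(hα.sm.sub h.fr.sm_th) x ⟨hx, k⟩, (hα.dg.sub (dg_th s)) x ⟨hx, k⟩⟩,
          Eventually.of_forall fun _ _ => rfl⟩
      · obtain ⟨η, β, a1, a2, a3, a4⟩ := hα.ax x hx k
        obtain ⟨S, b1, b2⟩ := (h.ord hO hx (Or.inl (tor_of_not_off k)) fun _ => a1).th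
          (tor_of_not_off k)
        refine ⟨β - th (𝓡 4) S, ⟨a2.sub (smAt_th b1), Dg.sub (U := {x}) (by rintro _ rfl; exact a3) (dg_th S) x rfl⟩, ?_⟩
        filter_upwards [a4, b2] with y c d e
        rw [Pi.sub_apply, Pi.sub_apply, c e, d e, add_sub_add_right_eq_sub]
  have o := h.on hO
  exact ⟨a, ⟨o.sm, o.prj, o.tr, h1, h2⟩, h.fr, fun x hx => by
    show _ + a x = α x
    rw [h3 x hx.1 hx.2, Pi.sub_apply, add_sub_cancel]⟩

/-- the potential of a connection is admissible -/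
theorem TL.pot (h : TL T v m p s O) {a : Rod53.X T v → Ext E4} (ha : Sm (𝓡 4) O a) (ha' : Dg 1 O a) :
    Pot T v m (th (𝓡 4) s + a) O := by
  refine ⟨h.fr.sm_th.add (ha.mono inter_subset_left), (dg_th s).add (ha'.mono inter_subset_left),
    fun x hx k => ?_⟩
  obtain ⟨η, a1, a2⟩ := h.ax x hx k
  obtain ⟨S, b1, b2⟩ := a2.th (tor_of_not_off k)
  exact ⟨η, th (𝓡 4) S + a, a1, (smAt_th b1).add (ha x hx), (isDeg_io _).add (ha' x hx),
    b2.mono fun y c e => by rw [Pi.add_apply, Pi.add_apply, c e, add_right_comm]⟩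

theorem ang_chi_add {η' : Z2} (hx : x ∈ T.tor v) (h : x ∈ off T v) : ang (𝓡 4) (chi T v (η + η')) x =
    ang (𝓡 4) (chi T v η) x + ang (𝓡 4) (chi T v η') x :=
  (ang_congr (eventually_of_mem (isOpen_off.mem_nhds h) fun _ k => chi_add k)).trans
    (ang_mul (csm_off hx h) (csm_off hx h))

theorem ang_chi_smul (hx : x ∈ T.tor v) (h : x ∈ off T v) (k : ℤ) :
    ang (𝓡 4) (chi T v (k • η)) x = (k : ℝ) • ang (𝓡 4) (chi T v η) x :=
  (ang_congr (eventually_of_mem (isOpen_off.mem_nhds h) fun _ e => chi_smul e k)).trans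
    (ang_zpow (csm_off hx h) k)

theorem ang_chi (hx : x ∈ T.tor v) (h : x ∈ off T v) : ang (𝓡 4) (chi T v η) x =
    (η.1 : ℝ) • ang (𝓡 4) (chi T v (1, 0)) x + (η.2 : ℝ) • ang (𝓡 4) (chi T v (0, 1)) x := by
  rw [← ang_chi_smul hx h, ← ang_chi_smul hx h, ← ang_chi_add hx h]
  simp

theorem Pot.mono {O' : Set (Rod53.X T v)} (h : Pot T v m α O) (hO : O' ⊆ O) : Pot T v m α O' :=
  ⟨h.sm.mono (inter_subset_inter_left _ hO), h.dg.mono (inter_subset_inter_left _ hO),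
    fun x hx => h.ax x (hO hx)⟩

theorem Pot.add_sm (h : Pot T v m α O) {b : Rod53.X T v → Ext E4} (hb : Sm (𝓡 4) O b)
    (hb' : Dg 1 O b) : Pot T v m (α + b) O :=
  ⟨h.sm.add (hb.mono inter_subset_left), h.dg.add (hb'.mono inter_subset_left), fun x hx k =>
    let ⟨η, β, a1, a2, a3, a4⟩ := h.ax x hx k
    ⟨η, β + b, a1, a2.add (hb x hx), a3.add (hb' x hx), a4.mono fun y c e => by
      rw [Pi.add_apply, Pi.add_apply, c e, add_right_comm]⟩⟩

theorem dg_tp {U : Set (Rod53.X T v)} : Dg 1 U (tp T v w) :=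
  fun _ _ => ((isDeg_io _).smul _).add ((isDeg_io _).smul _)

theorem smAt_tp (hx : x ∈ T.tor v) (h : x ∈ off T v) (h1 : FSm (𝓡 4) (fun y => (w y).1) x)
    (h2 : FSm (𝓡 4) (fun y => (w y).2) x) : SmAt (𝓡 4) (tp T v w) x :=
  ((smAt_ang (csm_off hx h)).fsmul le_rfl h1).add ((smAt_ang (csm_off hx h)).fsmul le_rfl h2)

/-- toric potentials near a point of the axis -/
theorem tp_ax (hx : x ∉ off T v) (h1 : FSm (𝓡 4) (fun y => (w y).1) x)
    (h2 : FSm (𝓡 4) (fun y => (w y).2) x)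
    (h : ∀ᶠ z in 𝓝 x ×ˢ 𝓝 (T.time v x), (w z.1).1 * (v z.2).1 + (w z.1).2 * (v z.2).2 = m z.2) :
    ∃ η β, Rep v m η (T.time v x) ∧ SmAt (𝓡 4) β x ∧ IsDeg 1 (β x) ∧
      ∀ᶠ y in 𝓝 x, y ∈ off T v → tp T v w y = β y + ang (𝓡 4) (chi T v η) y := by
  obtain ⟨P, hP, Q, hQ, hh⟩ := eventually_prod_iff.1 h
  clear h
  have ht := tor_of_not_off hx
  suffices ∃ (η ε : Z2) (c : Rod53.X T v → ℝ), FSm (𝓡 4) c x ∧
      (∀ᶠ t in 𝓝 (T.time v x), dot ε (v t) = 0) ∧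
      ∀ y, P y → (w y).1 = c y * ε.1 + η.1 ∧ (w y).2 = c y * ε.2 + η.2 by
    obtain ⟨η, ε, c, a1, a2, a3⟩ := this
    refine ⟨η, c • ang (𝓡 4) (chi T v ε), ?_, (smAt_ang (csm_ax hx a2)).fsmul le_rfl a1,
      (isDeg_io _).smul _, ?_⟩
    · filter_upwards [hQ, a2] with t b1 b2
      have k := hh hP.self_of_nhds b1
      have k' : (ε.1 : ℝ) * (v t).1 + ε.2 * (v t).2 = 0 := by exact_mod_cast b2
      rw [(a3 x hP.self_of_nhds).1, (a3 x hP.self_of_nhds).2] at k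
      have : (η.1 : ℝ) * (v t).1 + η.2 * (v t).2 = m t := by linear_combination k - c x * k'
      exact_mod_cast this
    · filter_upwards [hP, T.isOpen_tor.mem_nhds ht] with y b1 b2 e
      rw [tp, (a3 y b1).1, (a3 y b1).2, Pi.smul_apply', ang_chi (η := ε) b2 e, ang_chi (η := η) b2 e]
      module
  induction x using T.ind with
  | h1 q t hq => exact absurd (ext_mem_off hq) hx
  | h2 a b hu u t hr =>
    rw [T.time_rod hu (Or.inr hr)] at hQ ⊢
    have hu' := (Jr.pm hr).uni hu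
    have d : (dt (v t) b : ℝ) * dt (v t) b = 1 := by exact_mod_cast hu'.sq
    refine ⟨dual (v t) b (m t) 0, dual (v t) b 0 1, fun y => (w y).1 * b.1 + (w y).2 * b.2,
      (h1.mul' contMDiffAt_const).add (h2.mul' contMDiffAt_const), (mem_Jr.1 hr).mono fun t' k =>
        (dot_pm (k.trans (Jr.pm hr).symm)).2 (dual_left hu' _ _), fun y hy => ?_⟩
    have k := hh hy hQ.self_of_nhds
    simp only [dual, dt, Int.cast_mul, Int.cast_sub, Int.cast_zero, Int.cast_one] at d k ⊢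
    constructor
    · linear_combination (-(w y).1) * d + ((v t).1 * b.2 - (v t).2 * b.1) * b.2 * k
    · linear_combination (-(w y).2) * d - ((v t).1 * b.2 - (v t).2 * b.1) * b.1 * k
  | h3 a b hu c hc =>
    rw [time_vtx0 hu hc] at hQ ⊢
    obtain ⟨⟨a', a1, i, a2⟩, b', b1, j, b2⟩ := vtx_ev hc
      (P := fun a => ∃ i : ℤ, ∀ y, P y → (w y).1 * a.1 + (w y).2 * a.2 = i)
      (hQ.mono fun t k => ⟨m t, fun y hy => hh hy k⟩)
    have hu' : Rod53.Uni a' b' := (b1.uni (a1.uni hu).symm).symm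
    have d : (dt a' b' : ℝ) * dt a' b' = 1 := by exact_mod_cast hu'.sq
    refine ⟨dual a' b' i j, 0, 0, contMDiffAt_const, Eventually.of_forall fun _ => zero_dot _,
      fun y hy => ?_⟩
    have k := a2 y hy
    have k' := b2 y hy
    simp only [dual, dt, Int.cast_mul, Int.cast_sub, Pi.zero_apply, zero_mul, zero_add] at d ⊢
    constructor
    · linear_combination (-(w y).1) * d + (a'.1 * b'.2 - a'.2 * b'.1) * (b'.2 * k - a'.2 * k')
    · linear_combination (-(w y).2) * d + (a'.1 * b'.2 - a'.2 * b'.1) * (a'.1 * k' - b'.1 * k)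

/-- a one-form that is toric near the axis -/
theorem pot_tp (hs : Sm (𝓡 4) (O ∩ off T v) α) (hd : Dg 1 (O ∩ off T v) α)
    (h : ∀ x ∈ O, x ∉ off T v → ∃ w : Rod53.X T v → ℝ × ℝ, FSm (𝓡 4) (fun y => (w y).1) x ∧
      FSm (𝓡 4) (fun y => (w y).2) x ∧
      (∀ᶠ z in 𝓝 x ×ˢ 𝓝 (T.time v x), (w z.1).1 * (v z.2).1 + (w z.1).2 * (v z.2).2 = m z.2) ∧
      ∀ᶠ y in 𝓝 x, y ∈ off T v → α y = tp T v w y) : Pot T v m α O :=
  ⟨hs, hd, fun x hx k =>
    let ⟨_, a1, a2, a3, a4⟩ := h x hx k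
    let ⟨η, β, b1, b2, b3, b4⟩ := tp_ax k a1 a2 a3
    ⟨η, β, b1, b2, b3, (a4.and b4).mono fun _ c e => (c.1 e).trans (c.2 e)⟩⟩

/-- the curvature off the axis -/
theorem F_pot (hO : IsOpen O) {L : Ln E4 (Rod53.X T v) κ} (h : L.On (𝓡 4) O)
    (hs : L.Fr (𝓡 4) s α (O ∩ off T v)) (hx : x ∈ O) (k : x ∈ off T v) :
    L.F (𝓡 4) x = dM (𝓡 4) α x :=
  hs.F_fr (hO.inter isOpen_off) (h.sa.mono inter_subset_left) ⟨hx, k⟩

/-- a smooth form that is `d α` off the axis is the curvature -/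
theorem F_eq_of_pot (hO : IsOpen O) {L : Ln E4 (Rod53.X T v) κ} (h : L.On (𝓡 4) O)
    (hs : L.Fr (𝓡 4) s α (O ∩ off T v)) {G : Rod53.X T v → Ext E4} (hG : Sm (𝓡 4) O G)
    (e : ∀ x ∈ O, x ∈ off T v → G x = dM (𝓡 4) α x) (hx : x ∈ O) : L.F (𝓡 4) x = G x :=
  form_eq_of_dense dense_off (((h.cl_F hO).sm x hx).of_le (by simp)) ((hG x hx).of_le (by simp))
    (eventually_of_mem (hO.mem_nhds hx) fun y hy k => (F_pot hO h hs hy k).trans (e y hy k).symm)

/-- the extended frame `S = s g⁻¹` -/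
theorem fr_of_pot (hO : IsOpen O) {L : Ln E4 (Rod53.X T v) κ} (h : L.On (𝓡 4) O)
    (hs : L.Fr (𝓡 4) s α (O ∩ off T v)) {S : Rod53.X T v → Matrix κ Unit ℂ}
    (hS : Uni (𝓡 4) (fun _ => 1) L.p S O) {g : Rod53.X T v → Circle}
    (hg : ∀ x ∈ O, x ∈ off T v → CSm (𝓡 4) g x) (e : ∀ x ∈ O, x ∈ off T v → S x * sc g x = s x)
    {β : Rod53.X T v → Ext E4} (hβ : Sm (𝓡 4) O β)
    (e' : ∀ x ∈ O, x ∈ off T v → α x = β x + ang (𝓡 4) g x) : L.Fr (𝓡 4) S β O := by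
  refine Uni.iso_of_dense (L := triv β) dense_off hO hS hβ h.sa fun x hx k => ?_
  have k1 := hs.par x ⟨hx, k⟩
  rw [th_congr (u' := fun z => S z * sc g z) (eventually_of_mem ((hO.inter isOpen_off).mem_nhds ⟨hx, k⟩)
    fun z c => (e z c.1 c.2).symm), th_trans (msm_sc (hg x hx k)) (hS.sm x hx) (piso_sc _ _)
      (hS.iso x hx)] at k1
  have k2 : th (𝓡 4) S x + ang (𝓡 4) g x + L.a x = β x + ang (𝓡 4) g x := k1.trans (e' x hx k)
  exact add_right_cancel ((add_right_comm _ _ _).trans k2)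

end Crest.Agent.X212.Line51
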