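import Crest.Agent.X212.Line51.Wd2
import Crest.Agent.X212.Nm96.Defs

/-!
# X212 / Line51, part Wd3 (helper51): the marked line of a weighted word

* `secR2`, `L.SC`, `L.LT`, `o2` : the framed lines of the walls; `Mk0`, `IsMk` : canonical markings;
* `IsN`, `WL.ml` : the marked line; `mk_nat`, `lid`, `mk_use`, `mk_clr` : naturality.
-/

set_option autoImplicit false
set_option linter.unusedSectionVars false

open Set Filter Topology Function Matrix Metric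
open scoped ContDiff Manifold

noncomputable section

namespace Crest.Agent.X212.Line51

open Crest.Agent.X212.Glue52 Crest.Agent.X212.Pj41 Crest.Agent.X212.Tau19 Crest.Agent.X212.Wd38
  Crest.Agent.X212.M Crest.Agent.X212.Int54
open Crest.Agent.X212.Rod53 hiding Uni X
open Crest.Agent.X212.Cyl58 (TP TIso IsOE)
open Crest.Agent.X212.Dr59 (Mp)
open Crest.Agent.X212.Nm96 (acts)
open Crest.Agent.X212.Cyf70 (IC)

/-- a unit vector -/
def e0 : Matrix K3 Unit ℂ := em fun _ => none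

theorem he0 : e0ᴴ * e0 = 1 := em_iso fun _ _ _ => rfl

section rr

/-- a framed line on `S¹ × S²` with the orders `i`, `j` at the poles -/
structure RS (i j : ℤ) (S : Sec (EuclideanSpace ℝ (Fin 1) × EuclideanSpace ℝ (Fin 2))
    (Circle × sphere (0 : E3) 1) K3) : Prop where
  ok : S.OK ((𝓡 1).prod (𝓡 2))
  D : S.D = dR
  l : ∀ y, (L3 y.2).2 < 0 → Og ((𝓡 1).prod (𝓡 2)) dR S.L.p S.s (fun y => dir (L3 y.2).1 ^ i) y
  r : ∀ y, 0 < (L3 y.2).2 → Og ((𝓡 1).prod (𝓡 2)) dR S.L.p S.s (fun y => dir (L3 y.2).1 ^ j) y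
  eq : i = j → S = secR e0 i

theorem not_dR {y : Circle × sphere (0 : E3) 1} (h : y ∉ dR) : (L3 y.2).2 = -1 ∨ (L3 y.2).2 = 1 := by
  have := norm_L3 y.2
  rw [not_not.1 h, norm_zero, norm_eq_of_mem_sphere, zero_pow two_ne_zero, add_zero, one_pow] at this
  exact (sq_eq_one_iff.1 this).symm

theorem exists_RS (i j : ℤ) : ∃ S, RS i j S := by
  rcases eq_or_ne i j with rfl | ne
  · exact ⟨_, ok_secR he0 i, rfl, fun _ _ => .const (Sec.piso_unit he0), fun _ _ => .const (Sec.piso_unit he0),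
      fun _ => rfl⟩
  have o := ok_secR he0 0
  have c : Continuous fun y : Circle × sphere (0 : E3) 1 => (L3 y.2).2 := by fun_prop
  have s : ∀ k : ℤ, ∀ y ∈ dR, CSm ((𝓡 1).prod (𝓡 2)) (fun y : Circle × sphere (0 : E3) 1 => dir (L3 y.2).1 ^ k) y :=
    fun k y hy => cm_zpow (cm_dir ((contDiff_fst.comp L3.contDiff).contDiffAt.comp_contMDiffAt
      ((contMDiff_coe_sphere y.2).comp y contMDiffAt_snd)) hy) k
  let U : K3 → Set (Circle × sphere (0 : E3) 1) := fun k => k.elim dR fun c =>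
    cond c {y | 0 < (L3 y.2).2} {y | (L3 y.2).2 < 0}
  let e : K3 → ℤ := fun k => k.elim 0 fun c => cond c j i
  have cov : ∀ y, ∃ k, y ∈ U k := fun y => (Classical.em _).elim (fun k => ⟨none, k⟩) fun k =>
    (not_dR k).elim (fun z => ⟨some false, z.trans_lt (by simp)⟩) fun z => ⟨some true, one_pos.trans_eq z.symm⟩
  obtain ⟨p, t, k⟩ := exists_og (I := (𝓡 1).prod (𝓡 2)) (U := U) (by
      rintro (_ | _ | _)
      exacts [o.opn, isOpen_lt c continuous_const, isOpen_lt continuous_const c]) cov o.dn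
    (g := fun k y => dir (L3 y.2).1 ^ e k) fun k k' y a b => by
      by_cases d : y ∈ dR
      · exact ⟨_, s (e k' - e k) y d, Eventually.of_forall fun _ _ => by rw [← _root_.zpow_add, sub_add_cancel]⟩
      obtain rfl : k = k' := by
        rcases k with _ | _ | _ <;> rcases k' with _ | _ | _ <;>
          first | rfl | exact absurd a d | exact absurd b d | exact (lt_asymm (a := (0 : ℝ)) a b).elim |
            exact (lt_asymm (a := (0 : ℝ)) b a).elim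
      exact ⟨1, contMDiffAt_const, Eventually.of_forall fun _ _ => (one_mul _).symm⟩
  exact ⟨⟨dR, ⟨p, 0⟩, t⟩, ⟨o.opn, o.dn, on_of_og fun y _ => let ⟨c, a⟩ := cov y; ⟨_, k c y a⟩,
    fun y a => (k none y a).msm (o.opn.mem_nhds a) (s _ y a), fun y a => (k none y a).piso.self_of_nhds a⟩, rfl,
    k (some false), k (some true), fun e => absurd e ne⟩

/-- the framed line of an `S¹ × S²` arc -/
def secR2 (i j : ℤ) := (exists_RS i j).choose

theorem rs_secR2 (i j : ℤ) : RS i j (secR2 i j) := (exists_RS i j).choose_spec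

theorem mk_rb2 {T : Tb (𝓡 3) S3'} {v : ℝ → Z2} {m : ℝ → ℤ} {a b : Z2} {c : ℝ} {ρ : ℝ → ℝ} {i j : ℤ} {κ : Type}
    [Fintype κ] {O : Set (Rod53.X T v)} {p : Rod53.X T v → Matrix κ κ ℂ} {s : Rod53.X T v → Matrix κ Unit ℂ}
    (hu : Rod53.Uni a b) (A : Tb.Arc v a a c ρ) (hO : IsOpen O) (h : TL T v m p s O)
    (hj : range (T.rb v hu c ρ) ⊆ O) (hl : ∀ s, Oa v m a i (c - ρ s)) (hr : ∀ s, Oa v m a j (c + ρ s)) :
    ∃ u, (secR2 i j).Mk ((𝓡 1).prod (𝓡 2)) (fun q => p (T.rb v hu c ρ q)) (fun q => s (T.rb v hu c ρ q)) u univ := by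
  have oe := T.isOE_rb hu A
  have S := rs_secR2 i j
  have P := h.pl hO isOpen_univ ((mp_range oe).mono subset_rfl hj)
  have e := pre_rb (T := T) hu A
  have f := fun q : (Circle × sphere (0 : E3) 1) × ℝ => Eventually.of_forall (f := 𝓝 q) fun z =>
    (contMDiffAt_fst : ContMDiffAt (((𝓡 1).prod (𝓡 2)).prod 𝓘(ℝ, ℝ)) _ ∞ Prod.fst z)
  have key : ∀ k q, T.rb v hu c ρ q ∉ off T v → Oa v m a k (c + ρ q.2 * (L3 q.1.2).2) →
      Og _ (Prod.fst ⁻¹' dR) (fun q => p (T.rb v hu c ρ q)) (fun q => s (T.rb v hu c ρ q))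
        (fun z => dir (L3 z.1.2).1 ^ k) q := fun k q o r =>
    (P.ax q trivial o (dual a b k 0) (by
      rw [Tb.rb, T.time_rod hu (A.mem_Ur q), rc, map_smul]
      exact r _ (dual_left hu _ _))).congr EventuallyEq.rfl (Eventually.of_forall fun z d => ⟨e.ge d, rfl, by
        rw [Tb.rb, chi_rod hu ((rod_mem_off (T := T) hu (A.mem_Ur z)).1 (e.ge d)), dual_left hu, dual_right hu,
          zpow_zero, mul_one, rc, L3_smul, dir_pos_mul (A.pos z.2)]⟩)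
  unfold Sec.Mk
  rw [S.D]
  refine exists_mt isOpen_univ (fun q _ => (S.D ▸ S.ok.dn') q) fun q _ => ?_
  by_cases o : q.1 ∈ dR
  · exact ⟨1, P.og0 isOpen_univ ((mp_range oe).mono subset_rfl (subset_univ _)) trivial (e.ge o),
      (Og.of_fr (D := dR) S.ok.opn S.ok.fr (S.D.ge o)).comp (f q)⟩
  rcases not_dR o with z | z
  · exact ⟨_, key i q (fun k => o (e.le k)) (by rw [z, mul_neg_one, ← sub_eq_add_neg]; exact hl _),
      (S.l _ (z.trans_lt (by simp))).comp (f q)⟩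
  · exact ⟨_, key j q (fun k => o (e.le k)) (by rw [z, mul_one]; exact hr _), (S.r _ (one_pos.trans_eq z.symm)).comp (f q)⟩

end rr

variable {Γ : Nm} {C : Cx Γ} {Λ : NmL Γ} {w w' : Shp Γ} {n n' : Wt} {x y d : ℤ}
  {L : LCx C Λ} {hw : w.OK} {hw' : w'.OK} {X X' : TP V4} {R : Rz C hw X} {R' : Rz C hw' X'}
  {κ lam : Type} [Fintype κ] [Fintype lam] {A : Set ℤ} {z : X.P.M} {b : Bs} {σ : Γ.ι × Z2}
  {ψ : PartialDiffeomorph X.mf.I X'.mf.I X.P.M X'.P.M ∞}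

/-! ### the framed lines of the walls -/

variable (C σ) in
/-- the framed trivial line of a trivial filling -/
abbrev sK0 (i : ℤ) : Sec E3 (mF C.kd σ).M K3 :=
  secK (C.F σ rfl) (uni_s (fd σ.2)) e0 (extend Subtype.val (C.kd σ.1).θ fun _ => 1) (0, 1) (i * σ.2.2)

theorem sf_sK0 (h : Pr σ.2) (h0 : σ.2.1 = 0) (i : ℤ) : SF (C.F σ rfl) (uni_s (fd σ.2)) i (sK0 C σ i) :=
  sf_secK he0 (ang_KD _) (by
    obtain ⟨β, k⟩ := id h
    have := k.sq
    rw [sa_fd h]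
    simp only [dt, h0, zero_mul, zero_sub, neg_mul_neg] at this
    have e : σ.2.2 * σ.2.2 = 1 := by
      rcases Int.eq_one_or_neg_one_of_mul_eq_one (u := σ.2.2) (v := β.1 * (σ.2.2 * β.1)) (by linarith) with e | e <;>
        rw [e] <;> rfl
    simp [dot, h0, mul_assoc, e])

variable (C σ) in
open Classical in
/-- the same on the sphere -/
def sK (i : ℤ) : Sec mS.E mS.M K3 :=
  if h : Pr σ.2 ∧ σ.2.1 = 0 then ⟨sD C.kd σ h.1 h.2 ⁻¹' (sK0 C σ i).D, ⟨fun _ => e0 * e0ᴴ, 0⟩,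
    fun y => (sK0 C σ i).s (sD C.kd σ h.1 h.2 y)⟩ else secS e0 0 0

theorem sK_L (i : ℤ) : (sK C σ i).L = ⟨fun _ => e0 * e0ᴴ, 0⟩ := by unfold sK; split_ifs <;> rfl

theorem ok_sK (i : ℤ) : (sK C σ i).OK mS.I := by
  unfold sK
  split_ifs with h
  · have k := (sf_sK0 (C := C) h.1 h.2 i).ok
    exact ⟨k.opn.preimage (sD C.kd σ h.1 h.2).continuous, k.dn.preimage (sD C.kd σ h.1 h.2).toHomeomorph.isOpenMap,
      (ok_secS he0 0 0).ln, k.fr.comp ⟨fun y _ => (sD C.kd σ h.1 h.2).contMDiff y, fun _ a => a⟩⟩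
  · exact ok_secS he0 0 0

variable (L) in
/-- the framed line of a type of walls -/
def LCx.SC : ∀ τ : WT Γ.ι, Option (Γ.ι × Z2) → ℤ × ℤ → Sec (mY C.kd τ).E (mY C.kd τ).M K3
  | .sph, none, o => secS e0 o.1 o.2
  | .sph, some σ, o => sK C σ o.1
  | .rr, _, o => secR2 o.1 o.2
  | .lens a b, _, o => secL (lz a b).2 o.1 o.2
  | .fil τ, _, o => L.S τ o.1

variable (L) in
/-- **the line of a type of walls** -/
def LCx.LT (τ : WT Γ.ι) (o : ℤ × ℤ) : Ln (mY C.kd τ).E (mY C.kd τ).M K3 := (L.SC τ none o).L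

theorem SC_L : ∀ τ f o, (L.SC τ f o).L = L.LT τ o
  | .sph, some _, _ => sK_L _
  | .sph, none, _ | .rr, _, _ | .lens _ _, _, _ | .fil _, _, _ => rfl

theorem SC_ok : ∀ τ f o, (L.SC τ f o).OK (mY C.kd τ).I
  | .sph, none, _ => ok_secS he0 _ _
  | .sph, some _, _ => ok_sK _
  | .rr, _, _ => (rs_secR2 _ _).ok
  | .lens _ _, _, _ => ok_secL _ _ _
  | .fil _, _, _ => (L.sf _ _).ok

theorem LT_sph (o : ℤ × ℤ) : L.LT .sph o = ⟨fun _ => e0 * e0ᴴ, 0⟩ := rfl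

theorem LT_rr (i : ℤ) : L.LT .rr (i, i) = ⟨fun _ => e0 * e0ᴴ, 0⟩ := congrArg Sec.L ((rs_secR2 i i).eq rfl)

theorem LT_lens (α β : Z2) (o : ℤ × ℤ) : L.LT (.lens α β) o = (secL (lz α β).2 o.1 o.2).L := rfl

theorem LT_fil (o : ℤ × ℤ) : L.LT (.fil σ) o = (L.S σ o.1).L := rfl

/-- the orders at the feet -/
def o2 (w : Shp Γ) (n : Wt) : Bs → ℤ × ℤ
  | .rA x y => (n.nr x, Tw.sg (w.s y).l.2 (w.s x).r.2 * n.nl y)
  | b => b.ord n

theorem o2_rA (hw : w.OK) (h : (Bs.rA x y).OK w) (k : (Bs.rA x y).OKn w n) : o2 w n (.rA x y) = (n.nr x, n.nr x) := by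
  obtain ⟨β, u⟩ := h.1.prl hw
  rcases h.2 with e | e
  · rw [o2, k.1 e, Tw.sg, if_pos e, one_mul]
  · rw [o2, k.2 e, e, sg_neg (PM.refl _) u, Tw.sg, if_pos rfl, neg_mul_neg, one_mul]

/-- the type of a spherical slice -/
def fk (w : Shp Γ) : Bs → Option (Γ.ι × Z2)
  | .sS x => some (w.s x).r
  | _ => none

/-- the end of the chart of a toric wall -/
def up : Bs → ℤ
  | .sS x | .yS x => x + 1
  | b => b.hi

variable (L w n b) in
/-- the framed line of a toric wall -/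
abbrev LCx.sec : Sec (mY C.kd (b.ty w)).E (mY C.kd (b.ty w)).M K3 := L.SC (b.ty w) (fk w b) (o2 w n b)

/-- the marking of a toric wall -/
abbrev Mk0 (W : WL L R n κ) (h : b.OK w) (m : (mY C.kd (b.ty w)).M × ℝ → Matrix K3 κ ℂ) : Prop :=
  (L.sec w n b).Mk (mY C.kd (b.ty w)).I (fun q => W.p ((R.nk b h).j q))
    (fun q => sg L R n W.g b.lo ((R.nk b h).j q)) m univ

theorem nk_bd (h : b.OK w) (q) : (R.nk b h).j q ∈ R.bd b := (R.spec_nk b h).b.le (mem_range_self q)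

theorem an_tm {Y : Mf 3} (e : b.r0 = (y - x) / 2) (N : AN (C.T (w.kn x)) (w.v x y) Y (cc x y) b.ρ)
    [CompactSpace Y.M] [ConnectedSpace Y.M] (q : Y.M × ℝ) : C.tm (N.j q) ∈ II x y :=
  mem_II_of_le (((C.T _).abs_time_le _ _).trans_eq (N.mem q).2) (e ▸ (b.ρ_mem _).2)

theorem oa_ft (hw : w.OK) (h : w.Rg x y) (e : b.r0 = (y - x) / 2) :
    (∀ s, Oa (w.v x y) (wz w n x y) (w.s x).r.2 (n.nr x) (cc x y - b.ρ s)) ∧
      ∀ s, Oa (w.v x y) (wz w n x y) (w.s y).l.2 (n.nl y) (cc x y + b.ρ s) :=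
  ⟨fun s => by
    have := oa_wz (n := n) hw h (II_sub _ _ (Shp.Rg.feet e s).1)
    rwa [Shp.bw_le le_rfl, bn_le le_rfl] at this, fun s => by
    have := oa_wz (n := n) hw h (II_sub _ _ (Shp.Rg.feet e s).2)
    rwa [Shp.bw_ge h.lt le_rfl, bn_ge h.lt le_rfl] at this⟩

theorem mp_ρ (e : b.r0 = x + 1 / 2) : Mp 𝓘(ℝ, ℝ) 𝓘(ℝ, ℝ) univ (II x x) b.ρ :=
  ⟨fun s _ => (isOE_sig b.r0_lt).contMDiff s, fun s _ => Bs.ρ_II e s⟩

theorem exists_mk0 (W : WL L R n κ) : ∀ (b : Bs) (h : b.OK w), ∃ m, Mk0 W h m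
  | .sA x y, h =>
    have a := h.1.arc hw (b := .sA x y) rfl (PM.refl _) (PM.refl _)
    mk_sb h.2 a (W.tl h.1) (range_subset_iff.2 (an_tm rfl ((C.T _).sA h.2 a (Bs.ρ_mono _))))
      (oa_ft hw h.1 rfl).1 (oa_ft hw h.1 rfl).2 he0
  | .rA x y, h =>
    have a := h.1.arc hw (b := .rA x y) rfl (PM.refl _) h.2
    mk_rb2 (uni_pz (h.1.prl hw)) a (op_tm C w x y) (W.tl h.1)
      (range_subset_iff.2 (an_tm rfl ((C.T _).rA _ a (Bs.ρ_mono _)))) (oa_ft hw h.1 rfl).1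
      fun s η e => (oa_ft hw h.1 rfl).2 s η (dot_of_sg h.2 e)
  | .lA x y, h => by
    have e := lz_eq ⟨h.1.prl hw, h.1.prr hw, h.2⟩
    have a : Tb.Arc (w.v x y) (lz (w.s x).r.2 (w.s y).l.2).1.1 (lz (w.s x).r.2 (w.s y).l.2).1.2 (cc x y)
        (Bs.lA x y).ρ := by rw [e]; exact h.1.arc hw rfl (PM.refl _) (PM.refl _)
    exact mk_lb _ a (op_tm C w x y) (W.tl h.1) (range_subset_iff.2 (an_tm rfl ((C.T _).lA _ a (Bs.ρ_mono _))))
      (by rw [e]; exact (oa_ft hw h.1 rfl).1) (by rw [e]; exact (oa_ft hw h.1 rfl).2)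
  | .sS x, h => by
    have r := Shp.rg_one h.1 h.2.1
    have p := (hw.pr x h.1 h.2.1.le).2
    obtain ⟨m, k⟩ := mark_pt hw r le_rfl r.lt.le rfl (Shp.bw_le le_rfl) (bn_le le_rfl) (sf_sK0 p h.2.2 _) (W.tl r)
    refine ⟨fun q => m (sD C.kd _ p h.2.2 q.1, (Bs.sS x).ρ q.2), ?_⟩
    change (sK C _ _).Mk mS.I _ _ _ _
    rw [sK, dif_pos ⟨p, h.2.2⟩]
    exact (k.time (mp_ρ (b := .sS x) rfl)).comp (f := fun q : mS.M × ℝ => (sD C.kd _ p h.2.2 q.1, q.2))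
      ⟨fun q _ => (((sD C.kd _ p h.2.2).contMDiff _).comp q contMDiffAt_fst).prodMk contMDiffAt_snd, fun _ _ => trivial⟩
  | .yS x, h =>
    have r := Shp.rg_one h.1 h.2
    let ⟨_, k⟩ := mark_pt hw r le_rfl r.lt.le rfl (Shp.bw_le le_rfl) (bn_le le_rfl) (L.sf _ _) (W.tl r)
    ⟨_, k.time (mp_ρ (b := .yS x) rfl)⟩

theorem nk_Db : ∀ (b : Bs) (h : b.OK w), ∃ r : w.Rg b.lo (up b), ∀ q, q.1 ∈ (L.sec w n b).D → (R.nk b h).j q ∈ Db R r
  | .sA x y, h =>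
    have a := h.1.arc hw (b := .sA x y) rfl (PM.refl _) (PM.refl _)
    ⟨h.1, fun q k => (mem_imT _ (an_tm rfl ((C.T _).sA h.2 a (Bs.ρ_mono _)) q)).2
      ((congrFun (sb_eq (T := C.T (w.kn x)) h.2 a) q).symm ▸ (lc_mem_off h.2.lh a q).2 k :)⟩
  | .rA x y, h =>
    have a := h.1.arc hw (b := .rA x y) rfl (PM.refl _) h.2
    ⟨h.1, fun q k => (mem_imT _ (an_tm rfl ((C.T _).rA (uni_pz (h.1.prl hw)) a (Bs.ρ_mono _)) q)).2
      ((pre_rb _ a).ge ((rs_secR2 _ _).D.le k))⟩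
  | .lA x y, h => by
    have a : Tb.Arc (w.v x y) (lz (w.s x).r.2 (w.s y).l.2).1.1 (lz (w.s x).r.2 (w.s y).l.2).1.2 (cc x y)
        (Bs.lA x y).ρ := by
      rw [lz_eq ⟨h.1.prl hw, h.1.prr hw, h.2⟩]; exact h.1.arc hw rfl (PM.refl _) (PM.refl _)
    exact ⟨h.1, fun q k => (mem_imT _ (an_tm rfl ((C.T _).lA _ a (Bs.ρ_mono _)) q)).2 ((pre_lb _ a).ge k)⟩
  | .sS x, h => by
    have r := Shp.rg_one h.1 h.2.1
    have p := (hw.pr x h.1 h.2.1.le).2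
    refine ⟨r, fun q k => ?_⟩
    have t := Bs.ρ_II (b := .sS x) rfl q.2
    change _ ∈ (sK C _ _).D at k
    rw [sK, dif_pos ⟨p, h.2.2⟩] at k
    exact (mem_imT _ (II_mono le_rfl r.lt.le ((C.pR hw r rfl).mem (x := (_, _)) t))).2
      ((pt_off L hw r _ _ 0 (q := (_, _)) t).2 ((L.sf _ 0).D.ge k))
  | .yS x, h =>
    have r := Shp.rg_one h.1 h.2
    ⟨r, fun q k => have t := Bs.ρ_II (b := .yS x) rfl q.2
      (mem_imT _ (II_mono le_rfl r.lt.le ((C.pR hw r rfl).mem (x := (_, _)) t))).2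
        ((pt_off L hw r _ _ _ (q := (_, _)) t).2 k)⟩

theorem Bs.Mt.up (h : b.Mt w w' d x y) (k : b.OK w) : x ≤ b.lo ∧ b.hi ≤ up b ∧ up b ≤ y := by
  cases b
  iterate 3 exact ⟨h.1, le_rfl, h.2.1⟩
  all_goals exact ⟨h.1, (lt_add_one _).le, h.2.1⟩

theorem bd_Vw (h1 : x ≤ b.lo) (h2 : b.hi ≤ y) (h : b.lo ∈ A) (h' : b.hi ∈ A) : R.bd b ⊆ Vw R A x y := fun z k => by
  refine ⟨II_mono h1 h2 (R.bd_II k), ?_⟩
  by_cases c : b.arc
  · rw [Rz.bd, (R.arc_eq c).1, (R.arc_eq c).2] at k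
    obtain ⟨r, p, t, u, rfl⟩ := k
    refine (Classical.em _).imp (fun o => ⟨_, _, r, (R.B r).mem t, (mem_imT _ t).2 o⟩) fun o => ?_
    have e : (C.T _).rr _ (cc b.lo b.hi) p ∈ Ioo _ _ := u.2
    rw [((C.T _).rr_axis (c := cc b.lo b.hi) o).2] at e
    rw [mem_preimage, tm_B r t]
    unfold cc at e
    rcases abs_cases (C.tm p - (b.lo + b.hi + 1) / 2) with f | f <;> rw [f.1] at e
    exacts [mem_TA1 h' ⟨by linarith [e.1], by linarith [e.2]⟩, mem_TA1 h ⟨by linarith [e.2], by linarith [e.1]⟩]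
  · have e : b.hi = b.lo := by cases b <;> first | rfl | exact (c trivial).elim
    exact .inr (mem_TA (fun j p q => le_antisymm p (q.trans e.le) ▸ h) (R.bd_II k))

theorem o2_sh (G : Ga w w' n n' d x y A) (h : b.Mt w w' d x y) (k : b.OK w) (h1 : b.lo ∈ A) (h2 : b.hi ∈ A) :
    o2 w' n' (b.sh d) = o2 w n b ∧ fk w' (b.sh d) = fk w b := by
  have g := (G.gd _ h1).1
  have g' := (G.gd _ h2).2
  cases b <;> simp only [o2, fk, Bs.sh, Bs.ord, Bs.lo, Bs.hi] at *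
  iterate 3 simp only [g (k.1.lt.trans_le h.2.1), g' (h.1.trans_lt k.1.lt), and_self]
  all_goals simp only [g h.2.1, and_self]

theorem SC_cY {τ τ' : WT Γ.ι} (E : τ = τ') (f o) (u : (mY C.kd τ).M) :
    (cY C.kd E u ∈ (L.SC τ' f o).D ↔ u ∈ (L.SC τ f o).D) ∧ (L.SC τ' f o).s (cY C.kd E u) = (L.SC τ f o).s u ∧
      (L.LT τ' o).p (cY C.kd E u) = (L.LT τ o).p u ∧
      (L.LT τ' o).pull (mY C.kd τ).I (mY C.kd τ').I (cY C.kd E) = L.LT τ o := by
  subst E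
  exact ⟨.rfl, rfl, rfl, congrArg (Ln.mk _) (Dr59.pm_id _)⟩

theorem cm_nk (h : b.OK w) : ContMDiff (IC (mY C.kd (b.ty w)).I) X.P.I ∞ (R.nk b h).j := (R.nk b h).h.oe.contMDiff

theorem mk0_nat {W : WL L R n κ} {W' : WL L R' n' lam} (H : Lc R R' d x y ψ) (G : Ga w w' n n' d x y A)
    (h : b.Mt w w' d x y) {k : b.OK w} {k' : (b.sh d).OK w'} (h1 : b.lo ∈ A) (h2 : b.hi ∈ A) {m m'} (M : Mk0 W k m)
    (M' : Mk0 W' k' m') {V : Set X.P.M} (hV : IsOpen V) {u} (c : Cp W W' ψ d x y V u) (q) (hq : (R.nk b k).j q ∈ V) :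
    m' (cY C.kd h.ty q.1, q.2) * u ((R.nk b k).j q) = m q := by
  obtain ⟨r, hr⟩ := nk_Db (L := L) (n := n) (R := R) b k
  obtain ⟨u1, u2, u3⟩ := Bs.Mt.up h k
  have e := o2_sh G h k h1 h2
  have s := SC_cY (L := L) h.ty (fk w b) (o2 w n b)
  have j := fun q : _ × ℝ => (H.nk h k k' q.1 q.2).2
  have lo : (b.sh d).lo = b.lo + d := by cases b <;> rfl
  refine ((c.uni.comp (W := (R.nk b k).j ⁻¹' V) ⟨fun q _ => cm_nk k q, fun _ a => a⟩).trans
    ((M'.toUni.comp (f := fun q => (cY C.kd h.ty q.1, q.2)) ⟨fun q _ => (((cY C.kd h.ty).contMDiff _).comp q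
      contMDiffAt_fst).prodMk contMDiffAt_snd, mapsTo_univ _ _⟩).congr_p (fun q _ => congrArg W'.p (j q))
      fun _ _ => rfl)).ext_sec (hV.preimage (cm_nk k).continuous) (fun q _ => (SC_ok (L := L) _ (fk w b) (o2 w n b)).dn' q)
    (M.toUni.mono (subset_univ _)) (fun q a o => ?_) hq
  have t := II_mono le_rfl u2 (R.bd_II (nk_bd (R := R) k q))
  refine ⟨_, W.unit' (eL := False) (eR := False) ⟨.B _ _ r, ⟨u1, u3⟩, t, hr q o⟩ b.lo, ?_⟩
  rw [Matrix.mul_assoc, c.mt r u1 u3 _ a t (hr q o), j, ← lo, M.eq q trivial o, ← (s q.1).2.1, ← e.1, ← e.2]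
  exact M'.eq _ trivial (by rw [LCx.sec, e.1, e.2]; exact (s q.1).1.2 o)

/-- **the canonical marking** of a twisted wall -/
def IsMk (h : b.OK w) : ∀ (_ : List Tw) {n : Wt} {κ : Type} [Fintype κ] (_ : WL L R n κ)
    (_ : (mY C.kd (b.ty w)).M × ℝ → Matrix K3 κ ℂ), Prop
  | [], _, _, _, W, m => Mk0 W h m
  | t :: l, n, _, _, W, m => ∃ (k : t.OK w) (W' : WL L R (t.act w n) K3) (U m' : _), TwX k W W' U ∧ IsMk h l W' m' ∧
      m = fun q => m' q * (U (R.tws l ((R.nk b h).j q)))ᴴ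

theorem exists_isMk (h : b.OK w) : ∀ (l : List Tw) (_ : ∀ t ∈ l, t.OK w) {n : Wt} {κ : Type} [Fintype κ]
    (W : WL L R n κ), ∃ m, IsMk h l W m
  | [], _, _, _, _, W => exists_mk0 W b h
  | t :: l, k, _, _, _, W =>
    have o := k t (by simp)
    let ⟨W'⟩ := exists_WL L R (act_ok W.ok o)
    let ⟨U, a⟩ := exists_twx o W W'
    let ⟨m, c⟩ := exists_isMk h l (fun s e => k s (by simp [e])) W'
    ⟨_, o, W', U, m, a, c, rfl⟩

theorem IsMk.uni {h : b.OK w} : ∀ {l : List Tw} {n : Wt} {κ : Type} [Fintype κ] {W : WL L R n κ} {m},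
    IsMk h l W m → Uni (IC (mY C.kd (b.ty w)).I) (fun q => W.p (R.tws l ((R.nk b h).j q)))
      (fun q => (L.LT (b.ty w) (o2 w (acts w l n) b)).p q.1) m univ
  | [], _, _, _, _, _, k => k.toUni.congr_p (fun _ _ => rfl) fun q _ => by rw [← SC_L _ (fk w b)]; rfl
  | _ :: l, _, _, _, _, _, ⟨_, _, _, _, a, c, e⟩ => e ▸ (a.uni.comp (f := fun q => R.tws l ((R.nk b h).j q))
      ⟨fun q _ => ((R.tws l).contMDiff.comp (cm_nk h)) q, mapsTo_univ _ _⟩).symm.trans c.uni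

/-- the feet and the twists lie over `A` -/
def WA (A : Set ℤ) (a : Wl) : Prop := a.b.lo ∈ A ∧ a.b.hi ∈ A ∧ ∀ t ∈ a.tw, ∀ j, t.x - 1 ≤ j → j ≤ t.y + 1 → j ∈ A

theorem mul_tw {k l k' l' : Type} [Fintype k] [Fintype l] [Fintype k'] [Fintype l'] {U : Matrix k l ℂ}
    {U' : Matrix k' l' ℂ} {u : Matrix k' k ℂ} {v : Matrix l' l ℂ} {p q p' q'} (hU : PIso U q p) (hU' : PIso U' q' p')
    (hu : PIso u p p') (hv : PIso v q q') (e : U' * v = u * U) : U'ᴴ * u = v * Uᴴ := by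
  rw [← hu.idem, ← hU.tgt, ← Matrix.mul_assoc u, ← e, ← Matrix.mul_assoc, ← Matrix.mul_assoc, hU'.src, hv.left]

theorem mk_sh (H : Lc R R' d x y ψ) (h : b.Mt w w' d x y) {k : b.OK w} {k' : (b.sh d).OK w'} :
    ∀ {l : List Tw} {n n' : Wt} {κ lam : Type} [Fintype κ] [Fintype lam] {W : WL L R n κ} {W' : WL L R' n' lam} {m m'},
      Ga w w' n n' d x y A → (∀ t ∈ l, t.Mt w w' d x y) → WA A ⟨b, l⟩ → IsMk k l W m →
      IsMk k' (l.map (·.sh d)) W' m' → o2 w' (acts w' (l.map (·.sh d)) n') (b.sh d) = o2 w (acts w l n) b ∧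
        ∀ {V : Set X.P.M} {u}, IsOpen V → Cp W W' ψ d x y V u → ∀ q, R.tws l ((R.nk b k).j q) ∈ V →
          m' (cY C.kd h.ty q.1, q.2) * u (R.tws l ((R.nk b k).j q)) = m q
  | [], _, _, _, _, _, _, _, _, _, _, G, _, a, M, M' =>
    ⟨(o2_sh G h k a.1 a.2.1).1, fun hV c => mk0_nat H G h a.1 a.2.1 M M' hV c⟩
  | t :: l, _, _, _, _, _, _, W, W', _, _, G, hl, a, ⟨_, W₁, U, m, T, M, e⟩, ⟨_, W₁', U', m', T', M', e'⟩ => by
    have ht := hl t (by simp)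
    have ha := a.2.2 t (by simp)
    have hl' := fun s (e : s ∈ l) => hl s (by simp [e])
    have ih := mk_sh H h (ga_act G ht ha) hl' ⟨a.1, a.2.1, fun s e => a.2.2 s (by simp [e])⟩ M M'
    refine ⟨ih.1, fun {V u} hV c q hq => ?_⟩
    obtain ⟨u₀, c₀⟩ := exists_cp W W' H G
    obtain ⟨u₁, c₁⟩ := exists_cp W₁ W₁' H (ga_act G ht ha)
    obtain ⟨u1, u2, u3⟩ := Bs.Mt.up h k
    have v : R.tws l ((R.nk b k).j q) ∈ Vw R A x y :=
      (R.tws_mem fun s e => .inl (K_Vw (hl' s e) (a.2.2 s (by simp [e])))).2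
        (bd_Vw u1 (u2.trans u3) a.1 a.2.1 (nk_bd k q))
    have v' := (R.tw_mem (.inl (K_Vw ht ha))).2 v
    have j := H.nk h k k' q.1 q.2
    have s := vw_src H G v
    subst e e'
    replace hq : R.tw t (R.tws l _) ∈ V := hq
    change m' _ * (U' _)ᴴ * u (R.tw t (R.tws l _)) = m q * _
    rw [c.unique c₀ H.sk.lo' G.lt H.sk.hi' (hV.inter isOpen_Vw) (fun _ o => o.2.1) inter_subset_left
      inter_subset_right ⟨hq, v'⟩, ← ih.2 isOpen_Vw c₁ q v, ← j.2, ← H.tws hl' j.1, Matrix.mul_assoc, Matrix.mul_assoc,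
      mul_tw (T.uni.iso _ trivial) (T'.uni.iso _ trivial) (H.tw ht s ▸ c₀.uni.iso _ v') (c₁.uni.iso _ v)
        (tw_nat H G ht ha T T' c₀ c₁ v)]

/-- **naturality of the markings** -/
theorem mk_nat (H : Lc R R' d x y ψ) (G : Ga w w' n n' d x y A) {a a' : Wl} (e : a' = a.sh d) (h : a.Mt w w' d x y)
    (ha : WA A a) {k : a.b.OK w} {k' : a'.b.OK w'} (E : a.b.ty w = a'.b.ty w') {W : WL L R n κ} {W' : WL L R' n' lam}
    {m m'} (M : IsMk k a.tw W m) (M' : IsMk k' a'.tw W' m') :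
    o2 w' (acts w' a'.tw n') a'.b = o2 w (acts w a.tw n) a.b ∧ ∀ {V : Set X.P.M} {u}, IsOpen V → Cp W W' ψ d x y V u →
      ∀ q, (R.bn a k).j q ∈ V → m' (cY C.kd E q.1, q.2) * u ((R.bn a k).j q) = m q := by
  subst e
  exact mk_sh H h.1 G h.2 ha M M'

/-! ### one word -/

theorem Bs.sh_zero (b : Bs) : b.sh 0 = b := by cases b <;> simp [Bs.sh]

theorem Tw.sh_zero (t : Tw) : t.sh 0 = t := by simp [Tw.sh]

theorem Wl.sh_zero (a : Wl) : a.sh 0 = a := by simp [Wl.sh, Bs.sh_zero, Tw.sh_zero]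

theorem agr_refl : w.Agr w 0 x y := ⟨by rw [add_zero], fun _ _ _ => by rw [add_zero], by rw [add_zero]⟩

theorem Tw.mt_refl {t : Tw} (h : t.OK w) : t.Mt w w 0 w.l w.r :=
  ⟨h, by linarith [h.rg.lo], by linarith [h.rg.hi], agr_refl⟩

theorem Wl.mt_refl {a : Wl} (h : a.OK w) : a.Mt w w 0 w.l w.r := by
  refine ⟨?_, fun t k => Tw.mt_refl (h.2 t k)⟩
  obtain ⟨b, _⟩ := a
  cases b <;> simp only [Bs.Mt, add_zero, and_true]
  exacts [⟨h.1.1.lo, h.1.1.hi⟩, ⟨h.1.1.lo, h.1.1.hi⟩, ⟨h.1.1.lo, h.1.1.hi⟩, ⟨h.1.1, h.1.2.1⟩, h.1]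

theorem ga_self (hw : w.OK) (h : ∀ j ∈ A, n'.nl j = n.nl j ∧ n'.nr j = n.nr j) (h' : ∀ j J, w.s j = .jn J → j ∈ A) :
    Ga w w n n' 0 w.l w.r A :=
  ⟨hw.lt, fun j c => by
    rw [Gd, add_zero, (h j c).1, (h j c).2]; exact ⟨fun _ => ⟨rfl, rfl⟩, fun _ => ⟨rfl, rfl⟩⟩, fun j J _ _ => h' j J⟩

/-- global sections are matched -/
theorem cp_of_g {W : WL L R n κ} {W' : WL L R' n' lam} (H : Lc R R' d x y ψ) (G : Ga w w' n n' d x y A)
    (h : ∃ τ, w.s x = .rod τ) (h' : ∃ τ, w'.s (x + d) = .rod τ) {V : Set X.P.M} (hV : V ⊆ ψ.source) {u}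
    (hu : Uni X.P.I W.p (fun z => W'.p (ψ z)) u V)
    (e : ∀ z ∈ V, z ∈ Dw L R x y False False → u z * W.g z = W'.g (ψ z)) : Cp W W' ψ d x y V u :=
  GM.cp (eL := False) (eR := False) H G hV ⟨hu, fun z a c => by
    rw [lm_one h h', Circle.coe_one, one_smul]; exact e z a c⟩

theorem cp_self {W : WL L R n κ} {W' : WL L R n' lam} (G : Ga w w n n' 0 w.l w.r A) {V : Set X.P.M} {u}
    (hu : Uni X.P.I W.p W'.p u V) (e : ∀ z ∈ V, z ∈ Dw L R w.l w.r True True → u z * W.g z = W'.g z) :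
    Cp W W' (idp X) 0 w.l w.r V u :=
  cp_of_g (lc_refl le_rfl le_rfl) G ⟨_, hw.sl⟩ ⟨_, (add_zero w.l).symm ▸ hw.sl⟩ (fun _ _ => trivial) hu
    fun z a c => e z a (Dw_mono c)

theorem WL.uni (W : WL L R n κ) : Uni X.P.I W.p W.p W.p univ := ⟨W.ln.sm, fun z a => (W.ln.prj z a).refl⟩

theorem mk_self (G : Ga w w n n' 0 w.l w.r A) {a : Wl} (h : a.OK w) (ha : WA A a) {W : WL L R n κ}
    {W' : WL L R n' lam} {m m'} (M : IsMk h.1 a.tw W m) (M' : IsMk h.1 a.tw W' m') :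
    o2 w (acts w a.tw n') a.b = o2 w (acts w a.tw n) a.b ∧ ∀ {V : Set X.P.M} {u}, IsOpen V →
      Cp W W' (idp X) 0 w.l w.r V u → ∀ q, (R.bn a h.1).j q ∈ V → m' q * u ((R.bn a h.1).j q) = m q :=
  mk_nat (lc_refl le_rfl le_rfl) G (Wl.sh_zero a).symm (Wl.mt_refl h) ha rfl M M'

variable {t : Tw} {l : List Tw} {k : t.OK w} {W : WL L R n κ} {W₁ : WL L R (t.act w n) lam}
  {U : X.P.M → Matrix κ lam ℂ}

theorem TwX.unique {W₂ : WL L R (t.act w n) K3} {U' u} (T : TwX k W W₁ U) (T' : TwX k W W₂ U')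
    (c : Cp W₁ W₂ (idp X) 0 w.l w.r (Vw R univ w.l w.r) u) (hz : z ∈ Vw R univ w.l w.r) : U' z * u z = U z := by
  have key : ∀ t', t' = t.sh 0 → ∀ {k' : t'.OK w} {W₂ : WL L R (t'.act w n) K3}, TwX k' W W₂ U' →
      Cp W₁ W₂ (idp X) 0 w.l w.r (Vw R univ w.l w.r) u → U' z * u z = W.p (R.tw t z) * U z := by
    rintro _ rfl _ _ T' c
    have G := ga_self (n := n) (n' := n) (A := univ) hw (fun _ _ => ⟨rfl, rfl⟩) fun _ _ _ => trivial
    exact tw_nat (lc_refl le_rfl le_rfl) G (Tw.mt_refl k) (fun _ _ _ => trivial) T T'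
      (cp_self G (W.uni.mono (subset_univ _)) fun z _ c => (W.unit c).left) c hz
  exact (key t (Tw.sh_zero t).symm T' c).trans (T.uni.iso z trivial).left

/-- the twisted wall -/
theorem mk_use (h : Wl.OK w ⟨b, l⟩) (T : TwX k W W₁ U) {m m₁} (M : IsMk h.1 (t :: l) W m) (M₁ : IsMk h.1 l W₁ m₁) (q) :
    m q * U ((R.bn ⟨b, l⟩ h.1).j q) = m₁ q := by
  obtain ⟨_, W₂, U', m', T', M', rfl⟩ := M
  have G := ga_self (n := t.act w n) (n' := t.act w n) (A := univ) hw (fun _ _ => ⟨rfl, rfl⟩) fun _ _ _ => trivial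
  obtain ⟨u, c⟩ := exists_cp W₁ W₂ (lc_refl le_rfl le_rfl) G
  have o := Wl.mt_refl h
  obtain ⟨u1, u2, u3⟩ := Bs.Mt.up o.1 h.1
  have v : (R.bn ⟨b, l⟩ h.1).j q ∈ Vw R univ w.l w.r := (R.tws_mem fun s e => .inl (K_Vw (o.2 s e)
    fun _ _ _ => trivial)).2 (bd_Vw u1 (u2.trans u3) (mem_univ _) (mem_univ _) (nk_bd h.1 q))
  rw [← (mk_self G h ⟨trivial, trivial, fun _ _ _ _ _ => trivial⟩ M₁ M').2 isOpen_Vw c q v, ← T.unique T' c v,
    Matrix.mul_assoc]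
  refine congrArg (fun a : Matrix K3 lam ℂ => m' q * a) ?_
  change (U' ((R.bn ⟨b, l⟩ h.1).j q))ᴴ * (_ * u _) = _
  rw [← Matrix.mul_assoc, (T'.uni.iso _ trivial).src]
  exact (c.uni.iso _ v).left

/-- a wall off the support of the twist -/
theorem mk_clr {a : Wl} (h : a.OK w) (c : Wl.Clr t a) (T : TwX k W W₁ U) {m m₁} (M : IsMk h.1 a.tw W m)
    (M₁ : IsMk h.1 a.tw W₁ m₁) : o2 w (acts w a.tw n) a.b = o2 w (acts w a.tw (t.act w n)) a.b ∧
      ∀ q, m q * U ((R.bn a h.1).j q) = m₁ q := by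
  have G := ga_self (n := t.act w n) (n' := n) (A := {j | j < t.x ∨ t.y < j}) hw
    (fun j c => (act_out c).imp Eq.symm Eq.symm) fun j J e => by_contra fun c =>
      Shp.rod_iff.1 (k.rg.fr j (by simp at c; omega) (by simp at c; omega)) J e
  have lh : a.b.lo ≤ a.b.hi := (Bs.Mt.up (Wl.mt_refl h).1 h.1).elim fun _ _ => by
    obtain ⟨b, _⟩ := a
    cases b
    exacts [h.1.1.lt.le, h.1.1.lt.le, h.1.1.lt.le, le_rfl, le_rfl]
  have := mk_self G h ⟨by rcases c.1 with e | e | e <;> simp only [mem_ofPred_eq] <;> omega,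
    by rcases c.1 with e | e | e <;> simp only [mem_ofPred_eq] <;> omega,
    fun s e j p q => by rcases c.2 s e with e | e <;> simp only [mem_ofPred_eq] <;> omega⟩ M₁ M
  exact ⟨this.1, fun q => this.2 (isClosed_K k).isOpen_compl (cp_self G ((T.uni.mono (subset_univ _)).congr_p
    (fun _ _ => rfl) fun z c => congrArg W.p (R.tw_off z c).symm) T.off) q
    (disjoint_right.1 (R.K_clr c) (R.range_bn _ h.1 ▸ mem_range_self q))⟩

/-! ### the marked line -/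

variable {κ' B B' B₀ : Type} [Fintype κ'] {G : Tab C.kd κ'} {Wf : B → Wl} {hW : ∀ a, (Wf a).b.OK w} {Wf' : B' → Wl}
  {hW' : ∀ a, (Wf' a).b.OK w'} (V : Matrix lam K3 ℂ)

/-- `N` is a marked line of `W` -/
structure IsN (W : WL L R n lam) (N : ML (R.mark G Wf hW) lam) : Prop where
  p : N.p = W.p
  LY : ∀ a, N.LY a = (L.LT ((Wf a).b.ty w) (o2 w (acts w (Wf a).tw n) (Wf a).b)).cj V
  m : ∀ a, ∃ m, IsMk (hW a) (Wf a).tw W m ∧ N.m a = fun q => V * m q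

theorem LT_on (τ : WT Γ.ι) (o : ℤ × ℤ) : (L.LT τ o).On (mY C.kd τ).I univ := (SC_ok τ none o).ln

theorem uni_cj {E H M l : Type} [NormedAddCommGroup E] [NormedSpace ℝ E] [FiniteDimensional ℝ E] [TopologicalSpace H]
    {I : ModelWithCorners ℝ E H} [TopologicalSpace M] [ChartedSpace H M] [Fintype l] {p : M → Matrix l l ℂ}
    {q : M → Matrix K3 K3 ℂ} {u : M → Matrix K3 l ℂ} {O : Set M}
    {V : Matrix lam K3 ℂ} (hV : Vᴴ * V = 1) (h : Uni I p q u O) :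
    Uni I p (fun z => V * q z * Vᴴ) (fun z => V * u z) O :=
  ⟨fun z a => (MSm.const _).mul (h.sm z a), fun z a => by
    have := (h.iso z a).trans (piso_cj hV (h.iso z a).prj_tgt)
    rwa [Matrix.mul_assoc, (h.iso z a).left] at this⟩

variable (G Wf hW) in
/-- **the marked line** -/
def WL.ml (W : WL L R n lam) (hV : Vᴴ * V = 1) (hT : ∀ a, ∀ t ∈ (Wf a).tw, t.OK w) : ML (R.mark G Wf hW) lam where
  p := W.p
  ok := W.ln
  LY a := (L.LT ((Wf a).b.ty w) (o2 w (acts w (Wf a).tw n) (Wf a).b)).cj V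
  okY _ := (LT_on _ _).cj isOpen_univ hV
  cst a h := by
    have : ∀ τ o, τ = WT.sph → ∃ p₀, (L.LT τ o).cj V = ⟨fun _ => p₀, 0⟩ := by
      rintro _ _ rfl
      exact ⟨V * (e0 * e0ᴴ) * Vᴴ, rfl⟩
    exact this _ _ h
  m a q := V * (exists_isMk (hW a) _ (hT a) W).choose q
  um a := uni_cj hV ((exists_isMk (hW a) _ (hT a) W).choose_spec.uni.mono (subset_univ _))

theorem WL.isN (W : WL L R n lam) (hV : Vᴴ * V = 1) (hT : ∀ a, ∀ t ∈ (Wf a).tw, t.OK w) :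
    IsN V W (W.ml G Wf hW V hV hT) := ⟨rfl, fun _ => rfl, fun a => ⟨_, (exists_isMk (hW a) _ (hT a) W).choose_spec, rfl⟩⟩

variable {V} {W : WL L R n lam} {W' : WL L R' n' lam} {N : ML (R.mark G Wf hW) lam} {N' : ML (R'.mark G Wf' hW') lam}

theorem IsN.spare (h : IsN V W N) (e : Fin 3 ↪ lam) (he : ∀ j k, V (e j) k = 0) : N.Spare :=
  ⟨e, fun a j y k => by simp [h.LY, Ln.cj, Matrix.mul_apply, he]⟩

/-- isomorphisms of marked lines, wall by wall -/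
theorem lid0 (h : IsN V W N) (h' : IsN V W' N') (I : MId (R.mark G Wf hW) (R'.mark G Wf' hW') B₀)
    (E : ∀ a, (Wf (I.f a)).b.ty w = (Wf' (I.f' a)).b.ty w') (hg : ∀ a, I.g a = cY C.kd (E a)) {O : Set X.P.M}
    (hO : IsOpen O) (hs : O ⊆ I.ψ.source) {u} (hu : Uni X.P.I W.p (fun z => W'.p (I.ψ z)) u O)
    (k : ∀ a m m', IsMk (hW (I.f a)) (Wf (I.f a)).tw W m → IsMk (hW' (I.f' a)) (Wf' (I.f' a)).tw W' m' →
      o2 w' (acts w' (Wf' (I.f' a)).tw n') (Wf' (I.f' a)).b = o2 w (acts w (Wf (I.f a)).tw n) (Wf (I.f a)).b ∧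
        ∀ q, (R.bn _ (hW (I.f a))).j q ∈ O →
          m' (cY C.kd (E a) q.1, q.2) * u ((R.bn _ (hW (I.f a))).j q) = m q) : LId N N' I O u := by
  refine ⟨hO, hs, by rw [h.p, h'.p]; exact hu, fun a => ?_, fun a q _ c => ?_⟩ <;>
    obtain ⟨m, M, e⟩ := h.m (I.f a) <;> obtain ⟨m', M', e'⟩ := h'.m (I.f' a)
  · have := (SC_cY (L := L) (E a) none (o2 w (acts w (Wf (I.f a)).tw n) (Wf (I.f a)).b) (Classical.arbitrary _)).2.2.2
    rw [h.LY, h'.LY, hg, (k a m m' M M').1, ← this]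
    rfl
  · have := (k a m m' M M').2 q c
    rw [e, e', hg]
    beta_reduce
    rw [Matrix.mul_assoc, ← this]
    rfl

/-- **isomorphisms of marked lines** : the matched walls lie in windows of comparison -/
theorem lid (h : IsN V W N) (h' : IsN V W' N') (I : MId (R.mark G Wf hW) (R'.mark G Wf' hW') B₀)
    (E : ∀ a, (Wf (I.f a)).b.ty w = (Wf' (I.f' a)).b.ty w') (hg : ∀ a, I.g a = cY C.kd (E a)) {O : Set X.P.M}
    (hO : IsOpen O) (hs : O ⊆ I.ψ.source) {u} (hu : Uni X.P.I W.p (fun z => W'.p (I.ψ z)) u O)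
    (k : ∀ a, ∃ d x y A, Lc R R' d x y I.ψ ∧ Ga w w' n n' d x y A ∧ Wf' (I.f' a) = (Wf (I.f a)).sh d ∧
      (Wf (I.f a)).Mt w w' d x y ∧ WA A (Wf (I.f a)) ∧ Cp W W' I.ψ d x y O u) : LId N N' I O u :=
  lid0 h h' I E hg hO hs hu fun a _ _ M M' =>
    let ⟨_, _, _, _, H, g, e, t, s, c⟩ := k a
    (mk_nat H g e t s (E a) M M').imp_right fun r => r hO c

end Crest.Agent.X212.Line51
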