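import Crest.Agent.X212.Line51.Tw
import Crest.Agent.X212.Line51.Exl
import Crest.Agent.X212.Pj41.Ml

/-!
# X212 / Line51, part Atl (helper51): framed atlases

* `exists_sec` : a line has a unit section over a dense open set; `exists_mt_loc` : matching is local;
* `im k O`, `Mt.of_chart` : transport through charts; `exists_atl` : the line of a framed atlas; `ph` : phases.
-/

set_option autoImplicit false
set_option linter.unusedSectionVars false

open Set Filter Topology Function Matrix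
open scoped ContDiff Manifold
open Crest.Agent.R208 Crest.Agent.R208.F Crest.Agent.R208.FI Crest.Agent.X212.Dr59
  Crest.Agent.X212.Pj41 Crest.Agent.X212.Tau19
open Crest.Agent.X212.Glue52 (dir)

noncomputable section

namespace Crest.Agent.X212.Line51

variable {E : Type*} [NormedAddCommGroup E] [NormedSpace ℝ E] [FiniteDimensional ℝ E]
  {H : Type*} [TopologicalSpace H] {I : ModelWithCorners ℝ E H} [I.Boundaryless]
  {M : Type*} [TopologicalSpace M] [ChartedSpace H M] [IsManifold I ∞ M]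
  {E' : Type*} [NormedAddCommGroup E'] [NormedSpace ℝ E'] [FiniteDimensional ℝ E']
  {H' : Type*} [TopologicalSpace H'] {J : ModelWithCorners ℝ E' H'} [J.Boundaryless]
  {W : Type*} [TopologicalSpace W] [ChartedSpace H' W] [IsManifold J ∞ W]
  {κ l : Type*} [Fintype κ] [Fintype l] {D D' O O' : Set M} {x : M}
  {p : M → Matrix κ κ ℂ} {q : M → Matrix l l ℂ} {s : M → Matrix κ Unit ℂ}
  {s' : M → Matrix l Unit ℂ} {u : M → Matrix l κ ℂ}

theorem exists_sec [CompactSpace M] {L : Ln E M κ} (h : L.On I univ) : ∃ D s, Sec.OK I ⟨D, L, s⟩ := by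
  obtain ⟨D, s, h1, h2, h3⟩ : ∃ D s, IsOpen D ∧ univ ⊆ closure D ∧ Uni I (fun _ => 1) L.p s D := by
    refine isCompact_univ.induction_on (p := fun S => ∃ D s, IsOpen D ∧ S ⊆ closure D ∧
      Uni I (fun _ => (1 : Matrix Unit Unit ℂ)) L.p s D) ⟨∅, 0, isOpen_empty, empty_subset _, by simp, by simp⟩
      (fun _ _ k ⟨D, s, a, b, c⟩ => ⟨D, s, a, k.trans b, c⟩) ?_ fun x _ => ?_
    · rintro _ _ ⟨D, s, a, b, c⟩ ⟨D', s', a', b', c'⟩
      have o : ∀ i, IsOpen (cond i D (D' \ closure D)) := by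
        rintro (_ | _); exacts [a'.sdiff isClosed_closure, a]
      obtain ⟨u, k, -⟩ := exists_uni_glue (I := I) o (a := fun i => cond i s s')
        (by rintro (_ | _); exacts [c'.mono sdiff_subset, c]) (by
          rintro (_ | _) (_ | _) x i j
          exacts [rfl, absurd (subset_closure j) i.2, absurd (subset_closure i) j.2, rfl])
      refine ⟨_, u, isOpen_iUnion o, union_subset (b.trans (closure_mono (subset_iUnion (fun i => cond i D (D' \ closure D)) true))) fun x hx => ?_, k⟩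
      by_cases e : x ∈ closure D
      · exact closure_mono (subset_iUnion (fun i => cond i D (D' \ closure D)) true) e
      · exact closure_mono (subset_iUnion (fun i => cond i D (D' \ closure D)) false) 
          (closure_mono (fun _ k => And.intro k.2 k.1) (isClosed_closure.isOpen_compl.inter_closure ⟨e, b' hx⟩))
    · obtain ⟨V, s, a, b, -, c⟩ := h.exists_fr isOpen_univ (mem_univ x)
      exact ⟨V, mem_nhdsWithin_of_mem_nhds (a.mem_nhds b), V, s, a, subset_closure, c.toUni⟩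
  exact ⟨D, s, h1, fun x => h2 trivial, h, h3⟩

/-- matching is a local question -/
theorem exists_mt_loc (hD : O ⊆ closure D) (hs : ∀ x ∈ O, x ∈ D → PIso (s x) 1 (p x))
    (h : ∀ x ∈ O, ∃ V u, IsOpen V ∧ x ∈ V ∧ V ⊆ O ∧ Mt I D p s q s' u V) : ∃ u, Mt I D p s q s' u O := by
  choose! V a h1 h2 h3 h4 using h
  obtain ⟨u, k1, k2⟩ := exists_uni_glue (I := I) (U := fun x : O => V x) (fun x => h1 x x.2)
    (fun x => (h4 x x.2).toUni) fun i j x hi hj => ((h4 i i.2).mono inter_subset_left inter_subset_right).unique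
      ((h1 i i.2).inter (h1 j j.2)) (fun y k => hD (h3 i i.2 k.1))
      ((h4 j j.2).mono inter_subset_right inter_subset_right) (fun y k => hs y (h3 i i.2 k.1)) ⟨hi, hj⟩
  exact ⟨u, k1.mono fun x hx => mem_iUnion.2 ⟨⟨x, hx⟩, h2 x hx⟩,
    fun x hx o => k2 ⟨x, hx⟩ (h2 x hx) ▸ (h4 x hx).eq x (h2 x hx) o⟩

theorem Mt.refl (h : (⟨p, 0⟩ : Ln E M κ).On I O) (hs : ∀ x ∈ O, x ∈ D → PIso (s x) 1 (p x)) :
    Mt I D p s p s p O := ⟨⟨h.sm, fun x hx => (h.prj x hx).refl⟩, fun x a b => (hs x a b).left⟩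

theorem Mt.smul (h : Mt I D p s q s' u O) (g : M → Circle) :
    Mt I D p (fun x => (g x : ℂ) • s x) q (fun x => (g x : ℂ) • s' x) u O :=
  ⟨h.toUni, fun x a b => by rw [Matrix.mul_smul, h.eq x a b]⟩

theorem Mt.congr_p {p₁ : M → Matrix κ κ ℂ} {q₁ : M → Matrix l l ℂ} (h : Mt I D p s q s' u O) (e : EqOn p₁ p O)
    (e' : EqOn q₁ q O) : Mt I D p₁ s q₁ s' u O := ⟨h.toUni.congr_p e e', h.eq⟩

theorem Uni.on (hO : IsOpen O) (h : Uni I p q u O) (hp : (⟨p, 0⟩ : Ln E M κ).On I O) :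
    (⟨q, 0⟩ : Ln E M l).On I O :=
  ⟨fun x hx => ((h.sm x hx).mul (h.sm x hx).ct).congr (eventually_of_mem (hO.mem_nhds hx)
      fun y hy => (h.iso y hy).tgt.symm), fun x hx => (h.iso x hx).prj_tgt,
    fun x hx => (h.iso x hx).trace_eq.symm.trans (hp.tr x hx), fun _ _ => cAt_zero, Dg.zero⟩

theorem Uni.phase (h : Uni I p q u O) {g : M → Circle} (hg : ∀ x ∈ O, CSm I g x) :
    Uni I p q (fun x => (g x : ℂ) • u x) O :=
  ⟨fun x hx i j => FSm.mul' ((contMDiff_coe _).comp x (hg x hx)) (h.sm x hx i j),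
    fun x hx => piso_smul (h.iso x hx) _⟩

/-- the phase of a `1 × 1` matrix -/
def ph (a : Matrix Unit Unit ℂ) : Circle := dir (a () ())

theorem mul_ph {a : Matrix Unit Unit ℂ} (h : PIso a 1 1) (b : Matrix κ Unit ℂ) : (ph a : ℂ) • b = b * a := by
  have h1 : ‖a () ()‖ = 1 := by
    have := congrFun (congrFun h.src ()) ()
    simp only [Matrix.mul_apply, Finset.univ_unique, Finset.sum_singleton, conjTranspose_apply,
      one_apply_eq, Complex.star_def, ← Complex.normSq_eq_conj_mul_self, Complex.ofReal_eq_one,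
      Complex.normSq_eq_norm_sq] at this
    exact (pow_eq_one_iff_of_nonneg (norm_nonneg _) two_ne_zero).1 this
  have h2 := Glue52.norm_mul_dir (a () ())
  rw [h1, Complex.ofReal_one, one_mul] at h2
  ext i j
  simp [ph, h2, Matrix.mul_apply, mul_comm]

/-- the phase of an isometry with respect to unit vectors -/
theorem ph_spec {a : Matrix κ Unit ℂ} {b : Matrix l Unit ℂ} {c : Matrix l κ ℂ} {P : Matrix κ κ ℂ}
    {Q : Matrix l l ℂ} (ha : PIso a 1 P) (hb : PIso b 1 Q) (hc : PIso c P Q) :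
    c * a = (ph (bᴴ * (c * a)) : ℂ) • b := by
  rw [mul_ph ((ha.trans hc).trans hb.symm), ← Matrix.mul_assoc, hb.tgt, (ha.trans hc).left]

theorem smul_eq_iff {g h : Circle} {a b : Matrix κ l ℂ} :
    (g : ℂ) • a = (h : ℂ) • b ↔ a = ((g⁻¹ * h : Circle) : ℂ) • b :=
  ⟨fun e => by rw [← csmul_smul, ← e, csmul_smul, inv_mul_cancel, Circle.coe_one, one_smul],
    fun e => by rw [e, csmul_smul, mul_inv_cancel_left]⟩

section im

variable (k : PartialDiffeomorph J I W M ∞) {A B : Set W} {a : W}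

/-- the image of a set under a chart -/
def im (A : Set W) : Set M := k.target ∩ k.symm ⁻¹' A

variable {k}

theorem mem_im (h : a ∈ k.source) : k a ∈ im k A ↔ a ∈ A := by
  rw [im, mem_inter_iff, mem_preimage, show k.symm (k a) = a from k.left_inv h]
  exact and_iff_right (k.map_source h)

theorem exists_of_im (h : x ∈ im k A) : ∃ a ∈ A, a ∈ k.source ∧ k a = x :=
  ⟨_, h.2, k.map_target h.1, k.right_inv h.1⟩

theorem isOpen_im (h : IsOpen A) : IsOpen (im k A) :=
  k.symm.contMDiffOn_toFun.continuousOn.isOpen_inter_preimage k.open_target h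

theorem mp_k (h : A ⊆ k.source) : Mp J I A (im k A) k :=
  ⟨fun _ o => (Rod53.ld_pd k (h o)).contMDiffAt, fun _ o => (mem_im (h o)).2 o⟩

theorem mp_symm : Mp I J (im k A) A k.symm := ⟨fun _ o => (Rod53.ld_pd k.symm o.1).contMDiffAt, fun _ o => o.2⟩

theorem im_cl (h : A ⊆ closure B) : im k A ⊆ closure (im k B) := fun _ o =>
  cl_of_loc (cl_of_ld (Rod53.ld_pd k.symm o.1) (h o.2))
    (eventually_of_mem (k.open_target.mem_nhds o.1) fun _ a b => ⟨a, b⟩)

theorem Uni.of_chart {u : W → Matrix l κ ℂ} (h : Uni J (fun a => p (k a)) (fun a => q (k a)) u A) :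
    Uni I p q (fun x => u (k.symm x)) (im k A) :=
  (h.comp mp_symm).congr_p (fun _ o => congrArg p (k.right_inv o.1).symm)
    fun _ o => congrArg q (k.right_inv o.1).symm

theorem Mt.of_chart {u : W → Matrix l κ ℂ}
    (h : Mt J B (fun a => p (k a)) (fun a => s (k a)) (fun a => q (k a)) (fun a => s' (k a)) u A) :
    Mt I (im k B) p s q s' (fun x => u (k.symm x)) (im k A) :=
  ⟨h.toUni.of_chart, fun x a b => by
    have := h.eq _ a.2 b.2
    rwa [show k (k.symm x) = x from k.right_inv a.1] at this⟩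

end im

open M in
/-- **the line of a framed atlas** -/
theorem exists_atl {X : Mf 4} {lam ι : Type} [Fintype lam] [Finite ι] (e : Fin 3 ↪ lam) {U D : ι → Set X.M}
    (hU : ∀ i, IsOpen (U i)) (hD : ∀ i, IsOpen (D i)) (hc : ∀ i, U i ⊆ closure (D i)) (cov : ∀ x, ∃ i, x ∈ U i)
    {q : ι → X.M → Matrix lam lam ℂ} {s : ι → X.M → Matrix lam Unit ℂ}
    (hs : ∀ i, ∀ x ∈ U i, x ∈ D i → PIso (s i x) 1 (q i x))
    (hq : ∀ i, (⟨q i, 0⟩ : Ln X.E X.M lam).On X.I (U i))
    (h : ∀ i j, ∃ t, Mt X.I (D i ∩ D j) (q j) (s j) (q i) (s i) t (U i ∩ U j)) :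
    ∃ (p : X.M → Matrix lam lam ℂ) (w : ι → X.M → Matrix lam lam ℂ), (∀ i, Uni X.I (q i) p (w i) (U i)) ∧
      ∀ i j, ∀ x ∈ U i, x ∈ U j → x ∈ D i → x ∈ D j → w i x * s i x = w j x * s j x := by
  have := Fintype.ofFinite ι
  choose t ht using h
  have c2 : ∀ i j, U i ∩ U j ⊆ closure (D i ∩ D j) := fun i j =>
    cl_inter ((hU i).inter (hU j)) (hD i) (inter_subset_left.trans (hc i)) (inter_subset_right.trans (hc j))
  have e1 : ∀ i, ∀ x ∈ U i, t i i x = q i x := fun i x hx => (ht i i).unique ((hU i).inter (hU i)) (c2 i i)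
    (.refl ((hq i).mono inter_subset_left) fun y a b => hs i y a.1 b.1) (fun y a b => hs i y a.1 b.1) ⟨hx, hx⟩
  obtain ⟨p, w, -, k1, k2⟩ := exists_line_coc ms2 e cov (u := t)
    ⟨hU, fun i j x a b => (ht i j).sm x ⟨a, b⟩, fun i j x a b =>
      ((ht i j).symm fun y a b => hs j y a.2 b.2).unique ((hU i).inter (hU j)) (c2 i j)
        ((ht j i).mono (inter_comm _ _).le fun _ k => ⟨k.2.2, k.2.1⟩) (fun y a b => hs i y a.1 b.1) ⟨a, b⟩,
      fun i j k x a b c => by
        have o := ((hU i).inter (hU j)).inter (hU k)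
        exact (((ht j k).mono (O' := (U i ∩ U j) ∩ U k) (D' := (D i ∩ D j) ∩ D k) (fun _ z => ⟨z.1.2, z.2⟩)
          fun _ z => ⟨z.2.1.2, z.2.2⟩).trans ((ht i j).mono inter_subset_left fun _ z => z.2.1)).unique o
          (cl_inter o ((hD i).inter (hD j)) (inter_subset_left.trans (c2 i j)) (inter_subset_right.trans (hc k)))
          ((ht i k).mono (fun _ z => ⟨z.1.1, z.2⟩) fun _ z => ⟨z.2.1.1, z.2.2⟩)
          (fun y a b => hs k y a.2 b.2) ⟨⟨a, b⟩, c⟩⟩ fun i x hx => (e1 i x hx).symm ▸ (hq i).tr x hx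
  refine ⟨p, fun i x => (w i x)ᴴ, fun i => (k1 i).symm.congr_p (fun x hx => (e1 i x hx).symm) fun _ _ => rfl,
    fun i j x a b c d => ?_⟩
  beta_reduce
  rw [← k2 i j x a b, conjTranspose_mul, Matrix.mul_assoc,
    ((ht i j).symm fun y a b => hs j y a.2 b.2).eq x ⟨a, b⟩ ⟨c, d⟩]

end Crest.Agent.X212.Line51
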