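import Crest.Agent.X212.Line51.Lp0
import Crest.Agent.X212.Cut54.Mf

/-!
# X212 / Line51, part Lp (helper51): the lines of all frames

* `LMd.ψ`, `LMd.I` : the lens walls are copies of the model; `nrm`, `LMd.exists_fam` : the lines;
* `LMd.lp` : the instance of `Br55.LP`; `lp_nat`, `Wf_out`, `Wf_ins`, `cm` : its naturality.
-/

set_option autoImplicit false
set_option linter.unusedSectionVars false

open Set Filter Topology Function Matrix
open scoped ContDiff Manifold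

noncomputable section

namespace Crest.Agent.X212.Line51

open Crest.Agent.X212.Wd38 Crest.Agent.X212.M Crest.Agent.X212.Nm96 Crest.Agent.X212.Br55
open Crest.Agent.X212.G75 (hf)

variable {Γ : Nm} {C : Cx Γ} {P : Pm Γ} {F F' : Fm Γ} {l l' : Bs} {n n' : Wt} {κ lam : Type} [Fintype κ]
  [Fintype lam] [DecidableEq lam] {w : Shp Γ} {ls : Finset Bs} {μ : ℤ × ℤ}

theorem cp_ok {Λ : NmL Γ} (h : n.OK w Λ) : (cp n μ).OK w Λ := ⟨h.sl, h.sr, h.rod, h.jn, h.eq, h.neg⟩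

theorem ls_hi (h : F.OK P) (hl : l ∈ F.ls) : l.hi = l.lo + 3 := congrArg Bs.hi (ls_eq h hl).1

theorem ls_sh (h : F.OK P) (h' : F'.OK P) (hl : l ∈ F.ls) (hl' : l' ∈ F'.ls) : l' = l.sh (l'.lo - l.lo) := by
  rw [(ls_eq h' hl').1, (ls_eq h hl).1]
  simp only [Bs.sh, Bs.lo, Bs.lA.injEq]
  omega

theorem ls_mt (h : F.OK P) (hl : l ∈ F.ls) {d : ℤ} (g : F.w.Agr w d (l.lo - 1) (l.lo + 4)) :
    (l : Wl).Mt F.w w d (l.lo - 1) (l.lo + 4) := by
  refine ⟨?_, fun _ k => nomatch k⟩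
  have k := g.mono (a := l.lo) (b := l.lo + 3) (by omega) (by omega) (by omega)
  rw [(ls_eq h hl).1]
  exact ⟨by simp only [Bs.lo]; omega, by simp only [Bs.lo]; omega, k.lo, k.hi⟩

theorem sgl_fl' (h : F.OK P) (hl : l ∈ F.ls) (hl' : l' ∈ F.ls) (e : l ≠ l') : sgl l' (fl l n) = sgl l' n := by
  have := h.ll l hl l' hl' e
  have := ls_hi h hl'
  rw [sgl, sgl, (fl_Ou (show _ ∨ _ by omega)).1]

/-- the orders inside the lens arcs are made `1` -/
def nrm (ls : Finset Bs) (n : Wt) : Wt :=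
  { n with
    nl := fun j => if ∃ l ∈ ls, l.lo < j ∧ j < l.hi then 1 else n.nl j
    nr := fun j => if ∃ l ∈ ls, l.lo < j ∧ j < l.hi then 1 else n.nr j }

theorem nrm_fl (hl : l ∈ ls) : nrm ls (fl l n) = nrm ls n := by
  unfold nrm fl
  congr 1 <;> funext j <;> split_ifs with a
  exacts [rfl, if_neg fun b => a ⟨l, hl, b⟩, rfl, if_neg fun b => a ⟨l, hl, b⟩]

theorem nrm_Ou {j : ℤ} (h : ∀ l ∈ ls, j ∈ Ou l) : (nrm ls n).nl j = n.nl j ∧ (nrm ls n).nr j = n.nr j :=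
  have k : ¬∃ l ∈ ls, l.lo < j ∧ j < l.hi := fun ⟨l, a, b⟩ => (h l a).elim b.1.not_ge b.2.not_ge
  ⟨if_neg k, if_neg k⟩

theorem sgl_nrm (h : F.OK P) (hl : l ∈ F.ls) : sgl l (nrm F.ls n) = true :=
  decide_eq_true (if_pos ⟨l, hl, by have := ls_hi h hl; omega⟩)

theorem lok_nrm (h : F.OK P) (hn : F.LOK P n) : F.LOK P (nrm F.ls n) := by
  have k := hn.ok
  have o : ∀ {j}, (∀ l ∈ F.ls, j ≤ l.lo ∨ l.lo + 3 ≤ j) → _ := fun {j} c =>
    nrm_Ou (n := n) (j := j) fun l a => (c l a).imp_right (ls_hi h a).le.trans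
  have e : ∀ j, (∀ l ∈ F.ls, j ≤ l.lo ∨ l.lo + 3 < j) ∨ ∃ l ∈ F.ls, l.lo < j ∧ j ≤ l.lo + 3 ∧
      F.w.lf j = lrd l.lo (j - 1) ∧ F.w.rt j = lrd l.lo j := fun j => or_iff_not_imp_left.2 fun c => by
    push Not at c
    obtain ⟨l, a, b, c⟩ := c
    have := (ls_eq h a).2.2.2
    exact ⟨l, a, b, c, by rw [Shp.lf, this _ (by omega) (by omega)]; rfl, by
      rw [Shp.rt, this _ (by omega) (by omega)]; rfl⟩
  refine ⟨⟨(o fun l a => by have := ls_eq h a; omega).2.trans k.sl, (o fun l a => by have := ls_eq h a; omega).1.trans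
    k.sr, fun j τ a b s => by simp only [nrm, k.rod j τ a b s], fun j J a b s => ?_, fun j a b s => ?_,
    fun j a b s => ?_⟩, hn.mL, hn.mR, fun l a => ?_⟩
  · have := nrm_Ou (n := n) fun l c => jn_Ou h c s
    rw [this.1, this.2]
    exact k.jn j J a b s
  · rcases e j with c | ⟨l, c, p, q, u, v⟩
    · rw [(o fun l a => by have := c l a; omega).2, (o fun l a => by have := c l a; omega).1, k.eq j a b s]
    · have := ls_hi h c
      rw [u, v] at s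
      obtain rfl : j = l.lo + 2 := by
        by_contra
        simp only [lrd] at s
        split_ifs at s <;> first | omega | simp at s
      exact (if_pos ⟨l, c, by omega⟩).trans (if_pos ⟨l, c, by omega⟩).symm
  · rcases e j with c | ⟨l, c, p, q, u, v⟩
    · rw [(o fun l a => by have := c l a; omega).2, (o fun l a => by have := c l a; omega).1, k.neg j a b s]
    · rw [u, v] at s
      simp only [lrd] at s
      split_ifs at s <;> first | omega | simp at s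
  · have d : ∀ l' ∈ F.ls, l' = l ∨ l.lo + 4 < l'.lo - 1 ∨ l'.lo + 4 < l.lo - 1 := fun l' a' =>
      or_iff_not_imp_left.2 fun c => by have := h.ll l' a' l a c; have := ls_hi h a; have := ls_hi h a'; omega
    have := ls_hi h a
    exact ⟨(o fun l' a' => by rcases d l' a' with rfl | _ <;> omega).1.trans (hn.ls l a).1,
      (o fun l' a' => by rcases d l' a' with rfl | _ <;> omega).1.trans (hn.ls l a).2.1,
      .inr (if_pos ⟨l, a, by omega⟩)⟩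

theorem II_ls (x : ℤ) : II x (x + 3) ⊆ II (x - 1) (x + 4) := II_mono (by omega) (by omega)

theorem eq_isL {a : Wl} (h : IsL ls a) : a = ↑a.b := by rw [← h.1]

theorem ls_disj (h : F.OK P) {M : Type} (τ : M → ℝ) :
    Pairwise (Disjoint on fun i : F.ls => τ ⁻¹' II (i.1.lo - 1) (i.1.lo + 4)) := fun i j e =>
  disjoint_left.2 fun _ p q => by
    have := ls_hi h i.2
    have := ls_hi h j.2
    rcases h.ll _ i.2 _ j.2 (Subtype.ext_iff.not.1 e) with k | k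
    exacts [Rz.II_disj (by omega) p q, Rz.II_disj (by omega) q p]

theorem IsN.rs {G : Tab C.kd κ} {L : LCx C P.Λ} {hw : w.OK} {V : Matrix lam K3 ℂ} {W : WL L (C.rz hw) n lam}
    {N : ML (um G hw ls) lam} (h : IsN V W N) {A : Type} (f : A → Wl) (k : ∀ a, Ad w ls (f a)) : IsN V W (rs N f k) :=
  ⟨h.p, fun a => h.LY ⟨_, k a⟩, fun a => h.m ⟨_, k a⟩⟩

namespace LMd
variable {G : Tab C.kd κ} {L : LCx C P.Λ} {e : K3 ⊕ K3 ↪ lam} (D : LMd P G L e) (h : (Br55.f0 w ls).OK P)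
  (hl : l ∈ ls)
include h hl

theorem agr : D.w.Agr w (l.lo - D.l.lo) (D.l.lo - 1) (D.l.lo + 4) := ls_agr D.h h D.mem hl (by ring) rfl rfl

theorem hc : Hc D.w w (l.lo - D.l.lo) (D.l.lo - 1) (D.l.lo + 4) False False :=
  have a := (ls_eq D.h D.mem).2
  have b := (ls_eq h hl).2
  ⟨(D.agr h hl).sk a.1.le a.2.1.le (by linarith [show w.l < _ from b.1]) (by linarith [show _ < w.r from b.2.1]),
    False.elim, False.elim⟩

/-- the comparison with the model -/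
def ψ : PartialDiffeomorph (C.X D.h.w).mf.I (C.X h.w).mf.I (C.X D.h.w).P.M (C.X h.w).P.M ∞ :=
  (exists_cm (R := C.rz D.h.w) (R' := C.rz h.w) (D.hc h hl)).choose

theorem cm : Cm (C.rz D.h.w) (C.rz h.w) (l.lo - D.l.lo) (D.l.lo - 1) (D.l.lo + 4) False False (D.ψ h hl) :=
  (exists_cm (D.hc h hl)).choose_spec

theorem lc' : Lc (C.rz h.w) (C.rz D.h.w) (-(l.lo - D.l.lo)) (l.lo - 1) (l.lo + 4) (D.ψ h hl).symm := by
  have := ((D.cm h hl).symm (D.hc h hl)).toLc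
  rwa [show D.l.lo - 1 + (l.lo - D.l.lo) = l.lo - 1 by ring, show D.l.lo + 4 + (l.lo - D.l.lo) = l.lo + 4 by ring]
    at this

theorem agr' : w.Agr D.w (-(l.lo - D.l.lo)) (l.lo - 1) (l.lo + 4) := ls_agr h D.h hl D.mem (by ring) rfl rfl

theorem mt_in {k k' : Type} [Fintype k] [Fintype k'] (hn : (Br55.f0 w ls).LOK P n) {b : Bool} (s : sgl l n = b)
    (W : WL L (C.rz h.w) (cp n μ) k) (W' : WL L (C.rz D.h.w) (D.n b) k') :
    ∃ u, Mt (C.X h.w).P.I (Da L (C.rz h.w)) W.p W.g (fun z => W'.p ((D.ψ h hl).symm z))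
      (fun z => W'.g ((D.ψ h hl).symm z)) u ((C.X h.w).τ ⁻¹' II (l.lo - 1) (l.lo + 4)) :=
  have a := (ls_eq D.h D.mem).2
  have b := (ls_eq h hl).2
  have g := ls_agr' (d := -(l.lo - D.l.lo)) h D.h hl D.mem (by ring) rfl rfl hn (D.hn _) ((D.sg _).trans s.symm)
  mt_win W W' (D.lc' h hl) (D.agr' h hl) ⟨g.r, g.l⟩ (ls_rg h hl le_rfl (by omega) le_rfl)
    ⟨_, b.2.2 _ le_rfl (by omega)⟩ ⟨_, b.2.2 _ (by omega) le_rfl⟩ ⟨_, a.2.2 _ (by omega) (by omega)⟩ b.1 b.2.1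

omit hl

variable (a : UW w ls) (ha : IsL ls a.1)
include ha

theorem wl_eq : a.1 = Bs.lA a.1.b.lo (a.1.b.lo + 3) := by
  rw [← (ls_eq h ha.2).1, ← ha.1]

theorem wl_sh : a.1 = (D.l : Wl).sh (a.1.b.lo - D.l.lo) := by
  rw [Wl.sh, ← ls_sh D.h h D.mem ha.2, List.map_nil, ← ha.1]

/-- the lens wall is a copy of the model -/
def I : MId D.M (mrk G h.w (fun _ : Unit => a.1) fun _ => a.2) Unit :=
  mid (C.rz D.h.w) (C.rz h.w) G _ _ (D.ψ h ha.2) (.refl _) (.refl _) (D.cm h ha.2).pos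
    fun _ => ⟨_, _, _, (D.cm h ha.2).toLc, ls_mt D.h D.mem (D.agr h ha.2), D.wl_sh h a ha⟩

theorem hf_II {z} (k : z ∈ hf (um G h.w ls) a false) : (C.X h.w).τ z ∈ II a.1.b.lo (a.1.b.lo + 3) :=
  (mem_hf (wl_eq h a ha)).1 k

theorem src : hf D.M () false ⊆ (D.ψ h ha.2).source := fun _ k =>
  (D.cm h ha.2).II_all (D.agr h ha.2) (by omega) le_rfl le_rfl
    (II_ls _ (hf_II (G := G) D.h ⟨D.l, ls_ad D.h D.mem⟩ ⟨rfl, D.mem⟩ k))

theorem symm_hf {z} (k : z ∈ hf (um G h.w ls) a false) : z ∈ (D.ψ h ha.2).target ∧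
    ∀ b, (D.ψ h ha.2).symm z ∈ hf D.M () b ↔ z ∈ hf (um G h.w ls) a b := by
  have t : z ∈ (D.ψ h ha.2).target := (D.lc' h ha.2).II_all (D.agr' h ha.2) (by omega) le_rfl le_rfl
    (II_ls _ (hf_II h a ha k))
  refine ⟨t, fun b => (hf_iff (D.I h a ha) () b ((D.ψ h ha.2).map_target t)).symm.trans ?_⟩
  rw [show (D.I h a ha).ψ ((D.ψ h ha.2).toPartialEquiv.symm z) = z from (D.ψ h ha.2).right_inv t]
  rfl

theorem maps {z} (k : z ∈ hf D.M () false) : D.ψ h ha.2 z ∈ hf (um G h.w ls) a false :=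
  (hf_iff (D.I h a ha) () false (D.src h a ha k)).2 k

theorem img : (D.I h a ha).ψ '' hf D.M () false = hf (um G h.w ls) a false :=
  Subset.antisymm (image_subset_iff.2 fun _ => D.maps h a ha) fun _ k =>
    ⟨_, ((D.symm_hf h a ha k).2 false).2 k, (D.ψ h ha.2).right_inv (D.symm_hf h a ha k).1⟩

omit ha

theorem exists_star (hn : (Br55.f0 w ls).LOK P n) (s : ∀ l ∈ ls, sgl l n = true) :
    ∃ W : WL L (C.rz h.w) (cp n μ) lam, ∀ l (hl : l ∈ ls) z, (C.X h.w).τ z ∈ II l.lo (l.lo + 3) →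
      W.p z = V2 e * D.W₀.p ((D.ψ h hl).symm z) * (V2 e)ᴴ ∧ W.g z = V2 e * D.W₀.g ((D.ψ h hl).symm z) := by
  obtain ⟨W⟩ := exists_WL L (C.rz h.w) (cp_ok (μ := μ) hn.ok)
  have d := ls_disj h (C.X h.w).τ
  have o := fun i : ls => (isOpen_II (i.1.lo - 1) (i.1.lo + 4)).preimage (C.X h.w).cont
  obtain ⟨u, k⟩ := W.mt_loc (q := pat _ (fun (i : ls) z => D.W₀.p ((D.ψ h i.2).symm z)) 0)
    (g := pat _ (fun (i : ls) z => D.W₀.g ((D.ψ h i.2).symm z)) 0) (O := ⋃ i : ls, _) fun z c => by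
      obtain ⟨i, c⟩ := mem_iUnion.1 c
      obtain ⟨u, k⟩ := D.mt_in h i.2 hn (s _ i.2) W D.W₀
      exact ⟨_, u, o i, c, subset_iUnion (fun i : ls => (C.X h.w).τ ⁻¹' II (i.1.lo - 1) (i.1.lo + 4)) i,
        (k.congr_p (fun _ _ => rfl) fun _ => pat_mem d).congr fun _ c _ => ⟨rfl, pat_mem d c⟩⟩
  have m : ∀ i : ls, Icc ((i.1.lo : ℝ) + 1 / 4) ((i.1.lo + 3 : ℤ) + 3 / 4) ⊆ II (i.1.lo - 1) (i.1.lo + 4) :=
    fun i t c => ⟨by push_cast; linarith [c.1], by have := c.2; push_cast at this ⊢; linarith⟩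
  obtain ⟨W', k'⟩ := exists_lit_WL W k (isOpen_iUnion o) (isClosed_iUnion_of_finite fun i : ls =>
    isClosed_Icc.preimage (C.X h.w).cont) (iUnion_mono fun i => preimage_mono (m i)) (hV1 e) (hV2 e) (hV12 e)
  refine ⟨W', fun l hl z c => ?_⟩
  have := k' z (mem_iUnion.2 ⟨⟨l, hl⟩, Ioo_subset_Icc_self c⟩)
  rwa [pat_mem d (i := ⟨l, hl⟩) (II_ls _ c),
    pat_mem d (i := ⟨l, hl⟩) (II_ls _ c)] at this

/-- **the lines of a frame** -/
theorem exists_fam (μ : ℤ × ℤ) : ∃ W : ∀ n, (Br55.f0 w ls).LOK P n → WL L (C.rz h.w) (cp n μ) lam,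
    (∀ n hn a (ha : IsL ls a.1), ∀ z ∈ hf (um G h.w ls) a false,
      (W n hn).p z = (D.W (sgl a.1.b n)).p ((D.ψ h ha.2).symm z) ∧
        (W n hn).g z = (D.W (sgl a.1.b n)).g ((D.ψ h ha.2).symm z)) ∧
    ∀ n hn a, IsL ls a.1 → ∀ hn', ∀ z ∈ hf (um G h.w ls) a true,
      (W (Nm96.fl a.1.b n) hn').p z = (W n hn).p z ∧ (W (Nm96.fl a.1.b n) hn').g z = (W n hn).g z := by
  have : ∀ m : Wt, ∃ p g, (Br55.f0 w ls).LOK P m → (∀ l ∈ ls, sgl l m = true) →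
      ∃ W : WL L (C.rz h.w) (cp m μ) lam, W.p = p ∧ W.g = g ∧ ∀ l (hl : l ∈ ls) z, (C.X h.w).τ z ∈ II l.lo (l.lo + 3) →
      p z = V2 e * D.W₀.p ((D.ψ h hl).symm z) * (V2 e)ᴴ ∧ g z = V2 e * D.W₀.g ((D.ψ h hl).symm z) := fun m => by
    by_cases c : (Br55.f0 w ls).LOK P m ∧ ∀ l ∈ ls, sgl l m = true
    · obtain ⟨W, k⟩ := D.exists_star (μ := μ) h c.1 c.2
      exact ⟨_, _, fun _ _ => ⟨W, rfl, rfl, k⟩⟩
    · exact ⟨0, 0, fun a b => (c ⟨a, b⟩).elim⟩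
  choose p₀ g₀ H using this
  let a : ls → UW w ls := fun i => ⟨i.1, ls_ad h i.2⟩
  have ha : ∀ i, IsL ls (a i).1 := fun i => ⟨rfl, i.2⟩
  have ea : ∀ b : UW w ls, ∀ hb : IsL ls b.1, b = a ⟨_, hb.2⟩ := fun b hb => Subtype.ext (eq_isL hb)
  let S : ls → Set (C.X h.w).P.M := fun i => hf (um G h.w ls) (a i) false
  have sS : ∀ i, S i ⊆ (C.X h.w).τ ⁻¹' II (i.1.lo - 1) (i.1.lo + 4) := fun i _ c =>
    II_ls _ (hf_II h (a i) (ha i) c)
  have d : Pairwise (Disjoint on S) := fun i j c => (ls_disj h _ c).mono (sS i) (sS j)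
  let p := fun n => pat S (fun i z => (D.W (sgl i.1 n)).p ((D.ψ h i.2).symm z)) (p₀ (nrm ls n))
  let g := fun n => pat S (fun i z => (D.W (sgl i.1 n)).g ((D.ψ h i.2).symm z)) (g₀ (nrm ls n))
  have : ∀ n, (Br55.f0 w ls).LOK P n → ∃ W : WL L (C.rz h.w) (cp n μ) lam, W.p = p n ∧ W.g = g n := fun n hn => by
    obtain ⟨W⟩ := exists_WL L (C.rz h.w) (cp_ok (μ := μ) hn.ok)
    obtain ⟨W', e1, e2, k⟩ := H _ (lok_nrm h hn) fun _ => sgl_nrm h
    obtain ⟨u, c⟩ := W.mt_loc (q := p n) (g := g n) (O := univ) fun z _ => by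
      by_cases c : ∃ i, z ∈ S i
      · obtain ⟨i, c⟩ := c
        obtain ⟨u, k⟩ := D.mt_in h i.2 hn rfl W (D.W _)
        exact ⟨_, u, isOpen_hf _ _, c, subset_univ _, ((k.mono (sS i) inter_subset_right).congr_p (fun _ _ => rfl)
          fun _ => pat_mem d).congr fun _ c _ => ⟨rfl, pat_mem d c⟩⟩
      obtain ⟨u, k'⟩ := mt_self (A := ⋂ i : ls, Ou i.1) W W' (ga_self h.w
        (fun _ c => nrm_Ou fun l b => mem_iInter.1 c ⟨l, b⟩) fun _ _ c => mem_iInter.2 fun i => jn_Ou h i.2 c) rfl rfl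
      have key : ∀ z ∈ ⋂ i, hf (um G h.w ls) (a i) true, p n z = W'.p z ∧ g n z = W'.g z := fun z c => by
        rw [e1, e2]
        by_cases b : ∃ i, z ∈ S i
        · obtain ⟨i, b⟩ := b
          have k1 := D.lit (sgl i.1 n) _ (.inr (((D.symm_hf h _ (ha i) b).2 true).2 (mem_iInter.1 c i)))
          have k2 := k _ i.2 z (hf_II h _ (ha i) b)
          exact ⟨(pat_mem d b).trans (k1.1.trans k2.1.symm), (pat_mem d b).trans (k1.2.trans k2.2.symm)⟩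
        · exact ⟨pat_not (not_exists.1 b), pat_not (not_exists.1 b)⟩
      exact ⟨_, u, isOpen_iInter_of_finite fun i => isOpen_hf (a i) true, mem_iInter.2 fun i =>
        hf_cov _ (not_exists.1 c i), subset_univ _, ((k'.mono (fun z b => Vg_iInter fun i => D_Vg h i.2 _
          ((mem_hf (wl_eq h _ (ha i))).2 (mem_iInter.1 b i))) inter_subset_right).congr_p (fun _ _ => rfl)
            fun z b => (key z b).1).congr fun z b _ => ⟨rfl, (key z b).2⟩⟩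
    exact ⟨W.re c, rfl, rfl⟩
  choose W e1 e2 using this
  refine ⟨W, fun n hn b hb z c => ?_, fun n hn b hb hn' z c => ?_⟩ <;> simp only [e1, e2]
  · rw [ea b hb] at c
    exact ⟨pat_mem d c, pat_mem d c⟩
  by_cases k : ∃ i, z ∈ S i
  · obtain ⟨i, k⟩ := k
    simp only [p, g, pat_mem d k]
    by_cases r : b.1.b = i.1
    · obtain rfl : i = ⟨_, hb.2⟩ := Subtype.ext r.symm
      exact D.eq _ _ (((D.symm_hf h _ (ha _) k).2 true).2 (ea b hb ▸ c))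
    · rw [sgl_fl' h hb.2 i.2 r]
      exact ⟨rfl, rfl⟩
  · simp only [p, g, pat_not (not_exists.1 k), nrm_fl hb.2, and_self]

variable (hn : (Br55.f0 w ls).LOK P n) (μ : ℤ × ℤ)

/-- the line of a frame -/
def Wf : WL L (C.rz h.w) (cp n μ) lam := (D.exists_fam h μ).choose n hn

/-- the marked line of a frame -/
def Nf : ML (um G h.w ls) lam := (D.Wf h hn μ).ml G _ _ (V1 e) (hV1 e) fun a => a.2.1.2

theorem isNf : IsN (V1 e) (D.Wf h hn μ) (D.Nf h hn μ) := (D.Wf h hn μ).isN _ _ _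

theorem Wf_out (ha : IsL ls a.1) (hn' : (Br55.f0 w ls).LOK P (Nm96.fl a.1.b n)) {z} (k : z ∈ hf (um G h.w ls) a true) :
    (D.Wf h hn' μ).p z = (D.Wf h hn μ).p z ∧ (D.Wf h hn' μ).g z = (D.Wf h hn μ).g z :=
  (D.exists_fam h μ).choose_spec.2 n hn a ha hn' z k

theorem Wf_ins (ha : IsL ls a.1) {z} (k : z ∈ hf D.M () false) :
    (D.Wf h hn μ).p (D.ψ h ha.2 z) = (D.W (sgl a.1.b n)).p z ∧ (D.Wf h hn μ).g (D.ψ h ha.2 z) = (D.W (sgl a.1.b n)).g z := by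
  have := (D.exists_fam h μ).choose_spec.1 n hn a ha _ (D.maps h a ha k)
  rwa [show (D.ψ h ha.2).symm (D.ψ h ha.2 z) = z from (D.ψ h ha.2).left_inv (D.src h a ha k)] at this

theorem ins (ha : IsL ls a.1) : LId (D.N (sgl a.1.b n)) (rs (D.Nf h hn μ) _ _) (D.I h a ha) (hf D.M () false)
    (D.N (sgl a.1.b n)).p := by
  have g := ls_agr' (d := a.1.b.lo - D.l.lo) D.h h D.mem ha.2 (by ring) rfl rfl (D.hn _) hn (D.sg _).symm
  have G' : Ga D.w w _ (cp n μ) _ _ _ _ := ga_agr (by omega) (D.agr h ha.2) ⟨g.r, g.l⟩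
  have u : Uni _ (D.W (sgl a.1.b n)).p (fun z => (D.Wf h hn μ).p (D.ψ h ha.2 z)) _ (hf D.M () false) :=
    ((D.W _).uni.mono (subset_univ _)).congr_p (fun _ _ => rfl) fun _ k => (D.Wf_ins h a hn μ ha k).1
  have := ls_hi D.h D.mem
  have A : WA (Icc (D.l.lo - 1) (D.l.lo + 4)) D.l :=
    ⟨show D.l.lo ∈ _ from ⟨by omega, by omega⟩, show D.l.hi ∈ _ from ⟨by omega, by omega⟩, fun _ k => nomatch k⟩
  exact lid (D.isN _) ((D.isNf h hn μ).rs _ _) (D.I h a ha) _ (fun _ => rfl) (isOpen_hf _ _)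
    (D.src h a ha) u fun _ => ⟨_, _, _, _, (D.cm h ha.2).toLc, G', D.wl_sh h a ha, ls_mt D.h D.mem (D.agr h ha.2),
      A, cp_of_g (D.cm h ha.2).toLc G' ⟨_, (ls_eq D.h D.mem).2.2.2 _ le_rfl (by omega)⟩
        ⟨_, (ls_eq h ha.2).2.2.2 _ (by omega) (by omega)⟩ (D.src h a ha) u
        fun z k c => ((D.W _).unit c).left.trans (D.Wf_ins h a hn μ ha k).2.symm⟩

theorem out (ha : IsL ls a.1) (hn' : (Br55.f0 w ls).LOK P (Nm96.fl a.1.b n)) : LId (D.Nf h hn μ) (D.Nf h hn' μ)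
    (sid _ (.subtype fun a' : UW w ls => ¬Crs a'.1.b a.1.b)) (hf (um G h.w ls) a true) (D.Nf h hn μ).p := by
  have G' : Ga w w (cp n μ) (cp (Nm96.fl a.1.b n) μ) 0 w.l w.r (Ou a.1.b) :=
    ga_self h.w (fun _ => fl_Ou) fun _ _ => jn_Ou h ha.2
  have u : Uni _ (D.Wf h hn μ).p (D.Wf h hn' μ).p _ (hf (um G h.w ls) a true) :=
    ((D.Wf h hn μ).uni.mono (subset_univ _)).congr_p (fun _ _ => rfl) fun _ k => (D.Wf_out h a hn μ ha hn' k).1
  refine lid (D.isNf h hn μ) (D.isNf h hn' μ) (sid _ _) (fun _ => rfl) (fun _ => rfl) (isOpen_hf _ _) (fun _ _ => trivial) u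
    fun b => ⟨0, _, _, _, lc_refl le_rfl le_rfl, G', (Wl.sh_zero _).symm, Wl.mt_refl b.1.2.1, ?_,
      cp_self G' u fun z k c => ((D.Wf h hn μ).unit c).left.trans (D.Wf_out h a hn μ ha hn' k).2.symm⟩
  have c := b.2
  simp only [Crs, not_or, not_and_or, not_lt] at c
  exact ⟨c.1, c.2, fun t k j p q => by have := b.1.2.2 t k _ ha.2; change _ ∨ _; omega⟩

variable (hJ : ∀ J, (Γ.src J).2.2 ≠ 0 ∧ (Γ.tgt J).2.2 ≠ 0) (e₈ : Fin 8 ↪ κ)
  (sp : ∀ τ ≠ WT.sph, ∀ j y, Met55.atx (G.g τ).e y (e₈ j) = 0) (B : Bas (C.X D.h.w).mf univ)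
  (b : Bool → LBas (C.X D.h.w).mf univ) (cut : Bool → An.Cut (C.X D.h.w).mf.M (lam ⊕ lam))
  (hc : ∀ s, (cut s).supp ⊆ (D.M.sys.w ()).sd false)

open Classical in
/-- **the lines of all frames** -/
def lp : LP C G P lam where
  L := L
  Lm := ⟨_, D.M, D.N, B, b, cut⟩
  hJ := hJ
  e := e₈
  sp := sp
  W h _ hn μ := D.Wf h hn μ
  N h _ hn μ := D.Nf h hn μ
  p _ _ _ _ := rfl
  spl h _ hn μ := (D.isNf h hn μ).spare ((Fintype.equivFinOfCardEq (by simp)).symm.toEmbedding.trans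
    (Embedding.inr.trans e)) fun j k => one_apply_ne fun c => nomatch e.injective c
  I h a ha := D.I h a ha
  ins h _ hn μ a ha := D.ins h a hn μ ha
  img h a ha := D.img h a ha
  out h _ hn μ a ha hn' := D.out h a hn μ ha hn'
  cut {_ ls} h a n := if k : a.b ∈ ls then Cut54.push (D.ψ h k) (fun x => rl ((D.N (sgl a.b n)).p x)) (cut (sgl a.b n))
    else ⟨fun _ _ => Classical.arbitrary _, [], []⟩
  rel h n a ha := by
    rw [dif_pos ha.2]
    exact Cut54.rel_push _ _ (hc _) fun _ k => D.src h a ha (.inl k)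

theorem lp_nat : ∃ V : Matrix lam K3 ℂ, Vᴴ * V = 1 ∧ ∀ {w ls} (h : (Br55.f0 w ls).OK P) {n}
    (hn : (Br55.f0 w ls).LOK P n) μ, IsN V ((D.lp hJ e₈ sp B b cut hc).W h hn μ) ((D.lp hJ e₈ sp B b cut hc).N h hn μ) :=
  ⟨_, hV1 e, fun h _ => D.isNf h⟩

end LMd

end Crest.Agent.X212.Line51
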