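import Crest.Agent.X212.Line51.Wd3
import Crest.Agent.X212.Br55.Ch

/-!
# X212 / Line51, part Lp0 (helper51): literal lines of words, the model of a lens wall

* `WL.re`, `exists_lit_WL`, `mt_win`, `mt_self` : lines with prescribed projector and section;
* `LMd` : the two lines of the model word, literally equal outside the lens wall; `exists_lmd`.
-/

set_option autoImplicit false
set_option linter.unusedSectionVars false

open Set Filter Topology Function Matrix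
open scoped ContDiff Manifold

noncomputable section

namespace Crest.Agent.X212.Line51

open Crest.Agent.X212.Wd38 Crest.Agent.X212.M Crest.Agent.X212.Nm96 Crest.Agent.X212.Br55
open Crest.Agent.X212.Cyl58 (TP)
open Crest.Agent.X212.G75 (hf)
open Crest.Agent.X212.Pj41 (FSm)

theorem exists_rho {X : Mf 4} {O t : Set X.M} (hO : IsOpen O) (ht : IsClosed t) (h : t ⊆ O) :
    ∃ ρ : X.M → ℝ, (∀ x, FSm X.I ρ x) ∧ tsupport ρ ⊆ O ∧ ∀ x ∈ t, ρ x = 1 := by
  have := Orx52.sigmaCompact X.I X.M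
  have := Manifold.metrizableSpace X.I X.M
  obtain ⟨f, a, b, -⟩ := exists_contMDiffMap_zero_one_nhds_of_isClosed X.I (n := ⊤) hO.isClosed_compl ht
    (disjoint_left.2 fun _ p q => p (h q))
  exact ⟨f, fun x => f.contMDiff x, fun x k => by_contra fun c =>
    notMem_tsupport_iff_eventuallyEq.2 (a.filter_mono (nhds_le_nhdsSet c)) k, b.self_of_nhdsSet⟩

section pat
variable {ι M β : Type} {S : ι → Set M} {f : ι → M → β} {g : M → β} {i : ι} {z : M}

open Classical in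
variable (S f g) in
/-- `f i` on `S i`, else `g` -/
def pat (z : M) : β := if h : ∃ i, z ∈ S i then f h.choose z else g z

theorem pat_mem (h : Pairwise (Disjoint on S)) (hz : z ∈ S i) : pat S f g z = f i z := by
  have k : ∃ i, z ∈ S i := ⟨i, hz⟩
  rw [pat, dif_pos k, show k.choose = i from by_contra fun e => disjoint_left.1 (h e) k.choose_spec hz]

theorem pat_not (h : ∀ i, z ∉ S i) : pat S f g z = g z := dif_neg (not_exists.2 h)

end pat

section half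
variable {X X' : Mf 4} {A A' A₀ κ : Type} [Fintype κ] {M : Mark X A κ} {M' : Mark X' A' κ}

theorem isOpen_hf (a : A) (b : Bool) : IsOpen (hf M a b) := ((M.sys.w a).op_sd b).union (M.sys.w a).op_band

theorem hf_cov (a : A) {z : X.M} (h : z ∉ hf M a false) : z ∈ hf M a true :=
  ((M.sys.w a).compl_subset false fun k => h (.inl k)).imp_left id

theorem hf_iff (I : MId M M' A₀) (a : A₀) (b : Bool) {z : X.M} (hz : z ∈ I.ψ.source) :
    I.ψ z ∈ hf M' (I.f' a) b ↔ z ∈ hf M (I.f a) b := by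
  refine or_congr (I.sd a b z hz) ⟨fun ⟨q, e⟩ => ?_, fun ⟨q, e⟩ => ⟨_, (I.jj a q).symm.trans (congrArg _ e)⟩⟩
  obtain ⟨y, k⟩ := (I.g a).surjective q.1
  exact ⟨(y, q.2), I.ψ.injOn (I.sub a ⟨_, rfl⟩) hz ((I.jj a _).trans ((congrArg (fun y => (M'.bn _).j (y, q.2)) k).trans e))⟩

end half

variable {Γ : Nm} {C : Cx Γ} {Λ : NmL Γ} {w w' : Shp Γ} {n n' : Wt} {x y x' a b d : ℤ} {t : ℝ}
  {L : LCx C Λ} {hw : w.OK} {hw' : w'.OK} {X X' : TP V4} {R : Rz C hw X} {R' : Rz C hw' X'}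
  {κ lam : Type} [Fintype κ] [Fintype lam] {A : Set ℤ} {z : X.P.M}
  {ψ : PartialDiffeomorph X.mf.I X'.mf.I X.P.M X'.P.M ∞}

variable (L R) in
/-- where the section of a line is defined -/
abbrev Da : Set X.P.M := Dw L R w.l w.r True True

/-- the line with another projector and section -/
def WL.re (W : WL L R n κ) {q : X.P.M → Matrix lam lam ℂ} {g u} (h : Mt X.P.I (Da L R) W.p W.g q g u univ) :
    WL L R n lam where
  p := q
  g := g
  ok := W.ok
  ln := h.toUni.on isOpen_univ W.ln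
  tl r := (W.tl r).congr (h.toUni.mono (subset_univ _)) fun z p k =>
    (h.eq z trivial ⟨.B _ _ r, ⟨r.lo, r.hi⟩, p, k⟩).symm
  cL := W.cL.congr (h.toUni.mono (subset_univ _)) fun z p k => (h.eq z trivial ⟨.L, trivial, p, k⟩).symm
  cR := W.cR.congr (h.toUni.mono (subset_univ _)) fun z p k => (h.eq z trivial ⟨.R, trivial, p, k⟩).symm

theorem WL.mt_loc (W : WL L R n κ) {q : X.P.M → Matrix lam lam ℂ} {g} {O : Set X.P.M}
    (h : ∀ z ∈ O, ∃ V u, IsOpen V ∧ z ∈ V ∧ V ⊆ O ∧ Mt X.P.I (Da L R) W.p W.g q g u V) :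
    ∃ u, Mt X.P.I (Da L R) W.p W.g q g u O :=
  exists_mt_loc (fun z _ => dense_Dw z) (fun _ _ => W.unit) h

/-- **literal lines** -/
theorem exists_lit_WL [DecidableEq κ] (W : WL L R n κ) {q : X.P.M → Matrix κ κ ℂ} {g u} {O K : Set X.P.M}
    (h : Mt X.P.I (Da L R) W.p W.g q g u O) (hO : IsOpen O) (hK : IsClosed K) (s : K ⊆ O) {V₁ V₂ : Matrix lam κ ℂ}
    (h1 : V₁ᴴ * V₁ = 1) (h2 : V₂ᴴ * V₂ = 1) (h12 : V₁ᴴ * V₂ = 0) :
    ∃ W' : WL L R n lam, ∀ z ∈ K, W'.p z = V₂ * q z * V₂ᴴ ∧ W'.g z = V₂ * g z := by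
  classical
  obtain ⟨ρ, r1, r2, r3⟩ := exists_rho (X := X.mf) hO hK s
  obtain ⟨L', v, -, i, k, -⟩ := exists_lit W.ln h.toUni r1 r2 h1 h2 h12
  refine ⟨W.re (g := fun z => if z ∈ K then V₂ * g z else v z * W.g z) ⟨i.toUni, fun z _ c => ?_⟩,
    fun z c => ⟨(k z (r3 z c)).2, if_pos c⟩⟩
  split_ifs with e
  · rw [(k z (r3 z e)).1, Matrix.mul_assoc, h.eq z (s e) c]
  · rfl

theorem Dw_loc (h : w.Rg a b) (ra : ∃ τ, w.s a = .rod τ) (rb : ∃ τ, w.s b = .rod τ) (h1 : w.l < a) (h2 : b < w.r)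
    (hz : X.τ z ∈ II a b) (k : z ∈ Da L R) : z ∈ Dw L R a b False False := by
  obtain ⟨⟨a', b', h'⟩ | _ | _, -, p, q⟩ := k
  · obtain ⟨s, s1, rfl⟩ := surj_B (R := R) h hz
    obtain ⟨s', s2, e⟩ := surj_B (R := R) h' p
    have o : w.Ov a b a' b' := ⟨fun _ => rb, fun e => e ▸ ra⟩
    have m := o.hull h h' s1 (tm_B h s1 ▸ p)
    exact ⟨.B _ _ h, ⟨le_rfl, le_rfl⟩, hz, (mem_imT _ s1).2 ((nr_off ((C.T_eq hw m (min_le_left _ _)
      (lt_max_of_lt_left h.lt)).trans (C.T_eq hw m (min_le_right _ _) (lt_max_of_lt_right h'.lt)).symm)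
      (R.nr_of_eq h h' o s1 s2 e.symm)).1 ((mem_imT _ s2).1 (e ▸ q)))⟩
  · exact ((II_le hz (x' := a) ⟨hz.1, p⟩).not_gt h1).elim
  · exact ((II_le (y := b) ⟨p, hz.2⟩ hz).not_gt h2).elim

/-- matching over a window of rods -/
theorem mt_win (W : WL L R n κ) (W' : WL L R' n' lam) (H : Lc R R' d a b ψ) (g : w.Agr w' d a b)
    (g' : n.Agr n' d a b) (h : w.Rg a b) (ra : ∃ τ, w.s a = .rod τ) (rb : ∃ τ, w.s b = .rod τ)
    (ra' : ∃ τ, w'.s (a + d) = .rod τ) (h1 : w.l < a) (h2 : b < w.r) :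
    ∃ u, Mt X.P.I (Da L R) W.p W.g (fun z => W'.p (ψ z)) (fun z => W'.g (ψ z)) u (X.τ ⁻¹' II a b) :=
  let ⟨u, k⟩ := exists_gm (eL := False) (eR := False) W W' H (ga_agr h.lt g g') ⟨False.elim, False.elim⟩
  ⟨u, (k.mono (fun _ c => Vw_sub ⟨c, .inr (mem_TA (fun _ p q => ⟨p, q⟩) c)⟩)
    fun _ c => Dw_loc h ra rb h1 h2 c.1 c.2).congr fun z _ _ => ⟨rfl, by
      rw [lm_one ra ra', Circle.coe_one, one_smul]⟩⟩

theorem mt_self (W : WL L R n κ) (W' : WL L R n' lam) (G : Ga w w n n' 0 w.l w.r A) (hL : n'.mL = n.mL)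
    (hR : n'.mR = n.mR) : ∃ u, Mt X.P.I (Da L R) W.p W.g W'.p W'.g u (Vg R A w.l w.r True True) :=
  let ⟨u, k⟩ := exists_gm W W' (lc_refl le_rfl le_rfl) G (cs_refl hL hR)
  ⟨u, k.congr fun z _ _ => ⟨rfl, by
    rw [lm_one ⟨_, hw.sl⟩ ⟨_, (add_zero w.l).symm ▸ hw.sl⟩, Circle.coe_one, one_smul]; rfl⟩⟩

theorem mem_TA_iff : t ∈ TA A ↔ ∀ j, ⌈t⌉ - 1 ≤ j → j ≤ ⌊t⌋ → j ∈ A :=
  ⟨fun ⟨i, k, p, q⟩ j u v => q j (by have := Int.lt_ceil.2 p.1; omega) (by
    have := Int.floor_lt.2 (show t < ((k + 1 : ℤ) : ℝ) by exact_mod_cast p.2); omega),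
    fun h => ⟨_, _, ⟨by push_cast; linarith [Int.ceil_lt_add_one t], Int.lt_floor_add_one t⟩, h⟩⟩

theorem Vg_iInter {ι : Type} {B : ι → Set ℤ} (h : ∀ i, z ∈ Vg R (B i) w.l w.r True True) :
    z ∈ Vg R (⋂ i, B i) w.l w.r True True := by
  by_contra c
  simp only [Vg, Vw, mem_union, mem_inter_iff, mem_ofPred_eq, mem_preimage, true_and, not_or, not_and] at h c
  obtain k | k | ⟨j, p, q, k⟩ := Rz.cover hw (X.τ z)
  exacts [c.1.2 k, c.2 k, (c.1.1 (II_mono p q k)).2 (mem_TA_iff.2 fun j u v => mem_iInter.2 fun i =>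
    mem_TA_iff.1 (((((h i).resolve_right c.2).resolve_right c.1.2).2).resolve_left (c.1.1 (II_mono p q k)).1) j u v)]

/-! ### lens walls -/

section arc
variable {B : Type} {G : Tab C.kd κ} {Wf : B → Wl} {hW : ∀ a, (Wf a).b.OK w} {i : B}

theorem mem_hf (e : Wf i = Bs.lA x y) : (z ∈ hf (R.mark G Wf hW) i false → X.τ z ∈ II x y) ∧
    (z ∈ hf (R.mark G Wf hW) i true → z ∉ R.D x y (Iio (((y : ℝ) - x) / 2 - 1 / 4))) := by
  have key : ∀ a k, a = (Bs.lA x y : Wl) → ∃ k', (∀ s, z ∈ (R.bn a k).wall.sd s ↔ z ∈ (R.nk (.lA x y) k').S s) ∧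
      range (R.bn a k).j ⊆ R.bd (.lA x y) := by
    rintro _ k rfl
    exact ⟨k, fun s => R.bn_sd _ k (z := z), ((R.range_bn _ k).trans (image_id _)).le⟩
  obtain ⟨k0, k1, k2⟩ := key _ (hW i) e
  refine ⟨fun c => c.elim (fun c => R.D_II ((R.spec_nk _ k0).f.le ((k1 _).1 c))) fun c => R.D_II (k2 c),
    fun c o => ?_⟩
  obtain ⟨r, -, -, -, k⟩ := R.D_up o.1 le_rfl le_rfl o
  have := mem_Iio.1 ((k _).1 o)
  rcases c with c | c
  · exact (R.spec_nk _ k0).t.le ((k1 _).1 c) ((k _).2 (show r ≤ ((y : ℝ) - x) / 2 by linarith))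
  · exact ((k _).1 (k2 c)).1.not_gt this

theorem isOpen_D (h : w.Rg x y) {S : Set ℝ} (hS : IsOpen S) : IsOpen (R.D x y S) := by
  have : R.D x y S = im (R.B h).φ ((C.T _).disc _ (cc x y) S) := Subset.antisymm
    (fun _ ⟨_, p, a, b, e⟩ => e ▸ (mem_imT _ a).2 b) fun z k =>
      let ⟨p, a, b, e⟩ := exists_of_im k; ⟨h, p, (R.B h).src.le b, a, e⟩
  exact this ▸ isOpen_im ((C.T _).isOpen_disc hS)

end arc

variable {P : Pm Γ} {F F' : Fm Γ} {l : Bs}

/-- the orders round a lens arc -/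
def lod (x : ℤ) (b : Bool) (j : ℤ) : ℤ := if x < j ∧ j < x + 3 ∧ b = false then 0 else 1

theorem ls_eq (h : F.OK P) (hl : l ∈ F.ls) : l = .lA l.lo (l.lo + 3) ∧ F.w.l < l.lo - 1 ∧ l.lo + 4 < F.w.r ∧
    ∀ j, l.lo - 1 ≤ j → j ≤ l.lo + 4 → F.w.s j = .rod (P.kL, lrd l.lo j) := by
  obtain ⟨x, rfl, k⟩ := h.ls l hl
  exact ⟨rfl, k⟩

theorem ls_ord (h : F.OK P) (hn : F.LOK P n) (hl : l ∈ F.ls) {j : ℤ} (h1 : l.lo - 1 ≤ j) (h2 : j ≤ l.lo + 4) :
    n.nl j = lod l.lo (sgl l n) j ∧ n.nr j = lod l.lo (sgl l n) j := by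
  obtain ⟨x, rfl, p, q, k⟩ := h.ls l hl
  have r := fun j (a : x - 1 ≤ j) (b : j ≤ x + 4) => hn.ok.rod j _ (by omega) (by omega) (k j a b)
  have e := fun j (a : x ≤ j) (b : j ≤ x + 4) (c : lrd x (j - 1) = lrd x j) => hn.ok.eq j (by omega) (by omega) (by
    rw [Shp.lf, Shp.rt, k _ (by omega) (by omega), k _ (by omega) b]; exact c)
  have e1 := e x le_rfl (by omega) (by simp [lrd])
  have e2 := e (x + 2) (by omega) (by omega) (by simp only [lrd]; split_ifs <;> first | rfl | omega)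
  have e3 := e (x + 4) (by omega) le_rfl (by simp only [lrd]; split_ifs <;> first | rfl | omega)
  have o := hn.ls _ hl
  rw [show x + 2 - 1 = x + 1 by ring] at e2
  rw [show x + 4 - 1 = x + 3 by ring] at e3
  have r1 := r (x - 1) le_rfl (by omega)
  have r2 := r (x + 1) (by omega) (by omega)
  have r3 := r (x + 3) (by omega) (by omega)
  rw [← r j h1 h2, and_self]
  have s : sgl (.lA x (x + 3)) n = false ↔ ¬n.nl (x + 1) = 1 := decide_eq_false_iff_not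
  simp only [Bs.lo, Bs.hi, lod, s] at o h1 h2 ⊢
  obtain rfl | rfl | rfl | rfl | rfl | rfl : j = x - 1 ∨ j = x ∨ j = x + 1 ∨ j = x + 2 ∨ j = x + 3 ∨ j = x + 4 := by
    omega
  all_goals split_ifs <;> omega

theorem ls_rg (h : F.OK P) (hl : l ∈ F.ls) (h1 : l.lo - 1 ≤ a) (h0 : a < b) (h2 : b ≤ l.lo + 4) : F.w.Rg a b :=
  let k := (ls_eq h hl).2
  ⟨by omega, h0, by omega, fun j _ _ => ⟨_, k.2.2 j (by omega) (by omega)⟩⟩

theorem ls_agr (h : F.OK P) (h' : F'.OK P) {l' : Bs} (hl : l ∈ F.ls) (hl' : l' ∈ F'.ls) (e : l'.lo = l.lo + d)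
    (ea : a = l.lo - 1) (eb : b = l.lo + 4) : F.w.Agr F'.w d a b := by
  have k : ∀ j, a ≤ j → j ≤ b → F'.w.s (j + d) = F.w.s j := fun j p q => by
    rw [(ls_eq h hl).2.2.2 j (by omega) (by omega), (ls_eq h' hl').2.2.2 _ (by omega) (by omega), e]
    simp only [lrd, add_le_add_iff_right, add_right_comm l.lo d]
  exact ⟨by rw [k a le_rfl (by omega)], fun j p q => k j p.le q.le, by rw [k b (by omega) le_rfl]⟩

theorem ls_agr' (h : F.OK P) (h' : F'.OK P) {l' : Bs} (hl : l ∈ F.ls) (hl' : l' ∈ F'.ls) (e : l'.lo = l.lo + d)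
    (ea : a = l.lo - 1) (eb : b = l.lo + 4) (hn : F.LOK P n) (hn' : F'.LOK P n') (s : sgl l' n' = sgl l n) :
    n.Agr n' d a b := by
  have k : ∀ j, lod (l.lo + d) (sgl l n) (j + d) = lod l.lo (sgl l n) j := fun j =>
    if_congr (by simp only [add_lt_add_iff_right, add_right_comm l.lo d]) rfl rfl
  exact ⟨fun j p q => by
    rw [(ls_ord h hn hl (by omega) (by omega)).2, (ls_ord h' hn' hl' (by omega) (by omega)).2, e, s, k],
    fun j p q => by
      rw [(ls_ord h hn hl (by omega) (by omega)).1, (ls_ord h' hn' hl' (by omega) (by omega)).1, e, s, k]⟩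

theorem ls_ok (h : F.OK P) (hl : l ∈ F.ls) : l.OK F.w := by
  have k := ls_eq h hl
  rw [k.1]
  refine ⟨ls_rg h hl (by omega) (by omega) (by omega), ?_⟩
  rw [k.2.2.2 _ (by omega) (by omega), k.2.2.2 _ (by omega) (by omega)]
  simp [Sl.l, Sl.r, lrd, Rod53.dt]

theorem ls_ad {ls : Finset Bs} (h : (Br55.f0 w ls).OK P) (hl : l ∈ ls) : Ad w ls l :=
  ⟨⟨ls_ok h hl, fun _ k => nomatch k⟩, fun _ k => nomatch k⟩

/-- the slots outside a lens arc -/
def Ou (l : Bs) : Set ℤ := {j | j ≤ l.lo ∨ l.hi ≤ j}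

theorem jn_Ou (h : F.OK P) (hl : l ∈ F.ls) {j : ℤ} {J : Γ.J} (e : F.w.s j = .jn J) : j ∈ Ou l := by_contra fun c => by
  have k := ls_eq h hl
  have : l.hi = l.lo + 3 := congrArg Bs.hi k.1
  simp only [Ou, mem_ofPred_eq] at c
  rw [k.2.2.2 j (by omega) (by omega)] at e
  cases e

theorem fl_Ou {j : ℤ} (h : j ∈ Ou l) : (fl l n).nl j = n.nl j ∧ (fl l n).nr j = n.nr j :=
  ⟨if_neg (by simp only [Ou, mem_ofPred_eq] at h; omega), if_neg (by simp only [Ou, mem_ofPred_eq] at h; omega)⟩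

theorem D_Vg (h : F.OK P) (hl : l ∈ F.ls) {X : TP V4} (R : Rz C h.w X) :
    (R.D l.lo (l.lo + 3) (Iio ((((l.lo + 3 : ℤ) : ℝ) - l.lo) / 2 - 1 / 4)))ᶜ ⊆ Vg R (Ou l) F.w.l F.w.r True True :=
  compl_D (ls_rg h hl (by omega) (by omega) (by omega)) (fun _ k => mem_Iio.2 (by linarith [mem_Iic.1 k]))
    fun _ k => k.imp_right (congrArg Bs.hi (ls_eq h hl).1).le.trans

/-! ### the model -/

variable [DecidableEq lam]

/-- the first block -/
def V1 (e : K3 ⊕ K3 ↪ lam) : Matrix lam K3 ℂ := em fun i => e (.inl i)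

/-- the second block -/
def V2 (e : K3 ⊕ K3 ↪ lam) : Matrix lam K3 ℂ := em fun i => e (.inr i)

theorem hV1 (e : K3 ⊕ K3 ↪ lam) : (V1 e)ᴴ * V1 e = 1 := em_iso (e.injective.comp Sum.inl_injective)

theorem hV2 (e : K3 ⊕ K3 ↪ lam) : (V2 e)ᴴ * V2 e = 1 := em_iso (e.injective.comp Sum.inr_injective)

theorem hV12 (e : K3 ⊕ K3 ↪ lam) : (V1 e)ᴴ * V2 e = 0 := em_orth fun _ _ k => nomatch e.injective k

variable (G : Tab C.kd κ) (P) (L : LCx C P.Λ) (e : K3 ⊕ K3 ↪ lam)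

/-- **the model of a lens wall** : a word with one lens arc, and its two lines -/
structure LMd where
  w : Shp Γ
  l : Bs
  h : (Br55.f0 w {l}).OK P
  n : Bool → Wt
  hn : ∀ b, (Br55.f0 w {l}).LOK P (n b)
  sg : ∀ b, sgl l (n b) = b
  fl : n false = fl l (n true)
  W : ∀ b, WL L (C.rz h.w) (n b) lam
  W₀ : WL L (C.rz h.w) (n true) K3
  lit : ∀ b, ∀ z, b = true ∨ z ∈ hf (mrk G h.w (fun _ : Unit => l) fun _ => ls_ad h (Finset.mem_singleton_self l)) () true →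
    (W b).p z = V2 e * W₀.p z * (V2 e)ᴴ ∧ (W b).g z = V2 e * W₀.g z

variable {P}

theorem sgl_fl (h : F.OK P) (hn : F.LOK P n) (hl : l ∈ F.ls) : sgl l (fl l n) = !sgl l n := by
  have k := (hn.ls l hl).2.2
  have : l.hi = l.lo + 3 := congrArg Bs.hi (ls_eq h hl).1
  simp only [sgl, fl, if_pos (show l.lo < l.lo + 1 ∧ l.lo + 1 < l.hi by omega)]
  rcases k with k | k <;> simp [k]

/-- the model exists as soon as some frame has a lens arc -/
theorem exists_lmd (h : F.OK P) (hn : F.LOK P n) (hl : l ∈ F.ls) : ∃ D : LMd P G L e, D.w = F.w ∧ D.l = l := by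
  wlog s : sgl l n = true generalizing n
  · exact this (lok_fl h hn hl) (by simpa [sgl_fl h hn hl] using s)
  have m := Finset.mem_singleton_self l
  have h0 : (Br55.f0 F.w {l}).OK P := ⟨h.w, fun _ k => absurd k (Finset.notMem_empty _),
    fun _ k => Finset.mem_singleton.1 k ▸ h.ls l hl, fun _ _ _ k => absurd k (Finset.notMem_empty _),
    fun _ k _ k' c => absurd ((Finset.mem_singleton.1 k).trans (Finset.mem_singleton.1 k').symm) c⟩
  have n1 : (Br55.f0 F.w {l}).LOK P n := ⟨hn.ok, hn.mL, hn.mR, fun _ k => Finset.mem_singleton.1 k ▸ hn.ls l hl⟩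
  have n0 := lok_fl h0 n1 m
  obtain ⟨W₀⟩ := exists_WL L (C.rz h.w) n1.ok
  obtain ⟨W₁⟩ := exists_WL L (C.rz h.w) n0.ok
  obtain ⟨W, k⟩ := exists_lit_WL W₀ (Mt.refl W₀.ln fun _ _ => W₀.unit) isOpen_univ isClosed_univ subset_rfl
    (hV1 e) (hV2 e) (hV12 e)
  obtain ⟨u, c⟩ := mt_self W₁ W₀ (ga_self h.w (fun _ c => (fl_Ou c).imp Eq.symm Eq.symm) fun _ _ => jn_Ou h hl) rfl rfl
  obtain ⟨W', k'⟩ := exists_lit_WL W₁ c isOpen_Vg (isOpen_D (ls_rg h hl (by omega) (by omega) (by omega))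
    isOpen_Iio).isClosed_compl (D_Vg h hl _) (hV1 e) (hV2 e) (hV12 e)
  refine ⟨⟨F.w, l, h0, fun b => cond b n (fl l n), ?_, ?_, rfl, fun b => match b with | true => W | false => W', W₀,
    ?_⟩, rfl, rfl⟩ <;> rintro (_ | _)
  exacts [n0, n1, (sgl_fl h hn hl).trans (congrArg not s), s,
    fun z c => k' z ((mem_hf (congrArg Wl.mk (ls_eq h hl).1 ▸ rfl)).2 (c.resolve_left nofun)), fun z _ => k z trivial]

namespace LMd
variable {G L e} (D : LMd P G L e)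

theorem mem : D.l ∈ (Br55.f0 D.w {D.l}).ls := Finset.mem_singleton_self _

/-- the mark of the model -/
abbrev M : Mark (C.X D.h.w).mf Unit κ := mrk G D.h.w (fun _ : Unit => D.l) fun _ => ls_ad D.h D.mem

/-- the marked lines of the model -/
def N (b : Bool) : ML D.M lam := (D.W b).ml G _ _ (V1 e) (hV1 e) fun _ _ k => nomatch k

theorem isN (b : Bool) : IsN (V1 e) (D.W b) (D.N b) := (D.W b).isN _ _ _

/-- the two lines are equal outside the wall -/
theorem eq (b b' : Bool) {z} (h : z ∈ hf D.M () true) : (D.W b).p z = (D.W b').p z ∧ (D.W b).g z = (D.W b').g z :=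
  ⟨(D.lit b z (.inr h)).1.trans (D.lit b' z (.inr h)).1.symm, (D.lit b z (.inr h)).2.trans (D.lit b' z (.inr h)).2.symm⟩

theorem LY_m : (D.N true).LY () = (D.N false).LY () ∧ (D.N true).m () = (D.N false).m () := by
  obtain ⟨m, M, e⟩ := (D.isN true).m ()
  obtain ⟨m', M', e'⟩ := (D.isN false).m ()
  have G' : Ga D.w D.w (D.n true) (D.n false) 0 D.w.l D.w.r (Ou D.l) :=
    ga_self D.h.w (fun _ c => D.fl ▸ fl_Ou c) fun _ _ => jn_Ou D.h D.mem
  have k := mk_self G' (ls_ad D.h D.mem).1 ⟨.inl le_rfl, .inr le_rfl, fun _ k => nomatch k⟩ M M'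
  refine ⟨by rw [(D.isN true).LY, (D.isN false).LY, k.1], ?_⟩
  rw [e, e']
  funext q
  have c : (D.M.bn ()).j q ∈ hf D.M () true := .inr ⟨q, rfl⟩
  rw [← k.2 (isOpen_hf (M := D.M) () true) (cp_self G' (((D.W true).uni.mono (subset_univ _)).congr_p (fun _ _ => rfl)
    fun _ c => (D.eq _ _ c).1) fun z c o => ((D.W true).unit o).left.trans (D.eq _ _ c).2) q c]
  exact congrArg _ ((congrArg _ (D.eq true false c).1).trans (M'.uni.iso q trivial).idem)

theorem nA : (D.N true).nA () = (D.N false).nA () := by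
  funext q
  rw [ML.nA, ML.nA, D.LY_m.1, D.LY_m.2]

end LMd

end Crest.Agent.X212.Line51
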