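import Crest.Agent.X212.Lwd19.Lm
import Crest.Agent.X212.Cut54.Deg
import Crest.Agent.X212.Csm97.Cut
import Crest.Agent.X212.Line51.Ic

/-!
# X212 / Line51, part Mc (helper51): the cuts of the lens model

* `exists_cut` : the cut inside the arc `lA x (x + 3)`; `LMd.exists_cut`, `LMd.exists_lm` : the complete model.
-/

set_option autoImplicit false
set_option linter.unusedSectionVars false

open Set Function
open scoped ContDiff Manifold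
open Crest.Agent.R208.F (Ext)
open Crest.Agent.X212.Wd38 Crest.Agent.X212.Cut54 Crest.Agent.X212.Lwd19 Crest.Agent.X212.An
open Crest.Agent.X212.Rod53 hiding Uni X
open Crest.Agent.X212.Cyl58 (TP)
open Crest.Agent.X212.M (Mf V4)
open Crest.Agent.X212.Nm96 (lrd Pm)
open Crest.GeometryTopology.DehnSurgery (S3)

noncomputable section

namespace Crest.Agent.X212.Line51

theorem exists_mok_deg {T : Tb (𝓡 3) S3} {v : ℝ → Z2} {a b η₁ η₂ : Z2} {k : ℤ} {c₁ c₂ : ℝ} {κ : Type} [Fintype κ]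
    [DecidableEq κ] {m : ℝ → ℤ} {U : Set (Rod53.X T v)} {p σ O} [SecondCountableTopology (Rod53.X T v)]
    (S : Cut54.RS v a b k c₁ c₂) (hd : dt a b = 1) (hO : VP T v O) (hU : IsOpen U)
    (hs : ∀ x ∉ off T v, T.time v x ∈ Icc c₁ c₂ → x ∈ U) (h : TL T v m p σ U)
    (h₁ : ∀ t ∈ Ico c₁ c₂, Rep v m η₁ t) (h₂ : ∀ t ∈ Ioc c₁ c₂, Rep v m η₂ t) (he : |dot (η₁ - η₂) a| = |k - 2|) :
    ∃ (c : Cut (Rod53.X T v) (κ ⊕ κ)) (K : Set _), K ⊆ U ∧ MOK (𝓡 4) c O (fun x => rl (p x)) (iL κ) K ∧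
      Deg (fun θ s => p (c.γ θ s)) (k - 2) := by
  have key : ∀ {a b : Z2} (S : Cut54.RS v a b k c₁ c₂), dt a b = 1 → dot (η₁ - η₂) a = k - 2 →
      ∃ (c : Cut (Rod53.X T v) (κ ⊕ κ)) (K : Set _), K ⊆ U ∧ MOK (𝓡 4) c O (fun x => rl (p x)) (iL κ) K ∧
        Deg (fun θ s => p (c.γ θ s)) (k - 2) := fun S hd he =>
    have g := fun θ s => hs _ (S.not_off T θ s) (S.time_mem T θ s)
    let ⟨c, K, e, u, w⟩ := S.exists_mok (hO _ _ _ _ hd) (hO _ _ _ _ ((dt_nx _ _ _).trans hd)) hU g h h₁ h₂ he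
    ⟨c, K, u, w, e ▸ he ▸ S.deg hU g h h₁ h₂⟩
  rcases abs_eq_abs.1 he with e | e
  exacts [key S hd e, key S.neg (by rw [dt_neg_left, dt_neg_right, neg_neg, hd]) (by rw [dot_neg', e, neg_neg])]

variable {Γ : Nm} {C : Cx Γ} {κ lam : Type} [Fintype κ] [Fintype lam] [DecidableEq lam]

/-- **the cut inside a lens arc** -/
theorem exists_cut {Λ : NmL Γ} {w : Shp Γ} {L : LCx C Λ} {hw : w.OK} {X : TP V4} {R : Rz C hw X} {x : ℤ} {k : Γ.ι}
    (hr : ∀ j, x ≤ j → j ≤ x + 3 → w.s j = .rod (k, lrd x j)) (hW : (Bs.lA x (x + 3)).OK w) {n : Wt}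
    (W : WL L R n lam) (ho : |n.nr x - (4 * n.nl (x + 1) - n.nl (x + 3))| = 2) :
    ∃ (c : Cut X.mf.M (lam ⊕ lam)) (K : Set _), K ⊆ (R.bn ⟨.lA x (x + 3), []⟩ hW).wall.sd false ∧
      MOK X.mf.I c (-R.O) (fun z => rl (W.p z)) (iL lam) K ∧ Deg (fun θ s => W.p (c.γ θ s)) 2 := by
  have h := hW.1
  have bw := bw_lrd hr
  have v := (h.v_eq hw).trans (congrArg wd bw)
  have c : cc x (x + 3) = x + 2 := by unfold cc; push_cast; ring
  have r : (Bs.lA x (x + 3)).r0 = 3 / 2 := by unfold Bs.r0; push_cast; ring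
  have lt : ∀ s ∈ Iio (Bs.lA x (x + 3)).r0, s < (((x + 3 : ℤ) : ℝ) - x) / 2 + 1 / 4 := fun s a => by
    push_cast; linarith [mem_Iio.1 a]
  have ds := fun p (a : p ∈ (C.T _).disc (w.v x (x + 3)) _ _) => C.tm_disc a lt
  have rp := fun s t a => rep_lrd (bn_in W.ok h bw) s (t := t) a
  rw [bn_le le_rfl, bn_mid (by omega) (by omega), bn_ge h.lt le_rfl, ← bw, ← h.bz_eq hw] at rp
  have S : Cut54.RS (w.v x (x + 3)) (1, 2) (0, 1) 4 (x + 1) (x + 3) := v ▸ ⟨.inl rfl, by linarith,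
    fun t a => jv1 (by linarith [a.1]) a.2, fun t a => jv2 a.1 (by linarith [a.2])⟩
  have := (C.T (w.kn x)).secondCountable (w.loc x (x + 3))
  obtain ⟨q, K, a, b, d⟩ := exists_mok_deg S rfl (vp_neg (C.ok_spec rfl) (Orx52.pos_τ _ _))
    ((C.T _).isOpen_disc isOpen_Iio) (fun z p t => let u := (C.T _).rr_axis (c := cc x (x + 3)) p
      ⟨u.1, u.2.trans_lt (abs_lt.2 ⟨by linarith [t.1], by linarith [t.2]⟩)⟩) ((W.tl h).mono ds)
    (fun t a => rp false t ⟨by linarith [a.1], by linarith [a.2]⟩)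
    (fun t a => rp true t ⟨by linarith [a.1], by linarith [a.2]⟩) (by
      rw [dot_sub]; simpa [et, dual, dot, Rod53.dt] using ho)
  borelize E4 (Rod53.X (C.T (w.kn x)) (w.v x (x + 3)))
  have s := fun p (e : p ∈ K) => (R.B h).mem_src (ds p (a e))
  refine ⟨_, _, ?_, b.tp (R.B h).φ s (Int54.SameOn.symm ((R.O_spec.B h).neg.mono fun p e => ds p (a e))) (W.uni.comp ⟨fun p e =>
    (R.B h).φ.contMDiffOn_toFun.contMDiffAt ((R.B h).φ.open_source.mem_nhds (s p e)), mapsTo_univ _ _⟩), d⟩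
  rintro _ ⟨p, e, rfl⟩
  exact (R.bn_sd _ hW).2 (((R.spec_nk _ hW).f.trans (R.D_eq h lt)).ge ⟨p, a e, rfl⟩)

namespace LMd
variable {P : Pm Γ} {G : Tab C.kd κ} {L : LCx C P.Λ} {e : K3 ⊕ K3 ↪ lam} (D : LMd P G L e)

theorem exists_cut : ∃ cut : Bool → Cut (C.X D.h.w).mf.M (lam ⊕ lam), ∀ s, ∃ K ⊆ (D.M.sys.w ()).sd false,
    MOK (C.X D.h.w).mf.I (cut s) D.M.o (fun z => rl ((D.N s).p z)) (iL lam) K ∧
      Deg (fun θ r => (D.N s).p ((cut s).γ θ r)) 2 := by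
  have o := fun σ j => D.sg σ ▸ ls_ord D.h (D.hn σ) D.mem (j := j)
  obtain ⟨x, e, -, -, r⟩ := D.h.ls _ D.mem
  obtain ⟨w, l, h, n, _, _, _, W, _⟩ := D
  subst e
  simp only [Bs.lo] at o
  refine Classical.skolem.1 fun σ => Line51.exists_cut (fun j a b => r j (by omega) (by omega)) _ (W σ) ?_
  rw [(o σ _ (by omega) (by omega)).2, (o σ _ (by omega) (by omega)).1, (o σ _ (by omega) (by omega)).1]
  cases σ <;> simp [lod]

/-- **the complete model of a lens wall** -/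
theorem exists_lm (hM : Lns95.MetStmt) (hG : ∀ τ, Gl9.Std C.kd τ (G.g τ).e) : ∃ B b cut,
    G75.CutOK (⟨_, D.M, D.N, B, b, cut⟩ : G75.LM κ lam) ∧ (∀ s, (cut s).supp ⊆ (D.M.sys.w ()).sd false) ∧
    (∀ s, Csm97.Dat (C.X D.h.w).mf.I (cut s) ∧ Deg (fun θ r => (D.N s).p ((cut s).γ θ r)) 2) ∧
    ∃ K : Lns95.LOK (⟨_, D.M, D.N, B, b, cut⟩ : G75.LM κ lam) 4, ∀ σ, K.k σ = cond σ (-2) 2 ∧ |K.k σ| = 2 :=
  let ⟨cut, h⟩ := D.exists_cut
  let ⟨B, b, K⟩ := lmd_lok hM hG D cut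
  ⟨B, b, cut, fun s => (h s).imp fun _ k => ⟨k.1, k.2.1⟩, fun s => let ⟨_, k⟩ := h s; k.2.1.supp.trans k.1,
    fun s => let ⟨_, _, k, d⟩ := h s; ⟨⟨k.sm, k.h0, k.h1, fun t m => let ⟨a, b, c⟩ := k.sw t m; ⟨a.1, b.1, c.1⟩,
      fun t m => let ⟨a, b, c⟩ := k.se t m; ⟨a.1, b.1, c.1⟩⟩, d⟩, K⟩

end LMd

end Crest.Agent.X212.Line51
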