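import Crest.Agent.X212.Line51.Lp
import Crest.Agent.X212.Mv27.Defs

/-!
# X212 / Line51, part Nat (helper51): the lines of all frames are natural

* `LMd.nat : Mv27.Nat (D.lp …)`.
-/

set_option autoImplicit false
set_option linter.unusedSectionVars false

open Set Function
noncomputable section

namespace Crest.Agent.X212.Line51.LMd

open Crest.Agent.X212.Wd38 Crest.Agent.X212.M Crest.Agent.X212.Nm96 Crest.Agent.X212.Br55

variable {Γ : Nm} {C : Cx Γ} {P : Pm Γ} {κ lam : Type} [Fintype κ] [Fintype lam] [DecidableEq lam]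
  {G : Tab C.kd κ} {L : LCx C P.Λ} {e : K3 ⊕ K3 ↪ lam} (D : LMd P G L e)
  (hJ : ∀ J, (Γ.src J).2.2 ≠ 0 ∧ (Γ.tgt J).2.2 ≠ 0) (e₈ : Fin 8 ↪ κ)
  (sp : ∀ τ ≠ WT.sph, ∀ j y, Met55.atx (G.g τ).e y (e₈ j) = 0) (B : Bas (C.X D.h.w).mf univ)
  (b : Bool → LBas (C.X D.h.w).mf univ) (cut : Bool → An.Cut (C.X D.h.w).mf.M (lam ⊕ lam))
  (hc : ∀ s, (cut s).supp ⊆ (D.M.sys.w ()).sd false)

/-- **naturality of the lines of all frames** -/
theorem nat (hi : ∀ J J', P.iv J J' → Mv27.LInv L J J') : Mv27.Nat (D.lp hJ e₈ sp B b cut hc) where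
  isN := ⟨_, fun h _ => D.isNf h⟩
  out h _ hn μ a ha hn' _ k := (D.Wf_out h a hn μ ha hn' k).2
  ins := ⟨fun s => (D.W s).g, fun h _ hn μ a ha _ k => (D.Wf_ins h a hn μ ha k).2⟩
  cr := ⟨D.w, D.h.w, id, D.l.lo, ls_rg D.h D.mem (by omega) (by omega) (by omega), fun h a ha =>
    ⟨_, _, _, by omega, by omega, (D.cm h ha.2).toLc, fun _ k =>
      ⟨hf_II (G := G) D.h ⟨D.l, ls_ad D.h D.mem⟩ ⟨rfl, D.mem⟩ k, D.src h a ha k, rfl⟩⟩⟩
  inv := hi

end Crest.Agent.X212.Line51.LMd
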