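import Crest.Agent.X212.Line51.Mc
import Crest.Agent.X212.Line51.Nat
import Crest.Agent.X212.Wd38.P0
import Crest.Agent.X212.Lns4.Met
import Crest.Agent.X212.Lns4.Neck

/-!
# X212 / Line51, part Mf (helper51): a frame with a lens arc; the lines of all frames from the entry data
-/

set_option autoImplicit false
set_option linter.unusedSectionVars false

open Set Function Matrix
noncomputable section

namespace Crest.Agent.X212.Line51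

open Crest.Agent.X212.Wd38 Crest.Agent.X212.M Crest.Agent.X212.Nm96 Crest.Agent.X212.Br55
open Crest.Agent.X212.Rod53 (Z2 dt)

variable {Γ : Nm} {C : Cx Γ} {P : Pm Γ} {κ lam : Type} [Fintype κ] [Fintype lam] [DecidableEq lam]
  {G : Tab C.kd κ} {c ci : Γ.J}

/-- a half turn through the rods of a lens arc -/
def vM : ℕ → Z2
  | 0 => (4, 1) | 1 => (1, 0) | 2 => (1, 1) | 3 => (1, 2) | 4 => (0, 1) | 5 => (-1, 2) | 6 => (-1, 1)
  | 7 => (-1, 0) | _ => (-4, -1)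

/-- **a frame with a lens arc** -/
theorem exists_ls (E : Ent P P.kL c ci) : ∃ (F : Fm Γ) (n : Wt) (l : Bs), F.OK P ∧ F.LOK P n ∧ l ∈ F.ls := by
  obtain ⟨y, o1, o2⟩ := E.ok
  have pr : Pr Γ.cap.2 := E.cap ▸ ⟨(0, 1), .inl rfl⟩
  have h : Tn (⟨0, 28, fun _ => .rod Γ.cap⟩ : Shp Γ) ⟨fun _ => P.Λ.x, fun _ => P.Λ.x, 0, 0⟩ Γ.cap.1
      (fun k => if k ≤ 1 then k + 1 else k + 23) vC (mC P.Λ.x) 3 :=
    ⟨strictMono_nat_of_lt_succ fun k => by split_ifs <;> omega, by simp, by simp,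
      fun _ _ _ => ⟨congrArg Sl.rod (Prod.ext rfl E.cap), rfl, rfl⟩, by unfold Rod53.Uni; decide, rfl, rfl⟩
  obtain ⟨a1, b1⟩ := h.ok (Λ := P.Λ) ⟨by simp, rfl, rfl, fun _ _ _ => ⟨pr, pr⟩, fun _ _ _ => ⟨rfl, .inl (.inl rfl)⟩⟩
    ⟨rfl, rfl, fun _ _ _ _ _ => rfl, fun _ _ _ _ => nofun, fun _ _ _ _ => rfl, fun _ _ _ q => (pr.ne_neg q).elim⟩
  obtain ⟨a2, b2⟩ := can_ok (J := c) (J' := ci) (x := 3) (y := 23) a1 b1 (by simp [Shp.put]) (by simp)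
    (by simp [Shp.put]) (by rw [E.src]; exact (h.pt.rd 1 (by simp)).mono (by simp) (by simp)) E.src' E.tgt'
    (E.tgt ▸ ⟨(1, 0), .inr rfl⟩) o1 o2
  have key : ∀ {w : Shp Γ} {n : Wt}, w.l = 0 → w.r = 28 → Tn (w.can c ci 3 23) (n.can 3 23 y) P.kL
      (fun k => 2 * k + 4) vM (fun k => if k = 0 then y else if k = 8 then -y else 1) 8 := fun {w n} p q =>
    ⟨strictMono_nat_of_lt_succ fun k => by omega, by simp [Shp.can, p], by simp [Shp.can, q], by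
      have := can_rd (w := w) (J := c) (J' := ci) (x := 3) (y := 23) (μ' := y) n
      rw [E.tgt] at this
      exact this.mono (by simp) (by simp), by unfold Rod53.Uni; decide, rfl, rfl⟩
  obtain ⟨h', a3, b3⟩ := (fun k => ⟨k, k.ok a2 b2⟩ : _ → _ ∧ _) (key rfl rfl)
  have r := h'.pt.rd
  refine ⟨⟨_, ∅, {.lA 11 14}⟩, _, _, ⟨a3, by simp, fun l k => ⟨11, Finset.mem_singleton.1 k, show (0 : ℤ) < _ by simp,
    show _ < (28 : ℤ) by simp, fun j p q => ?_⟩, by simp, by simp⟩, ⟨b3, rfl, rfl, fun l k => ?_⟩,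
    Finset.mem_singleton_self _⟩
  · unfold lrd
    split_ifs
    exacts [(r 3 (by simp) j (by omega) (by omega)).1, (r 4 (by simp) j (by omega) (by omega)).1,
      (r 5 (by simp) j (by omega) (by omega)).1]
  · rw [Finset.mem_singleton.1 k]
    exact ⟨(r 3 (by simp) 10 (by simp) (by simp)).2.1, (r 5 (by simp) 14 (by simp) (by simp)).2.1,
      .inr (r 4 (by simp) 12 (by simp) (by simp)).2.1⟩

/-- **the lines of all frames**, with all their properties -/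
theorem exists_lp (E : Ent P P.kL c ci) (K : LCx C P.Λ) (hi : ∀ J J', P.iv J J' → Mv27.LInv K J J')
    (hJ : ∀ J, (Γ.src J).2.2 ≠ 0 ∧ (Γ.tgt J).2.2 ≠ 0) (e : K3 ⊕ K3 ↪ lam) (e₈ : Fin 8 ↪ κ)
    (sp : ∀ τ j, (G.g τ).e (e₈ j) = 0) (hG : ∀ τ, Gl9.Std C.kd τ (G.g τ).e) :
    ∃ L : LP C G P lam, L.L = K ∧ L.e = e₈ ∧ Mv27.Nat L ∧
      (∃ V : Matrix lam K3 ℂ, Vᴴ * V = 1 ∧ ∀ {w ls} (h : (Br55.f0 w ls).OK P) {n} (hn : (Br55.f0 w ls).LOK P n) μ,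
        IsN V (L.W h hn μ) (L.N h hn μ)) ∧ G75.CutOK L.Lm ∧
      (∀ s, (L.Lm.cut s).supp ⊆ (L.Lm.M.sys.w ()).sd false) ∧
      (∀ s, Csm97.Dat L.Lm.X.I (L.Lm.cut s) ∧ Cut54.Deg (fun θ r => (L.Lm.N s).p ((L.Lm.cut s).γ θ r)) 2) ∧
      ∃ K : Lns95.LOK L.Lm 4, ∀ σ, K.k σ = cond σ (-2) 2 ∧ |K.k σ| = 2 := by
  obtain ⟨F, n, l, h, hn, hl⟩ := exists_ls E
  obtain ⟨D, -⟩ := exists_lmd G K e h hn hl
  obtain ⟨B, b, cut, h1, h2, h3⟩ := D.exists_lm (Lns4.met Lns4.neck) hG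
  exact ⟨D.lp hJ e₈ (fun τ _ j y => congrFun (sp τ j) y) B b cut h2, rfl, rfl, D.nat _ _ _ _ _ _ _ hi,
    D.lp_nat D.h hJ e₈ _ B b cut h2, h1, h2, h3⟩

end Crest.Agent.X212.Line51
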