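import Crest.Agent.X212.Line51.Nek
import Crest.Agent.X212.Tau19.TL
import Crest.Agent.X212.Wd38.Sh

/-!
# X212 / Line51, part Tw (helper51): the canonical isometry over a twist; toric maps

* `Wts` : the orders of a line along a toric sphere; `TwR`, `exists_twR` : the canonical isometry `τ^* O(m) = O(m')`;
* `TwR.nr` : its naturality under translations;
* `TM f O` : toric maps; `TL.tm` : toric lines pull back.
-/

set_option autoImplicit false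
set_option linter.unusedSectionVars false

open Set Filter Topology Function Matrix
open scoped ContDiff Manifold

noncomputable section

namespace Crest.Agent.X212.Line51

open Crest.Agent.X212.Glue52 Crest.Agent.X212.Pj41 Crest.Agent.X212.Tau19 Crest.Agent.X212.Wd38
open Crest.Agent.X212.Rod53 hiding Uni X

variable {EN HN : Type} [NormedAddCommGroup EN] [NormedSpace ℝ EN] [FiniteDimensional ℝ EN]
  [TopologicalSpace HN] {IN : ModelWithCorners ℝ EN HN} [IN.Boundaryless]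
  {N : Type} [TopologicalSpace N] [ChartedSpace HN N] [IsManifold IN ∞ N] [T2Space N]
  {κ l κ' l' : Type*} [Fintype κ] [Fintype l] [Fintype κ'] [Fintype l'] {n e : ℕ} {k R r c d : ℝ}
  {v v' : ℝ → Z2} {a b a' : Z2} {T T' : Tb IN N} {m m' : ℝ → ℤ} {i j h h' : ℤ}
  {p : Rod53.X T v → Matrix κ κ ℂ} {q : Rod53.X T v → Matrix l l ℂ} {s : Rod53.X T v → Matrix κ Unit ℂ}
  {s' : Rod53.X T v → Matrix l Unit ℂ} {O : Set (Rod53.X T v)}

/-- the orders `i`, `h`, `j` along the rods `a`, `b`, `a'` -/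
structure Wts (v : ℝ → Z2) (m : ℝ → ℤ) (a b a' : Z2) (c k R : ℝ) (i h j : ℤ) : Prop where
  l : ∃ η, dot η a = i ∧ dot η b = h ∧ ∀ t ∈ Ioo (c - R) (c + k ^ 2 / 2), Rep v m η t
  r : ∃ η, dot η b = h ∧ dot η a' = j ∧ ∀ t ∈ Ioo (c - k ^ 2 / 2) (c + R), Rep v m η t

/-- the characters of the model -/
def cw (i h j : ℤ) (y : C3) : Circle := dir y.1.1 ^ i * dir y.1.2 ^ j * dir y.2 ^ h

/-- the phase of the twist -/
def gw (e : ℕ) (ρ : ℝ) (i h j h' : ℤ) (y : C3) : Circle := (cw i h j (tt e ρ 1 y))⁻¹ * cw i h' j y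

theorem exists_eqv (S : Sph v a b a' n c k R) (hD : S.Ψ T '' Dm k R ⊆ O) (hp : TL T v m p s O)
    (w : Wts v m a b a' c k R i h j) : ∃ E, S.Eqv T p (n * h - i - j) E ∧
      ∀ y ∈ Dm k R, S.Ψ T y ∈ off T v → E y = (((cw i h j y)⁻¹ : Circle) : ℂ) • s (S.Ψ T y) := by
  obtain ⟨⟨η₁, rfl, b1, r1⟩, η₂, rfl, rfl, r2⟩ := w
  have s1 : S.O1 T ⊆ S.Ψ T '' Dm k R := image_mono fun _ t => t.1
  have s2 : S.O2 T ⊆ S.Ψ T '' Dm k R := image_mono fun _ t => t.1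
  have st : S.Ψ T '' Dm k R ⊆ T.tor v := fun _ t => (S.image_subset_disc T t).1
  obtain ⟨t₁, x1⟩ := xt_of_TL (S.isOpen_O1 T) (s1.trans st) (hp.mono (s1.trans hD))
    fun x t o => r1 _ (S.time_O1 T t o)
  obtain ⟨t₂, x2⟩ := xt_of_TL (S.isOpen_O2 T) (s2.trans st) (hp.mono (s2.trans hD))
    fun x t o => r2 _ (S.time_O2 T t o)
  have F := S.fr2_of T x1 x2 (by rw [dot_neg, dot_neg, b1])
  have e1 := S.dot_sum η₁
  have e2 := S.dot_sum η₂
  rw [show dot (-η₂) a' - dot (-η₁) a' = n * dot η₂ b - dot η₁ a - dot η₂ a' by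
    rw [dot_neg, dot_neg, ← b1]; linarith] at F
  refine ⟨_, F.eqv, fun y hy ho => ?_⟩
  obtain ⟨o1, o2, o3⟩ := (S.Ψ_mem_off T hy).1 ho
  rw [S.eqs_2 T o1, x2.eq _ ⟨y, ⟨hy, o1⟩, rfl⟩ ho, csmul_smul, S.chi_Ψ T _ o1 o2 o3, ← mul_assoc, ← mul_assoc,
    ← _root_.zpow_add, cw, mul_inv, mul_inv, ← _root_.zpow_neg, ← _root_.zpow_neg, ← _root_.zpow_neg, dot_neg,
    dot_neg, dot_neg, show n * dot η₂ b - dot η₁ a - dot η₂ a' + -dot η₂ a = -dot η₁ a by linarith]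

/-- the canonical isometry over the twist -/
structure TwR (S : Sph v a b a' n c k R) (hn : n * e = 2) (hr : r ∈ Ioo (k ^ 2 / 2) R) (i h j h' : ℤ)
    (p : Rod53.X T v → Matrix κ κ ℂ) (s : Rod53.X T v → Matrix κ Unit ℂ) (q : Rod53.X T v → Matrix l l ℂ)
    (s' : Rod53.X T v → Matrix l Unit ℂ) (U : Rod53.X T v → Matrix κ l ℂ) (O : Set (Rod53.X T v)) : Prop where
  uni : Uni (𝓡 4) q (fun x => p (S.tau T hn hr x)) U O
  out : ∀ x ∈ O, x ∉ S.K T (rh k r) → x ∈ off T v → U x * s' x = s x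
  inn : ∀ y ∈ Dm k R, S.Ψ T y ∈ off T v → S.Ψ T (tt e (rh k r) 1 y) ∈ off T v →
    U (S.Ψ T y) * s' (S.Ψ T y) = (gw e (rh k r) i h j h' y : ℂ) • s (S.Ψ T (tt e (rh k r) 1 y))

theorem exists_twR (S : Sph v a b a' n c k R) (hn : n * e = 2) (hr : r ∈ Ioo (k ^ 2 / 2) R) (hO : IsOpen O)
    (hD : S.Ψ T '' Dm k R ⊆ O) (hp : TL T v m p s O) (hq : TL T v m' q s' O)
    (w : Wts v m a b a' c k R i h j) (w' : Wts v m' a b a' c k R i h' j) (hh : h' = -h + e * (i + j))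
    (hm : ∀ x ∈ O, ∀ t ∉ Icc (c - k ^ 2 / 2) (c + k ^ 2 / 2), T.time v x = t → m' =ᶠ[𝓝 t] m) :
    ∃ U, TwR S hn hr i h j h' p s q s' U O := by
  have hn' : (n : ℤ) * e = 2 := by exact_mod_cast hn
  have hρ := rh_pos S.pos hr.1
  have h1 : (1 : ℝ) * 1 = 1 := one_mul 1
  obtain ⟨E, hE, eE⟩ := exists_eqv S hD hp w
  obtain ⟨E', hE', eE'⟩ := exists_eqv S hD hq w'
  rw [show n * h' - i - j = -(n * h - i - j) by rw [hh]; linear_combination (i + j) * hn'] at hE'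
  have oK : IsOpen (O \ S.K T (rh k r)) := hO.sdiff (S.isCompact_K T hr.2).isClosed
  obtain ⟨u, hu, u2⟩ := ((hq.mono sdiff_subset).congr_m (m' := m) fun x hx o =>
    (hm x hx.1 _ (fun t => hx.2 (S.mem_K_of_axis T hρ.le o t)) rfl).symm).uni oK (hp.mono sdiff_subset)
  have nK : ∀ y ∈ Dm k R, rh k r < ‖y.2‖ ^ 2 → S.Ψ T y ∈ O \ S.K T (rh k r) := fun y hy h =>
    ⟨hD ⟨y, hy, rfl⟩, fun t => h.not_ge ((S.Ψ_mem_K T hr.2 hy).1 t)⟩
  have un : ∀ y ∈ Dm k R, S.Ψ T y ∈ off T v → PIso (s' (S.Ψ T y)) 1 (q (S.Ψ T y)) :=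
    fun y hy o => hq.fr.iso _ ⟨hD ⟨y, hy, rfl⟩, o⟩
  have hF : ∀ z, ∀ y ∈ Dm k R, E (tt e (rh k r) 1 (act n z y)) * (E' (act n z y))ᴴ =
      E (tt e (rh k r) 1 y) * (E' y)ᴴ := fun z y h => by
    rw [tt_act hn, hE.wt _ _ (Dm.tt hρ h1 h), hE'.wt _ _ h, smul_mul_ct]
    simp
  have hd : ∀ y ∈ Dm k R, rh k r < ‖y.2‖ ^ 2 → E (tt e (rh k r) 1 y) * (E' y)ᴴ = u (S.Ψ T y) := fun y h0 hy => by
    rw [tt_large hn hρ hy.le, hE.wt _ _ h0, Matrix.smul_mul]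
    refine (S.eq_large T hE hE' hρ h0 hy (hu.sm _ (nK y h0 hy)) fun y hD hy ho => ?_).symm
    rw [eE y hD ho, eE' y hD ho, smul_mul_ct, csmul_smul, ← u2 _ (nK y hD hy) ho, Matrix.mul_assoc,
      (un y hD ho).tgt, (hu.iso _ (nK y hD hy)).idem, inv_inv, cw, cw, ← zpow_natCast, ← _root_.zpow_mul,
      show e * (n * h - i - j) = h - h' by rw [hh]; linear_combination h * hn', _root_.zpow_sub]
    refine (one_smul ℂ _).symm.trans (congrArg (fun z : Circle => (z : ℂ) • u (S.Ψ T y)) (?_ : (1 : Circle) = _))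
    simp only [mul_inv]
    generalize dir y.1.1 ^ i = A, dir y.1.2 ^ j = B, dir y.2 ^ h = C, dir y.2 ^ h' = D
    apply Additive.ofMul.injective
    simp only [ofMul_mul, ofMul_inv, ofMul_one]
    abel
  have of := fun x => S.dsc_off T (d := u) hF hd (x := x)
  refine ⟨S.dsc T (fun y => E (tt e (rh k r) 1 y) * (E' y)ᴴ) u, ⟨fun x hx => ?_, fun x hx => ?_⟩, fun x a b o => by rw [of x b, u2 x ⟨a, b⟩ o], fun y hy o o' => by
    rw [S.dsc_Ψ T u hF hy, eE _ (Dm.tt hρ h1 hy) o', eE' y hy o, smul_mul_ct, inv_inv, Matrix.smul_mul,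
      Matrix.mul_assoc, (un y hy o).src, Matrix.mul_one, gw]⟩ <;> by_cases h : x ∈ S.K T (rh k r)
  · obtain ⟨m, h, rfl⟩ := h
    obtain ⟨s, s1, s2⟩ := S.sec T (S.K_dom hr.2 h)
    have s3 := s2.mono fun _ t => t.1
    have k1 : MSm (𝓡 4) (fun y => E (tt e (rh k r) 1 (s y))) (S.Ψ T m) := fun i j =>
      ((hE.sm i j).comp (contDiff_tt e hρ 1) fun _ => Dm.tt hρ h1).cm s1 s3
    have k2 : MSm (𝓡 4) (fun y => E' (s y)) (S.Ψ T m) := fun i j => (hE'.sm i j).cm s1 s3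
    exact (k1.mul k2.ct).congr (s2.mono fun y t => (congrArg _ t.2).symm.trans (S.dsc_Ψ T u hF t.1))
  · exact (hu.sm x ⟨hx, h⟩).congr
      (eventually_of_mem ((S.isCompact_K T hr.2).isClosed.isOpen_compl.mem_nhds h) of)
  · obtain ⟨m, h, rfl⟩ := h
    have hm := S.K_dom hr.2 h
    rw [S.dsc_Ψ T u hF hm, S.tau_Ψ T hn hr hm]
    exact (hE'.iso m hm).symm.trans (hE.iso _ (Dm.tt hρ h1 hm))
  · rw [of x h, S.tau_off T hn hr h]
    exact hu.iso x ⟨hx, h⟩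

theorem nr_off {x : Rod53.X T' v'} {y : Rod53.X T v} (e : T' = T) (h : NR d x y) :
    y ∈ off T v ↔ x ∈ off T' v' := by simp only [off, mem_ofPred_eq, h.eta e]

theorem nr_chi {x : Rod53.X T' v'} {y : Rod53.X T v} (e : T' = T) (h : NR d x y) (o : x ∈ off T' v') (η : Z2) :
    chi T v η y = chi T' v' η x := by
  subst e
  obtain ⟨z, hz, rfl⟩ := exists_ext_of_off o
  rw [h.uq (NR.ext rfl hz), chi_ext' hz, chi_ext' (q := (z.1, z.2 + d)) hz]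

/-- **naturality of the twist isometries** -/
theorem TwR.nr {S : Sph v a b a' n (c + d) k R} {S' : Sph v' a b a' n c k R} {hn : n * e = 2}
    {hr : r ∈ Ioo (k ^ 2 / 2) R} {U : Rod53.X T v → Matrix κ l ℂ} (H : TwR S hn hr i h j h' p s q s' U O)
    {p₁ : Rod53.X T' v' → Matrix κ' κ' ℂ} {s₁ : Rod53.X T' v' → Matrix κ' Unit ℂ}
    {q₁ : Rod53.X T' v' → Matrix l' l' ℂ} {s₁' : Rod53.X T' v' → Matrix l' Unit ℂ}
    {U₁ : Rod53.X T' v' → Matrix κ' l' ℂ} {O₁ : Set (Rod53.X T' v')}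
    (H' : TwR S' hn hr i h j h' p₁ s₁ q₁ s₁' U₁ O₁) (e' : T' = T)
    (hv : ∀ x ∈ Ioo (c - R) (c + R), v' x = v (x + d)) {x : Rod53.X T' v'} {y : Rod53.X T v} (l : NR d x y)
    (hx : x ∈ O₁) (hy : y ∈ O) (o : x ∈ off T' v') (o' : S'.tau T' hn hr x ∈ off T' v') :
    ∃ γ : Circle, U₁ x * s₁' x = (γ : ℂ) • s₁ (S'.tau T' hn hr x) ∧
      U y * s' y = (γ : ℂ) • s (S.tau T hn hr y) := by
  have oy := (nr_off e' l).2 o
  by_cases z : x ∈ S'.Ψ T' '' Dm k R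
  · obtain ⟨z, hz, rfl⟩ := z
    have oy' := (nr_off e' (NR.tau e' S' S hv hn hr l)).2 o'
    obtain rfl := l.uq (NR.psi e' S' S hv hz)
    rw [S'.tau_Ψ T' hn hr hz] at o' ⊢
    rw [S.tau_Ψ T hn hr hz] at oy' ⊢
    exact ⟨_, H'.inn z hz o o', H.inn z hz oy oy'⟩
  · have k1 : x ∉ S'.K T' (rh k r) := fun u => z (image_mono (S'.K_dom hr.2) u)
    have k2 : y ∉ S.K T (rh k r) := by
      rintro ⟨w, hw, rfl⟩
      exact z ⟨w, S.K_dom hr.2 hw, (NR.psi e' S' S hv (S.K_dom hr.2 hw)).uq' l⟩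
    exact ⟨1, by rw [S'.tau_off T' hn hr k1, H'.out x hx k1 o, Circle.coe_one, one_smul],
      by rw [S.tau_off T hn hr k2, H.out y hy k2 oy, Circle.coe_one, one_smul]⟩

/-! ### toric maps -/

/-- `f` is a toric map on `O` that matches the orders -/
structure TM (f : Rod53.X T' v' → Rod53.X T v) (m' m : ℝ → ℤ) (O : Set (Rod53.X T' v')) : Prop where
  op : IsOpen O
  sm : ∀ x ∈ O, ContMDiffAt (𝓡 4) (𝓡 4) ∞ f x
  of : ∀ x ∈ O, f x ∈ off T v ↔ x ∈ off T' v'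
  ch : ∀ η, ∀ x ∈ O, x ∈ off T' v' → chi T v η (f x) = chi T' v' η x
  rp : ∀ η, ∀ x ∈ O, x ∉ off T' v' → Rep v m η (T.time v (f x)) → Rep v' m' η (T'.time v' x)

variable {f : Rod53.X T' v' → Rod53.X T v} {O' : Set (Rod53.X T' v')}

theorem TL.tm (h : TL T v m p s O) (hf : TM f m' m O') (hO : MapsTo f O' O) :
    TL T' v' m' (fun x => p (f x)) (fun x => s (f x)) O' := by
  refine ⟨h.fr.comp ⟨fun y hy => hf.sm y hy.1, fun y hy => ⟨hO hy.1, (hf.of y hy.1).2 hy.2⟩⟩, fun y hy o => ?_⟩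
  obtain ⟨η, a, b⟩ := h.ax _ (hO hy) (mt (hf.of y hy).1 o)
  exact ⟨η, hf.rp η y hy o a, (Og.comp (I := 𝓡 4) b (eventually_of_mem (hf.op.mem_nhds hy) hf.sm)).congr
    EventuallyEq.rfl (eventually_of_mem (hf.op.mem_nhds hy) fun z hz k =>
      ⟨(hf.of z hz).2 k, rfl, (hf.ch η z hz k).symm⟩)⟩

/-- translations are toric maps -/
theorem tm_nr (e : T' = T) (hO : IsOpen O') (hf : ∀ x ∈ O', NR d x (f x)) (ha : O' ⊆ ag T' v' v d)
    (hm : ∀ x ∈ O', x ∉ off T' v' → ∀ᶠ t in 𝓝 (T'.time v' x), m' t = m (t + d)) : TM f m' m O' :=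
  ⟨hO, fun x hx => (ld_ff e (ha hx)).contMDiffAt.congr_of_eventuallyEq
      (eventually_of_mem (hO.mem_nhds hx) fun y hy => (hf y hy).ff_eq.symm),
    fun x hx => nr_off e (hf x hx), fun η x hx o => nr_chi e (hf x hx) o η, fun η x hx o r => by
      rw [(hf x hx).time] at r
      filter_upwards [(continuous_add_const d).continuousAt.eventually r, hm x hx o,
        mem_Ag.1 ((ha hx).resolve_left o)] with t a b c
      rw [b, c, a]⟩

theorem TL.mt (hO : IsOpen O) (h : TL T v m p s O) (h' : TL T v m q s' O) :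
    ∃ u, Mt (𝓡 4) (off T v) p s q s' u O := let ⟨u, a, b⟩ := h.uni hO h'; ⟨u, a, b⟩

end Crest.Agent.X212.Line51
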